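import Vale.Agent.P092.H605.Core

/-!
P092, stable isomorphisms: the unitary representation of `Γ` which is the completion of
`S ↦ A3(g) S Δ(U_g)*`, and the fourth power sums as its coefficient.
-/

set_option linter.all false

open scoped InnerProductSpace
open Filter Topology ContinuousLinearMap

namespace Vale.Agent.P092.H605

open Vale.Agent.P092.H160 Vale.Agent.P092.H885

section rep

variable {I Λ : Type} [Group Λ]

/-- the index set of the threefold tensor power -/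
abbrev J3 (I : Type) : Type := I × I × I

/-- threefold product -/
abbrev K3 (Λ : Type) : Type := Λ × Λ × Λ

/-- coordinates adapted to the diagonal right translations -/
def psi (I J Λ : Type) [Group Λ] : I × (J × K3 Λ) ≃ (J × (Λ × Λ)) × (I × Λ) where
  toFun x := ((x.2.1, (x.2.2.2.1 * x.2.2.1⁻¹, x.2.2.2.2 * x.2.2.1⁻¹)), (x.1, x.2.2.1⁻¹))
  invFun y := (y.2.1, (y.1.1, (y.2.2⁻¹, y.1.2.1 * y.2.2⁻¹, y.1.2.2 * y.2.2⁻¹)))
  left_inv x := by simp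
  right_inv y := by simp

theorem tens_one_left {X Y Z : Type} (B : Ell2 Y →L[ℂ] Ell2 Z) :
    tens (1 : Ell2 X →L[ℂ] Ell2 X) B = ampR X B := by
  apply op_ext
  rintro ⟨x, y⟩
  rw [tens_dl, dl_prod, ampR_tv]
  rfl

/-- the extension of the right multiplication by `Δ(V)*` -/
noncomputable def RR {I J Λ : Type} [Group Λ] (V : Ell2 (I × Λ) →L[ℂ] Ell2 (I × Λ)) :
    Ell2 (I × (J × K3 Λ)) →L[ℂ] Ell2 (I × (J × K3 Λ)) :=
  rei (psi I J Λ).symm ∘L tens 1 (bar V) ∘L rei (psi I J Λ)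

theorem RR_apply {J : Type} (V : Ell2 (I × Λ) →L[ℂ] Ell2 (I × Λ)) (v : Ell2 (I × (J × K3 Λ))) :
    RR V v = rei (psi I J Λ).symm (tens 1 (bar V) (rei (psi I J Λ) v)) := rfl

theorem RR_mul {J : Type} (V W : Ell2 (I × Λ) →L[ℂ] Ell2 (I × Λ)) :
    (RR (V * W) : Ell2 (I × (J × K3 Λ)) →L[ℂ] Ell2 (I × (J × K3 Λ))) = RR V * RR W := by
  ext1 v
  have h1 := tens_mul (1 : Ell2 (J × (Λ × Λ)) →L[ℂ] Ell2 (J × (Λ × Λ))) 1 (bar W) (bar V)
  rw [mul_one] at h1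
  rw [mul_ap, RR_apply, RR_apply, RR_apply, rei_rei (psi I J Λ).symm, Equiv.symm_trans_self,
    rei_refl, bar_mul, h1]
  rfl

theorem RR_adj {J : Type} (V : Ell2 (I × Λ) →L[ℂ] Ell2 (I × Λ)) :
    adjoint (RR V : Ell2 (I × (J × K3 Λ)) →L[ℂ] Ell2 (I × (J × K3 Λ))) = RR (adjoint V) := by
  change adjoint (rei (psi I J Λ).symm ∘L tens 1 (bar V) ∘L rei (psi I J Λ)) = _
  rw [adjoint_comp, adjoint_comp, adjoint_rei, adjoint_rei, adjoint_tens, Equiv.symm_symm,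
    ← star_eq_adjoint (1 : Ell2 (J × (Λ × Λ)) →L[ℂ] Ell2 (J × (Λ × Λ))), star_one, adjoint_bar]
  rfl

variable [Fintype I]

theorem LL_vec {K J L : Type} [Group K] (A : Ell2 (J × K) →L[ℂ] Ell2 (L × K))
    (S : Ell2 (I × K) →L[ℂ] Ell2 (J × K)) : tens 1 A (vec S) = vec (A ∘L S) := by
  unfold vec
  rw [map_sum]
  refine Finset.sum_congr rfl fun i _ => ?_
  rw [tens_tv]
  rfl

theorem RR_vec {J : Type} {V : Ell2 (I × Λ) →L[ℂ] Ell2 (I × Λ)} (hV : Hm V)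
    {S : Ell2 (I × K3 Λ) →L[ℂ] Ell2 (J × K3 Λ)} (hS : Hm S) :
    RR V (vec S) = vec (S ∘L adjoint (Del V)) := by
  apply ext_inner_dl
  rintro ⟨k, j, a, b, c⟩
  -- the left side
  set f : Ell2 (I × Λ) := sl (rei (psi I J Λ) (vec S)) (j, (b * a⁻¹, c * a⁻¹)) with hf
  have h1 : RR V (vec S) (k, (j, (a, b, c))) = (starRingEnd ℂ) (V (rt I a⁻¹ (cj f)) (k, 1)) := by
    rw [RR_apply, tens_one_left]
    change (bar V f) (k, a⁻¹) = _
    rw [bar_apply, cj_apply, hV, rt_apply, one_mul]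
  have h2 : rt I a⁻¹ (cj f) = adjoint (emb I Λ) (adjoint S (dl (j, (a, b, c)))) := by
    apply ext_inner_dl
    rintro ⟨i, e⟩
    rw [rt_apply, cj_apply, ← inner_dl (i, e), adjoint_inner_right, emb_dl, adjoint_inner_right,
      inner_dl_right, hS.dl, rt_apply]
    congr 1
    change vec S (i, (j, ((e * a⁻¹)⁻¹, b * a⁻¹ * (e * a⁻¹)⁻¹, c * a⁻¹ * (e * a⁻¹)⁻¹))) = _
    rw [vec_apply]
    congr 3
    simp
  have h3 : vec (S ∘L adjoint (Del V)) (k, (j, (a, b, c))) =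
      (starRingEnd ℂ) (V (adjoint (emb I Λ) (adjoint S (dl (j, (a, b, c))))) (k, 1)) := by
    have h4 : adjoint (Del V) (dl (k, (1 : K3 Λ))) = emb I Λ (adjoint V (dl (k, 1))) := by
      rw [Del_adj]
      exact Del_dl _ _
    rw [vec_apply, comp_apply, h4, ← inner_dl, ← adjoint_inner_left, ← adjoint_inner_left,
      adjoint_inner_right, inner_dl_right]
  rw [h1, h2, h3]

/-- matrix units -/
noncomputable def mu {X Y : Type} (y : Y) (x : X) : Ell2 X →L[ℂ] Ell2 Y :=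
  (innerSL ℂ (dl x : Ell2 X)).smulRight (dl y)

theorem mu_apply {X Y : Type} (y : Y) (x : X) (v : Ell2 X) : mu y x v = v x • dl y := by
  change ⟪(dl x : Ell2 X), v⟫_ℂ • dl y = _
  rw [inner_dl]

omit [Fintype I] in
theorem hm_tens {J K : Type} [Group K] (A : Ell2 I →L[ℂ] Ell2 J) {B : Ell2 K →L[ℂ] Ell2 K}
    (hB : ∀ x, B * rho x = rho x * B) : Hm (tens A B) := by
  intro x v
  rw [rt_eq_tens, rt_eq_tens]
  have h1 : tens A B ∘L tens (1 : Ell2 I →L[ℂ] Ell2 I) (rho x) =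
      tens (1 : Ell2 J →L[ℂ] Ell2 J) (rho x) ∘L tens A B := by
    rw [tens_comp, tens_comp]
    congr 1
    exact hB x
  exact congrArg (fun L : Ell2 (I × K) →L[ℂ] Ell2 (J × K) => L v) h1

theorem exists_vec {J K : Type} [Group K] (z : I × (J × K)) :
    ∃ S : Ell2 (I × K) →L[ℂ] Ell2 (J × K), Hm S ∧ vec S = dl z := by
  classical
  obtain ⟨k, j, x⟩ := z
  refine ⟨tens (mu j k) (lam x), hm_tens _ fun y => (rho_lam y x).symm, ?_⟩
  apply ext_inner_dl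
  rintro ⟨i, w⟩
  rw [vec_apply, tens_dl, mu_apply, lam_dl, mul_one, tv_smul_left, ← dl_prod]
  change (dl i : Ell2 I) k * (dl (j, x) : Ell2 (J × K)) w = _
  rw [dl_apply, dl_apply, dl_apply]
  by_cases h1 : k = i
  · subst h1
    by_cases h2 : w = (j, x)
    · subst h2; simp
    · have h3 : ¬ ((k, w) = (k, (j, x))) := fun h => h2 (congrArg Prod.snd h)
      rw [if_neg h2, if_neg h3, mul_zero]
  · have h3 : ¬ ((i, w) = (k, (j, x))) := fun h => h1 (congrArg Prod.fst h).symm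
    rw [if_neg h1, if_neg h3, zero_mul]

theorem LL_RR {J : Type} {V : Ell2 (I × Λ) →L[ℂ] Ell2 (I × Λ)} (hV : Hm V)
    {A : Ell2 (J × K3 Λ) →L[ℂ] Ell2 (J × K3 Λ)} (hA : Hm A) :
    tens 1 A * RR V = RR V * tens (1 : Ell2 I →L[ℂ] Ell2 I) A := by
  apply op_ext
  intro z
  obtain ⟨S, hS, hz⟩ := exists_vec z
  rw [mul_ap, mul_ap, ← hz, RR_vec hV hS, LL_vec, LL_vec, RR_vec hV (hA.comp hS)]
  rfl

/-- the isometry `δ_i ↦ δ_(i,i,i)` -/
theorem orth_dg (I : Type) : Orthonormal ℂ (fun i : I => (dl (i, i, i) : Ell2 (J3 I))) := by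
  refine ⟨fun s => norm_dl _, fun s t hne => ?_⟩
  change ⟪(dl (s, s, s) : Ell2 (J3 I)), dl (t, t, t)⟫_ℂ = 0
  rw [inner_dl, dl_ne]
  intro h
  exact hne (congrArg Prod.fst h)

/-- the isometry `δ_i ↦ δ_(i,i,i)` -/
noncomputable def dg (I : Type) : Ell2 I →L[ℂ] Ell2 (J3 I) := opOf (bes_of_orthonormal (orth_dg I))

omit [Fintype I] in
theorem dg_dl (i : I) : dg I (dl i) = dl (i, i, i) := opOf_dl _ i

/-- the isometry `δ_(i,x) ↦ δ_((i,i,i),x)` -/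
noncomputable def J0 (I Λ : Type) [Group Λ] : Ell2 (I × K3 Λ) →L[ℂ] Ell2 (J3 I × K3 Λ) :=
  tens (dg I) 1

omit [Fintype I] in
theorem J0_dl (i : I) (x : K3 Λ) : J0 I Λ (dl (i, x)) = dl ((i, i, i), x) := by
  rw [J0, tens_dl, dg_dl]
  change tv (dl (i, i, i)) (dl x) = _
  exact (dl_prod _ _).symm

omit [Fintype I] in
theorem J0_hm : Hm (J0 I Λ) := hm_tens _ fun x => by rw [one_mul, mul_one]

omit [Fintype I] in
theorem J0_norm (v : Ell2 (I × K3 Λ)) : ‖J0 I Λ v‖ = ‖v‖ := by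
  refine norm_of_adj_comp ?_ v
  have h1 : adjoint (dg I) ∘L dg I = 1 := opOf_isometry (orth_dg I)
  rw [J0, adjoint_tens, tens_comp, h1, ← star_eq_adjoint (1 : Ell2 (K3 Λ) →L[ℂ] Ell2 (K3 Λ)),
    star_one]
  exact tens_one

variable {Γ : Type} [Group Γ] {U : Γ → Ell2 (I × Λ) →L[ℂ] Ell2 (I × Λ)}

/-- `A3(g)` -/
noncomputable def AA (U : Γ → Ell2 (I × Λ) →L[ℂ] Ell2 (I × Λ)) (g : Γ) :
    Ell2 (J3 I × K3 Λ) →L[ℂ] Ell2 (J3 I × K3 Λ) := T3 (U g) (U g) (U g)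

theorem AA_mul (hU : CF U) (g h : Γ) : AA U (g * h) = AA U g * AA U h := by
  unfold AA
  rw [hU.mul, T3_mul]

theorem AA_adj (hU : CF U) (g : Γ) : adjoint (AA U g) = AA U g⁻¹ := by
  unfold AA
  rw [T3_adj, hU.adj]

theorem AA_hm (hU : CF U) (g : Γ) : Hm (AA U g) := T3_hm (hU.hm g) (hU.hm g) (hU.hm g)

/-- the representation -/
noncomputable def pi0 (U : Γ → Ell2 (I × Λ) →L[ℂ] Ell2 (I × Λ)) (g : Γ) :
    Ell2 (I × (J3 I × K3 Λ)) →L[ℂ] Ell2 (I × (J3 I × K3 Λ)) :=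
  tens 1 (AA U g) * RR (U g)

theorem pi0_mul (hU : CF U) (g h : Γ) : pi0 U (g * h) = pi0 U g * pi0 U h := by
  unfold pi0
  have h1 := tens_mul (1 : Ell2 I →L[ℂ] Ell2 I) 1 (AA U h) (AA U g)
  rw [mul_one] at h1
  rw [hU.mul, RR_mul, AA_mul hU, h1]
  calc tens 1 (AA U g) * tens 1 (AA U h) * (RR (U g) * RR (U h))
      = tens 1 (AA U g) * (tens 1 (AA U h) * RR (U g)) * RR (U h) := by simp only [mul_assoc]
    _ = tens 1 (AA U g) * (RR (U g) * tens 1 (AA U h)) * RR (U h) := by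
        rw [LL_RR (hU.hm g) (AA_hm hU h)]
    _ = _ := by simp only [mul_assoc]

theorem pi0_adj (hU : CF U) (g : Γ) : adjoint (pi0 U g) = pi0 U g⁻¹ := by
  unfold pi0
  rw [← star_eq_adjoint, star_mul, star_eq_adjoint, star_eq_adjoint, RR_adj, adjoint_tens,
    AA_adj hU, hU.adj, ← star_eq_adjoint (1 : Ell2 I →L[ℂ] Ell2 I), star_one,
    LL_RR (hU.hm _) (AA_hm hU _)]

theorem pi0_vec (hU : CF U) (g : Γ) {S : Ell2 (I × K3 Λ) →L[ℂ] Ell2 (J3 I × K3 Λ)} (hS : Hm S) :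
    pi0 U g (vec S) = vec (AA U g ∘L S ∘L Del (U g⁻¹)) := by
  unfold pi0
  rw [mul_ap, RR_vec (hU.hm g) hS, LL_vec, Del_adj, hU.adj]

/-- the unitary representation -/
noncomputable def pi1 (hU : CF U) :
    Γ →* (Ell2 (I × (J3 I × K3 Λ)) →L[ℂ] Ell2 (I × (J3 I × K3 Λ))) where
  toFun g := pi0 U g + (1 - pi0 U 1)
  map_one' := by abel
  map_mul' g h := by
    have e1 : pi0 U (g * h) = pi0 U g * pi0 U h := pi0_mul hU g h
    have e2 : pi0 U g * pi0 U 1 = pi0 U g := by rw [← pi0_mul hU, mul_one]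
    have e3 : pi0 U 1 * pi0 U h = pi0 U h := by rw [← pi0_mul hU, one_mul]
    have e4 : pi0 U 1 * pi0 U 1 = pi0 U 1 := by rw [← pi0_mul hU, one_mul]
    rw [e1, add_mul, mul_add, mul_add, sub_mul, sub_mul, mul_sub, mul_sub, mul_sub, e2, e3, e4]
    simp only [one_mul, mul_one]
    abel

theorem pi1_apply (hU : CF U) (g : Γ) : pi1 hU g = pi0 U g + (1 - pi0 U 1) := rfl

theorem pi1_adj (hU : CF U) (g : Γ) : adjoint (pi1 hU g) = pi1 hU g⁻¹ := by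
  rw [pi1_apply, pi1_apply, ← star_eq_adjoint, star_add, star_sub, star_one, star_eq_adjoint,
    star_eq_adjoint, pi0_adj hU, pi0_adj hU, inv_one]

/-- fourth power sums -/
noncomputable def f4 (V : Ell2 (I × Λ) →L[ℂ] Ell2 (I × Λ)) : ℝ :=
  ∑ j, ∑' z, ‖V (dl (j, 1)) z‖ ^ 4

theorem inner_J0_emb (w : Ell2 (I × Λ)) :
    ⟪rei (sge I Λ) (tv w (tv (cj w) w)), J0 I Λ (emb I Λ w)⟫_ℂ = ((∑' z, ‖w z‖ ^ 4 : ℝ) : ℂ) := by
  rw [← adjoint_inner_left, ← adjoint_inner_left, inner_eq, Complex.ofReal_tsum]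
  congr 1
  funext z
  obtain ⟨i, t⟩ := z
  have h1 : (adjoint (emb I Λ) (adjoint (J0 I Λ) (rei (sge I Λ) (tv w (tv (cj w) w)))))
      (i, t) = w (i, t) * ((starRingEnd ℂ) (w (i, t)) * w (i, t)) := by
    rw [← inner_dl, adjoint_inner_right, adjoint_inner_right, emb_dl, J0_dl, inner_dl]
    rfl
  rw [h1]
  have h2 := Complex.mul_conj (w (i, t))
  rw [Complex.normSq_eq_norm_sq] at h2
  rw [map_mul, map_mul, Complex.conj_conj]
  calc w (i, t) * ((starRingEnd ℂ) (w (i, t)) * (w (i, t) * (starRingEnd ℂ) (w (i, t))))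
      = (w (i, t) * (starRingEnd ℂ) (w (i, t))) * (w (i, t) * (starRingEnd ℂ) (w (i, t))) := by
        ring
    _ = _ := by rw [h2]; push_cast; ring

theorem coeff_inv (hU : CF U) (g : Γ) :
    ⟪vec (J0 I Λ), pi0 U g (vec (J0 I Λ))⟫_ℂ = (f4 (U g⁻¹) : ℂ) := by
  rw [pi0_vec hU g J0_hm, inner_vec, ← adjoint_adjoint (AA U g), ← hs_comp_left, AA_adj hU]
  unfold hs f4
  rw [Complex.ofReal_sum]
  refine Finset.sum_congr rfl fun k _ => ?_
  rw [comp_apply, comp_apply, J0_dl]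
  have h1 : AA U g⁻¹ (dl ((k, k, k), (1 : K3 Λ))) =
      rei (sge I Λ) (tv (U g⁻¹ (dl (k, 1))) (tv (cj (U g⁻¹ (dl (k, 1)))) (U g⁻¹ (dl (k, 1))))) :=
    T3_dl _ _ _ _ _ _
  have h2 : Del (U g⁻¹) (dl (k, (1 : K3 Λ))) = emb I Λ (U g⁻¹ (dl (k, 1))) := Del_dl _ _
  rw [h1, h2]
  exact inner_J0_emb _

theorem coeff0 (hU : CF U) (g : Γ) :
    ⟪vec (J0 I Λ), pi0 U g (vec (J0 I Λ))⟫_ℂ = (f4 (U g) : ℂ) := by
  have h1 := coeff_inv hU g⁻¹
  rw [inv_inv] at h1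
  rw [← adjoint_inner_left, pi0_adj hU, ← inner_conj_symm, h1, Complex.conj_ofReal]

/-- the base vector -/
noncomputable def xi (U : Γ → Ell2 (I × Λ) →L[ℂ] Ell2 (I × Λ)) : Ell2 (I × (J3 I × K3 Λ)) :=
  pi0 U 1 (vec (J0 I Λ))

theorem pi1_xi (hU : CF U) (g : Γ) : pi1 hU g (xi U) = pi0 U g (vec (J0 I Λ)) := by
  have e1 : pi0 U g (pi0 U 1 (vec (J0 I Λ))) = pi0 U g (vec (J0 I Λ)) := by
    rw [← mul_ap, ← pi0_mul hU, mul_one]
  have e2 : pi0 U 1 (pi0 U 1 (vec (J0 I Λ))) = pi0 U 1 (vec (J0 I Λ)) := by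
    rw [← mul_ap, ← pi0_mul hU, mul_one]
  rw [pi1_apply, xi, add_apply, sub_apply, e1, e2]
  change _ + (pi0 U 1 (vec (J0 I Λ)) - pi0 U 1 (vec (J0 I Λ))) = _
  rw [sub_self, add_zero]

/-- The fourth power sums are a coefficient of the unitary representation. -/
theorem coeff1 (hU : CF U) (g : Γ) : ⟪xi U, pi1 hU g (xi U)⟫_ℂ = (f4 (U g) : ℂ) := by
  rw [pi1_xi, xi, ← adjoint_inner_right, pi0_adj hU, inv_one, ← mul_ap, ← pi0_mul hU, one_mul,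
    coeff0 hU]

theorem norm_xi_sq (hU : CF U) : ‖xi U‖ ^ 2 = f4 (U 1) := by
  have h1 := coeff1 hU 1
  have h2 : pi1 hU 1 (xi U) = xi U := by rw [map_one]; rfl
  rw [h2, inner_self_eq_norm_sq_to_K] at h1
  have h3 : ((‖xi U‖ ^ 2 : ℝ) : ℂ) = ((f4 (U 1) : ℝ) : ℂ) := by
    rw [← h1]
    push_cast
    rfl
  exact Complex.ofReal_injective h3

end rep

end Vale.Agent.P092.H605
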