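import Vale.Agent.P092.H605.S1b
import Vale.Agent.P092.H605.Rp

/-!
P092, stable isomorphisms: the corner frame of an isomorphism `L(Γ) → p M_n(L(Λ)) p`.
-/

set_option linter.all false

open scoped InnerProductSpace
open Filter Topology ContinuousLinearMap

namespace Vale.Agent.P092.H605

open Vale.Agent.P092.H160 Vale.Agent.P092.H885
open Vale.Agent.P092.H605.S1 (tr_corner hm_of_inM)

section ent

variable {Λ : Type} [Group Λ] {n : ℕ}

theorem ent_apply (i j : Fin n) (T : H160.St.Op (Fin n × Λ)) (v : Ell2 Λ) :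
    St.ent i j T v = sl (T (tv (dl j) v)) i := rfl

theorem ent_dl (i j : Fin n) (T : H160.St.Op (Fin n × Λ)) (s : Λ) :
    St.ent i j T (dl s) = sl (T (dl (j, s))) i := by
  rw [ent_apply, ← dl_prod]

theorem inM_of_hm {T : H160.St.Op (Fin n × Λ)} (hT : Hm T) : St.InM T := by
  intro i j
  rw [inL_iff, mem_LG_iff]
  intro s
  ext1 v
  have h1 : tv (dl j) (rho s v) = rt (Fin n) s (tv (dl j) v) := by
    rw [rt_eq_tens, tens_tv]
    rfl
  change sl (T (tv (dl j) (rho s v))) i = rho s (sl (T (tv (dl j) v)) i)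
  rw [h1, hT]
  apply ext_inner_dl
  intro x
  rw [sl_apply, rt_apply, rho_apply, sl_apply]

theorem trM_eq (T : H160.St.Op (Fin n × Λ)) : St.trM T = TR T := by
  unfold St.trM TR
  refine Finset.sum_congr rfl fun i _ => ?_
  change ⟪(dl 1 : Ell2 Λ), St.ent i i T (dl 1)⟫_ℂ = _
  rw [ent_dl, inner_dl, inner_dl, sl_apply]

theorem summable_four {X : Type} (v : Ell2 X) : Summable fun z => ‖v z‖ ^ 4 := by
  refine Summable.of_nonneg_of_le (fun _ => by positivity) (fun z => ?_)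
    ((summable_sq v).mul_left (‖v‖ ^ 2))
  have h1 := norm_coord_le v z
  have h2 : ‖v z‖ ^ 2 ≤ ‖v‖ ^ 2 := pow_le_pow_left₀ (norm_nonneg _) h1 2
  calc ‖v z‖ ^ 4 = ‖v z‖ ^ 2 * ‖v z‖ ^ 2 := by ring
    _ ≤ _ := by gcongr

theorem fourM_eq {T : H160.St.Op (Fin n × Λ)} (hT : St.InM T) : St.fourM T = f4 T := by
  unfold St.fourM f4
  rw [Finset.sum_comm]
  refine Finset.sum_congr rfl fun j _ => ?_
  have h1 : ∀ i, fourth (St.ent i j T) = ∑' s, ‖T (dl (j, 1)) (i, s)‖ ^ 4 := by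
    intro i
    have h2 := fourth_eq (⟨St.ent i j T, (inL_iff _).mp (hT i j)⟩ : LG Λ)
    change fourth (St.ent i j T) = _ at h2
    rw [h2]
    refine tsum_congr fun s => ?_
    change ‖(St.ent i j T (dl 1)) s‖ ^ 4 = _
    rw [ent_dl, sl_apply]
  simp only [h1]
  have h2 := (summable_four (T (dl (j, 1)))).hasSum
  have h3 : HasSum (fun i => ∑' s, ‖T (dl (j, 1)) (i, s)‖ ^ 4)
      (∑' z, ‖T (dl (j, 1)) z‖ ^ 4) := by
    refine h2.prod_fiberwise fun i => ?_
    exact ((summable_four (T (dl (j, 1)))).comp_injective (Prod.mk_right_injective i)).hasSum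
  exact (hasSum_fintype _).unique h3

end ent

section iso

variable {Γ Λ : Type} [Group Γ] [Group Λ] {n : ℕ} {p : H160.St.Op (Fin n × Λ)}

theorem inL_lam (g : Γ) : H160.St.InL (lam g : H160.St.Op Γ) := (inL_iff _).mpr (lam_mem_LG g)

theorem inL_u (g : Γ) : H160.St.InL (H160.St.u g : H160.St.Op Γ) := inL_lam g

theorem inL_zero : H160.St.InL (0 : H160.St.Op Γ) := (inL_iff _).mpr (LG Γ).zero_mem

theorem inL_add {S T : H160.St.Op Γ} (hS : H160.St.InL S) (hT : H160.St.InL T) :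
    H160.St.InL (S + T) := (inL_iff _).mpr ((LG Γ).add_mem ((inL_iff _).mp hS) ((inL_iff _).mp hT))

theorem inL_smul (c : ℂ) {S : H160.St.Op Γ} (hS : H160.St.InL S) :
    H160.St.InL (c • S) := (inL_iff _).mpr ((LG Γ).smul_mem ((inL_iff _).mp hS) c)

theorem inL_mul {S T : H160.St.Op Γ} (hS : H160.St.InL S) (hT : H160.St.InL T) :
    H160.St.InL (S * T) := (inL_iff _).mpr ((LG Γ).mul_mem ((inL_iff _).mp hS) ((inL_iff _).mp hT))

theorem inL_star {S : H160.St.Op Γ} (hS : H160.St.InL S) :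
    H160.St.InL (star S) := (inL_iff _).mpr (star_mem ((inL_iff _).mp hS))

variable (θ : St.CornerIso Γ Λ n p)

theorem ci_add {S T : H160.St.Op Γ} (hS : H160.St.InL S) (hT : H160.St.InL T) :
    θ.toFun (S + T) = θ.toFun S + θ.toFun T := θ.map_add S T hS hT

theorem ci_mul {S T : H160.St.Op Γ} (hS : H160.St.InL S) (hT : H160.St.InL T) :
    θ.toFun (S * T) = θ.toFun S * θ.toFun T := θ.map_mul S T hS hT

theorem ci_smul (c : ℂ) {S : H160.St.Op Γ} (hS : H160.St.InL S) :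
    θ.toFun (c • S) = c • θ.toFun S :=
  (isSmul_op c _ _).mp (θ.map_smul c S (c • S) hS (inL_smul c hS) fun ξ => rfl)
  where
  isSmul_op (c : ℂ) (S T : H160.St.Op (Fin n × Λ)) : H160.St.IsSmul c S T ↔ T = c • S := by
    constructor
    · intro h
      ext1 ξ
      exact h ξ
    · rintro rfl ξ
      rfl

theorem isAdj_op {X : Type} (S T : H160.St.Op X) : H160.St.IsAdj S T ↔ T = star S := by
  constructor
  · intro h
    rw [star_eq_adjoint, eq_comm]
    have h2 := (ContinuousLinearMap.eq_adjoint_iff S T).mpr h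
    rw [h2, adjoint_adjoint]
  · rintro rfl ξ η
    change ⟪S ξ, η⟫_ℂ = ⟪ξ, star S η⟫_ℂ
    rw [star_eq_adjoint, adjoint_inner_right]

theorem ci_star {S : H160.St.Op Γ} (hS : H160.St.InL S) :
    θ.toFun (star S) = star (θ.toFun S) :=
  (isAdj_op _ _).mp (θ.map_adj S (star S) hS (inL_star hS) ((isAdj_op _ _).mpr rfl))

theorem ci_zero : θ.toFun 0 = 0 := by
  have h := ci_smul θ 0 (inL_zero (Γ := Γ))
  rw [zero_smul, zero_smul] at h
  exact h

theorem ci_fc (t : Finset Γ) (c : Γ → ℂ) : H160.St.InL (∑ g ∈ t, c g • (lam g : H160.St.Op Γ)) ∧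
    θ.toFun (∑ g ∈ t, c g • lam g) = ∑ g ∈ t, c g • θ.toFun (H160.St.u g) := by
  classical
  induction t using Finset.induction_on with
  | empty =>
    rw [Finset.sum_empty, Finset.sum_empty]
    exact ⟨inL_zero, ci_zero θ⟩
  | insert a s ha ih =>
    rw [Finset.sum_insert ha, Finset.sum_insert ha]
    have h1 := inL_smul (c a) (inL_lam a)
    refine ⟨inL_add h1 ih.1, ?_⟩
    rw [ci_add θ h1 ih.1, ih.2, ci_smul θ _ (inL_lam a)]
    rfl

theorem ci_one (hp : St.IsProj p) : θ.toFun (H160.St.u 1) = p := by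
  have h0 : St.InC p p := ⟨hp.1, hp.2.2, hp.2.2⟩
  have h1 : θ.toFun (H160.St.u 1 * θ.invFun p) = θ.toFun (H160.St.u 1) * p := by
    rw [ci_mul θ (inL_u 1) (θ.inv_mem p h0), θ.right_inv p h0]
  have h2 : (H160.St.u 1 : H160.St.Op Γ) = 1 := lam_one
  rw [h2, one_mul, θ.right_inv p h0, ← h2] at h1
  have h3 : θ.toFun (H160.St.u 1) * p = θ.toFun (H160.St.u 1) :=
    (θ.map_mem _ (inL_lam 1)).2.2
  exact h3.symm.trans h1.symm

include θ in
theorem ci_ne (hp : St.IsProj p) : p ≠ 0 := by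
  intro h
  have h1 := ci_one θ hp
  have h2 := θ.left_inv _ (inL_lam (1 : Γ))
  have h3 := θ.left_inv _ (inL_zero (Γ := Γ))
  rw [ci_zero θ] at h3
  change θ.invFun (θ.toFun (H160.St.u 1)) = lam 1 at h2
  have h6 : θ.invFun p = θ.invFun 0 := congrArg θ.invFun h
  rw [h1, h6, h3] at h2
  have h4 : (lam (1 : Γ)) (dl 1) = (0 : Ell2 Γ) := by rw [← h2]; rfl
  rw [lam_dl] at h4
  have h5 := norm_dl ((1 : Γ) * 1)
  rw [h4, norm_zero] at h5
  exact zero_ne_one h5

theorem ci_hn (hΓ : ∀ g : Γ, g ≠ 1 → Set.Infinite {y : Γ | ∃ h, y = h * g * h⁻¹})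
    (hp : St.IsProj p) {R : H160.St.Op Γ} (hR : H160.St.InL R) :
    (hn (θ.toFun R) : ℂ) = TR p * ((‖R (dl 1)‖ ^ 2 : ℝ) : ℂ) := by
  rw [← hs_self, ← TR_mul, ← star_eq_adjoint, ← ci_star θ hR, ← ci_mul θ (inL_star hR) hR,
    tr_corner hΓ hp θ _ (inL_mul (inL_star hR) hR)]
  congr 1
  change ⟪(dl 1 : Ell2 Γ), star R (R (dl 1))⟫_ℂ = _
  rw [star_eq_adjoint, adjoint_inner_right, inner_self_eq_norm_sq_to_K]
  push_cast
  rfl

/-- The corner frame of a stable isomorphism. -/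
theorem cf_of_iso (hΓ : ∀ g : Γ, g ≠ 1 → Set.Infinite {y : Γ | ∃ h, y = h * g * h⁻¹})
    (hp : St.IsProj p) : CF (fun g => θ.toFun (H160.St.u g)) where
  mul g h := by
    have h1 : (H160.St.u (g * h) : H160.St.Op Γ) = H160.St.u g * H160.St.u h := lam_mul g h
    change θ.toFun (H160.St.u (g * h)) = _
    rw [h1]
    exact ci_mul θ (inL_lam g) (inL_lam h)
  adj g := by
    have h1 : (H160.St.u g⁻¹ : H160.St.Op Γ) = star (H160.St.u g) := (star_lam g).symm
    change adjoint (θ.toFun (H160.St.u g)) = θ.toFun (H160.St.u g⁻¹)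
    rw [h1, ci_star θ (inL_u g), star_eq_adjoint]
  hm g := hm_of_inM (θ.map_mem _ (inL_lam g)).1
  tr0 g hg := by
    change TR (θ.toFun (H160.St.u g)) = 0
    rw [tr_corner hΓ hp θ _ (inL_u g)]
    have h1 : H160.St.tr (H160.St.u g) = 0 := by
      change ⟪(dl 1 : Ell2 Γ), lam g (dl 1)⟫_ℂ = 0
      rw [lam_dl, mul_one, inner_dl, dl_ne (Ne.symm hg)]
    rw [h1, mul_zero]
  approx a ha hl hr ε hε := by
    have e1 : θ.toFun (H160.St.u 1) = p := ci_one θ hp
    have hl' : p * a = a := by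
      have := hl
      simp only [e1] at this
      exact this
    have hr' : a * p = a := by
      have := hr
      simp only [e1] at this
      exact this
    have hC : St.InC p a := ⟨inM_of_hm ha, hl', hr'⟩
    set T := θ.invFun a with hT
    have hTL : H160.St.InL T := θ.inv_mem a hC
    have hTa : θ.toFun T = a := θ.right_inv a hC
    set c : Γ → ℂ := fun g => (T (dl 1)) g with hc
    -- the constant
    have hs0 : 0 ≤ hn p := hn_nonneg p
    have hpp : (hn p : ℂ) = TR p := by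
      have h1 := ci_hn θ hΓ hp (inL_lam (1 : Γ))
      have h2 : θ.toFun (lam 1) = p := e1
      rw [h2, norm_lam, norm_dl] at h1
      simpa using h1
    have hδ : 0 < ε / (hn p + 1) := by positivity
    have h5 := hasSum_dl (T (dl 1))
    have h6 := h5.eventually (Metric.ball_mem_nhds _ (Real.sqrt_pos.mpr hδ))
    obtain ⟨t, ht⟩ := h6.exists
    refine ⟨t, c, ?_⟩
    set R : H160.St.Op Γ := T + (-1 : ℂ) • ∑ g ∈ t, c g • lam g with hR
    obtain ⟨hf1, hf2⟩ := ci_fc θ t c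
    have hRL : H160.St.InL R := inL_add hTL (inL_smul _ hf1)
    have hRθ : θ.toFun R = a - ∑ g ∈ t, c g • θ.toFun (H160.St.u g) := by
      rw [hR, ci_add θ hTL (inL_smul _ hf1), ci_smul θ _ hf1, hf2, hTa, neg_one_smul,
        sub_eq_add_neg]
    have hRd : R (dl 1) = T (dl 1) - ∑ g ∈ t, c g • dl g := by
      rw [hR, add_apply]
      change T (dl 1) + (-1 : ℂ) • (∑ g ∈ t, c g • (lam g : H160.St.Op Γ)) (dl 1) = _
      rw [neg_one_smul, ← sub_eq_add_neg, sum_apply]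
      congr 1
      refine Finset.sum_congr rfl fun g _ => ?_
      change c g • lam g (dl 1) = _
      rw [lam_dl, mul_one]
    have h7 := ci_hn θ hΓ hp hRL
    rw [hRθ, ← hpp] at h7
    have h8 : hn (a - ∑ g ∈ t, c g • θ.toFun (H160.St.u g)) = hn p * ‖R (dl 1)‖ ^ 2 := by
      exact_mod_cast h7
    have h9 : ‖R (dl 1)‖ < Real.sqrt (ε / (hn p + 1)) := by
      rw [hRd, ← dist_eq_norm, dist_comm]
      exact ht
    have h10 : ‖R (dl 1)‖ ^ 2 < ε / (hn p + 1) := by
      calc ‖R (dl 1)‖ ^ 2 < Real.sqrt (ε / (hn p + 1)) ^ 2 :=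
            pow_lt_pow_left₀ h9 (norm_nonneg _) two_ne_zero
        _ = _ := Real.sq_sqrt hδ.le
    change hn (a - ∑ g ∈ t, c g • θ.toFun (H160.St.u g)) < ε
    rw [h8]
    have h11 : ‖R (dl 1)‖ ^ 2 * (hn p + 1) < ε := by
      rwa [lt_div_iff₀ (by positivity)] at h10
    nlinarith [sq_nonneg ‖R (dl 1)‖]

/-- The data of the corner frame. -/
theorem iso_data (hΓ : ∀ g : Γ, g ≠ 1 → Set.Infinite {y : Γ | ∃ h, y = h * g * h⁻¹})
    (hp : St.IsProj p) : CF (fun g => θ.toFun (H160.St.u g)) ∧ St.trM p = TR (θ.toFun (H160.St.u 1)) ∧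
      TR (θ.toFun (H160.St.u 1)) ≠ 0 ∧
      ∀ g, St.fourM (θ.toFun (H160.St.u g)) = f4 (θ.toFun (H160.St.u g)) := by
  refine ⟨cf_of_iso θ hΓ hp, ?_, ?_, fun g => fourM_eq (θ.map_mem _ (inL_lam g)).1⟩
  · rw [trM_eq, ci_one θ hp]
  · have hU := cf_of_iso θ hΓ hp
    intro h
    have h1 : adjoint (θ.toFun (H160.St.u 1)) * θ.toFun (H160.St.u 1) = θ.toFun (H160.St.u 1) := by
      have e1 := hU.adj 1
      have e2 := hU.mul 1 1
      simp only [inv_one, mul_one] at e1 e2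
      rw [e1]
      exact e2.symm
    have h2 : (hn (θ.toFun (H160.St.u 1)) : ℂ) = 0 := by
      rw [← hs_self, ← TR_mul, h1, h]
    have h3 : θ.toFun (H160.St.u 1) = 0 := eq_zero_of_hn (hU.hm 1) (by exact_mod_cast h2)
    rw [ci_one θ hp] at h3
    exact ci_ne θ hp h3

end iso

end Vale.Agent.P092.H605
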