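import Vale.Agent.P092.H605.Base

/-!
Lemma (II) for stable isomorphisms: the commutant of `U_g ⊗ conj U_g ⊗ U_g` in the corner of
`M_(I×I×I)(L(Λ³))` cut down by `p ⊗ conj p ⊗ p` is trivial when `Γ` is ICC.
-/

set_option linter.all false

open scoped InnerProductSpace
open Filter Topology ContinuousLinearMap

namespace Vale.Agent.P092.H605

open Vale.Agent.P092.H160

namespace S2

section hsc

variable {I J L K : Type} [Group K] [Fintype I] [Fintype J] [Fintype L]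

/-- the vector of the values on `dl (i, 1)` -/
noncomputable def vec (S : Ell2 (I × K) →L[ℂ] Ell2 (J × K)) :
    PiLp 2 (fun _ : I => Ell2 (J × K)) := WithLp.toLp 2 (fun i => S (H160.dl (i, 1)))

theorem inner_vec (S T : Ell2 (I × K) →L[ℂ] Ell2 (J × K)) : ⟪vec S, vec T⟫_ℂ = hs S T := by
  rw [PiLp.inner_apply]
  rfl

theorem norm_vec_sq (S : Ell2 (I × K) →L[ℂ] Ell2 (J × K)) : ‖vec S‖ ^ 2 = hn S := by
  rw [PiLp.norm_sq_eq_of_L2]
  rfl

theorem hs_self (S : Ell2 (I × K) →L[ℂ] Ell2 (J × K)) : hs S S = (hn S : ℂ) := by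
  rw [← inner_vec, inner_self_eq_norm_sq_to_K, ← norm_vec_sq]
  norm_cast

theorem hs_add_right (S T T' : Ell2 (I × K) →L[ℂ] Ell2 (J × K)) :
    hs S (T + T') = hs S T + hs S T' := by
  unfold hs
  rw [← Finset.sum_add_distrib]
  exact Finset.sum_congr rfl fun i _ => by rw [add_apply, inner_add_right]

theorem hs_add_left (S S' T : Ell2 (I × K) →L[ℂ] Ell2 (J × K)) :
    hs (S + S') T = hs S T + hs S' T := by
  unfold hs
  rw [← Finset.sum_add_distrib]
  exact Finset.sum_congr rfl fun i _ => by rw [add_apply, inner_add_left]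

theorem hs_sub_right (S T T' : Ell2 (I × K) →L[ℂ] Ell2 (J × K)) :
    hs S (T - T') = hs S T - hs S T' := by
  unfold hs
  rw [← Finset.sum_sub_distrib]
  exact Finset.sum_congr rfl fun i _ => by rw [sub_apply, inner_sub_right]

theorem hs_smul_right (c : ℂ) (S T : Ell2 (I × K) →L[ℂ] Ell2 (J × K)) :
    hs S (c • T) = c * hs S T := by
  unfold hs
  rw [Finset.mul_sum]
  exact Finset.sum_congr rfl fun i _ => by rw [smul_apply, inner_smul_right]

theorem hs_smul_left (c : ℂ) (S T : Ell2 (I × K) →L[ℂ] Ell2 (J × K)) :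
    hs (c • S) T = (starRingEnd ℂ) c * hs S T := by
  unfold hs
  rw [Finset.mul_sum]
  exact Finset.sum_congr rfl fun i _ => by rw [smul_apply, inner_smul_left]

theorem hs_sq_le (S T : Ell2 (I × K) →L[ℂ] Ell2 (J × K)) : ‖hs S T‖ ^ 2 ≤ hn S * hn T := by
  rw [← inner_vec, ← norm_vec_sq, ← norm_vec_sq, ← mul_pow]
  exact pow_le_pow_left₀ (norm_nonneg _) (norm_inner_le_norm _ _) 2

theorem hs_mul_left (X : Ell2 (J × K) →L[ℂ] Ell2 (L × K)) (A : Ell2 (I × K) →L[ℂ] Ell2 (J × K))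
    (B : Ell2 (I × K) →L[ℂ] Ell2 (L × K)) : hs (X ∘L A) B = hs A (adjoint X ∘L B) := by
  unfold hs
  exact Finset.sum_congr rfl fun i _ => by
    rw [comp_apply, comp_apply, adjoint_inner_right]

theorem inner_sl (u v : Ell2 (J × K)) : ⟪u, v⟫_ℂ = ∑ j, ⟪sl u j, sl v j⟫_ℂ :=
  ((hasSum_inner' u v).prod_fiberwise fun j => hasSum_inner' (sl u j) (sl v j)).unique
    (hasSum_fintype _)

/-- the trace property -/
theorem hs_adj {A B : Ell2 (I × K) →L[ℂ] Ell2 (J × K)} (hA : Hm A) (hB : Hm B) :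
    hs (adjoint B) (adjoint A) = hs A B := by
  have hco : ∀ {S : Ell2 (I × K) →L[ℂ] Ell2 (J × K)}, Hm S → ∀ (i : I) (j : J) (x : K),
      adjoint S (H160.dl (j, 1)) (i, x) = (starRingEnd ℂ) (S (H160.dl (i, 1)) (j, x⁻¹)) := by
    intro S hS i j x
    rw [adj_coord, hS.dl, rt_apply, one_mul]
  have key : ∀ (i : I) (j : J), ⟪sl (adjoint B (H160.dl (j, 1))) i,
      sl (adjoint A (H160.dl (j, 1))) i⟫_ℂ =
      ⟪sl (A (H160.dl (i, 1))) j, sl (B (H160.dl (i, 1))) j⟫_ℂ := by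
    intro i j
    rw [inner_eq, inner_eq, ← (Equiv.inv K).tsum_eq]
    refine tsum_congr fun x => ?_
    rw [sl_apply, sl_apply, sl_apply, sl_apply, hco hA, hco hB, Complex.conj_conj, mul_comm,
      Equiv.inv_apply, inv_inv]
  unfold hs
  simp_rw [inner_sl]
  rw [Finset.sum_comm]
  exact Finset.sum_congr rfl fun i _ => Finset.sum_congr rfl fun j _ => key i j

theorem hs_mul_right {X : Ell2 (I × K) →L[ℂ] Ell2 (I × K)}
    {A B : Ell2 (I × K) →L[ℂ] Ell2 (J × K)} (hX : Hm X) (hA : Hm A) (hB : Hm B) :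
    hs (A ∘L X) B = hs A (B ∘L adjoint X) := by
  have h := hs_mul_left X (adjoint B) (adjoint A)
  rw [← hs_adj (hA.comp hX) hB, adjoint_comp, ← h, ← hs_adj hA (hB.comp hX.adj), adjoint_comp,
    adjoint_adjoint]

end hsc

section t3

variable {I Λ : Type} [Group Λ]

theorem T3_dl (A B C : Ell2 (I × Λ) →L[ℂ] Ell2 (I × Λ)) (i j k : I) (x y z : Λ) :
    T3 A B C (H160.dl ((i, j, k), (x, y, z))) = rei (sge I Λ)
      (tv (A (H160.dl (i, x))) (tv (cj (B (H160.dl (j, y)))) (C (H160.dl (k, z))))) := by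
  rw [T3_apply, rei_dl]
  change rei _ (tens A (tens (bar B) C) (H160.dl ((i, x), ((j, y), (k, z))))) = _
  rw [tens_dl, tens_dl, bar_dl]

theorem T3_ext {S T : Ell2 ((I × I × I) × (Λ × Λ × Λ)) →L[ℂ] Ell2 ((I × I × I) × (Λ × Λ × Λ))}
    (h : ∀ i j k x y z, S (H160.dl ((i, j, k), (x, y, z))) = T (H160.dl ((i, j, k), (x, y, z)))) :
    S = T := by
  apply op_ext
  rintro ⟨⟨i, j, k⟩, ⟨x, y, z⟩⟩
  exact h i j k x y z

theorem T3_add1 (A A' B C : Ell2 (I × Λ) →L[ℂ] Ell2 (I × Λ)) :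
    T3 (A + A') B C = T3 A B C + T3 A' B C := by
  apply T3_ext
  intro i j k x y z
  rw [add_apply, T3_dl, T3_dl, T3_dl, add_apply, tv_add_left, map_add]

theorem T3_add2 (A B B' C : Ell2 (I × Λ) →L[ℂ] Ell2 (I × Λ)) :
    T3 A (B + B') C = T3 A B C + T3 A B' C := by
  apply T3_ext
  intro i j k x y z
  rw [add_apply, T3_dl, T3_dl, T3_dl, add_apply, cj_add, tv_add_left, tv_add_right, map_add]

theorem T3_add3 (A B C C' : Ell2 (I × Λ) →L[ℂ] Ell2 (I × Λ)) :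
    T3 A B (C + C') = T3 A B C + T3 A B C' := by
  apply T3_ext
  intro i j k x y z
  rw [add_apply, T3_dl, T3_dl, T3_dl, add_apply, tv_add_right, tv_add_right, map_add]

theorem T3_smul1 (c : ℂ) (A B C : Ell2 (I × Λ) →L[ℂ] Ell2 (I × Λ)) :
    T3 (c • A) B C = c • T3 A B C := by
  apply T3_ext
  intro i j k x y z
  rw [smul_apply, T3_dl, T3_dl, smul_apply, tv_smul_left, map_smul]

theorem T3_smul2 (c : ℂ) (A B C : Ell2 (I × Λ) →L[ℂ] Ell2 (I × Λ)) :
    T3 A (c • B) C = (starRingEnd ℂ) c • T3 A B C := by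
  apply T3_ext
  intro i j k x y z
  rw [smul_apply, T3_dl, T3_dl, smul_apply, cj_smul, tv_smul_left, tv_smul_right, map_smul]

theorem T3_smul3 (c : ℂ) (A B C : Ell2 (I × Λ) →L[ℂ] Ell2 (I × Λ)) :
    T3 A B (c • C) = c • T3 A B C := by
  apply T3_ext
  intro i j k x y z
  rw [smul_apply, T3_dl, T3_dl, smul_apply, tv_smul_right, tv_smul_right, map_smul]

theorem Hm_T3 {A B C : Ell2 (I × Λ) →L[ℂ] Ell2 (I × Λ)} (hA : Hm A) (hB : Hm B) (hC : Hm C) :
    Hm (T3 A B C) := by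
  rintro ⟨a, b, c⟩ v
  have h : T3 A B C ∘L rt (I × I × I) (a, b, c) = rt (I × I × I) (a, b, c) ∘L T3 A B C := by
    apply T3_ext
    intro i j k x y z
    rw [comp_apply, comp_apply, rt_dl]
    change T3 A B C (H160.dl ((i, j, k), (x * a⁻¹, y * b⁻¹, z * c⁻¹))) = _
    rw [T3_dl, T3_dl, ← rt_dl, ← rt_dl, ← rt_dl, hA, hB, hC]
    apply ext_inner_dl
    rintro ⟨⟨i', j', k'⟩, ⟨x', y', z'⟩⟩
    rfl
  exact DFunLike.congr_fun h v

variable [Fintype I]

theorem hs_T3 (A B C A' B' C' : Ell2 (I × Λ) →L[ℂ] Ell2 (I × Λ)) :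
    hs (T3 A B C) (T3 A' B' C') = hs A A' * hs B' B * hs C C' := by
  have h1 : hs (T3 A B C) (T3 A' B' C') = ∑ i, ∑ j, ∑ k,
      ⟪A (H160.dl (i, 1)), A' (H160.dl (i, 1))⟫_ℂ *
        (⟪B' (H160.dl (j, 1)), B (H160.dl (j, 1))⟫_ℂ *
          ⟪C (H160.dl (k, 1)), C' (H160.dl (k, 1))⟫_ℂ) := by
    unfold hs
    rw [Fintype.sum_prod_type]
    refine Finset.sum_congr rfl fun i _ => ?_
    rw [Fintype.sum_prod_type]
    refine Finset.sum_congr rfl fun j _ => Finset.sum_congr rfl fun k _ => ?_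
    change ⟪T3 A B C (H160.dl ((i, j, k), (1, 1, 1))), T3 A' B' C' (H160.dl ((i, j, k), (1, 1, 1)))⟫_ℂ
      = _
    rw [T3_dl, T3_dl, inner_rei, inner_tv, inner_tv, inner_cj]
  rw [h1]
  simp only [← Finset.mul_sum, ← Finset.sum_mul]
  unfold hs
  ring

theorem hn_T3 (A B C : Ell2 (I × Λ) →L[ℂ] Ell2 (I × Λ)) :
    hn (T3 A B C) = hn A * hn B * hn C := by
  have h := hs_T3 A B C A B C
  rw [hs_self, hs_self, hs_self, hs_self] at h
  exact_mod_cast h

end t3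

section el

variable {I Λ : Type} [Group Λ]

/-- the matrix unit times a left translation: `dl (i, x) ↦ dl (i', s x)` -/
noncomputable def el (i' : I) (s : Λ) (i : I) : Ell2 (I × Λ) →L[ℂ] Ell2 (I × Λ) :=
  tvr (H160.dl i') ∘L lam s ∘L slL Λ i

theorem el_dl (i' : I) (s : Λ) (i j : I) (x : Λ) :
    el i' s i (H160.dl (j, x)) = (H160.dl j : Ell2 I) i • H160.dl (i', s * x) := by
  change tvr (H160.dl i') (lam s (sl (H160.dl (j, x)) i)) = _
  rw [dl_prod, sl_tv, map_smul, map_smul, lam_dl, tvr_apply, ← dl_prod]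

theorem Hm_el (i' : I) (s : Λ) (i : I) : Hm (el i' s i) := by
  intro a v
  have h : el i' s i ∘L rt I a = rt I a ∘L el i' s i := by
    apply op_ext
    rintro ⟨j, x⟩
    rw [comp_apply, comp_apply, rt_dl, el_dl, el_dl, map_smul, rt_dl, mul_assoc]
  exact DFunLike.congr_fun h v

end el

section orb

variable {Γ : Type} [Group Γ]

theorem orbit_zero (hΓ : ∀ g : Γ, g ≠ 1 → Set.Infinite {y : Γ | ∃ h, y = h * g * h⁻¹})
    {F : Γ × Γ × Γ → ℂ} (hF : Summable fun g => ‖F g‖ ^ 2)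
    (hinv : ∀ h g, F (h * g.1 * h⁻¹, h * g.2.1 * h⁻¹, h * g.2.2 * h⁻¹) = F g)
    {g : Γ × Γ × Γ} (hg : g ≠ 1) : F g = 0 := by
  by_contra hne
  have hpos : 0 < ‖F g‖ ^ 2 := by positivity
  have h1 : ∀ᶠ k in cofinite, ‖F k‖ ^ 2 < ‖F g‖ ^ 2 :=
    hF.tendsto_cofinite_zero.eventually_lt_const hpos
  rw [Filter.eventually_cofinite] at h1
  have hmem : ∀ h : Γ, (h * g.1 * h⁻¹, h * g.2.1 * h⁻¹, h * g.2.2 * h⁻¹) ∈
      {k | ¬ ‖F k‖ ^ 2 < ‖F g‖ ^ 2} := fun h => by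
    rw [Set.mem_setOf_eq, hinv]
    exact lt_irrefl _
  by_cases ha : g.1 = 1
  · by_cases hb : g.2.1 = 1
    · by_cases hc : g.2.2 = 1
      · exact hg (Prod.ext ha (Prod.ext hb hc))
      · refine hΓ _ hc ((h1.image fun k => k.2.2).subset ?_)
        rintro _ ⟨h, rfl⟩
        exact ⟨_, hmem h, rfl⟩
    · refine hΓ _ hb ((h1.image fun k => k.2.1).subset ?_)
      rintro _ ⟨h, rfl⟩
      exact ⟨_, hmem h, rfl⟩
  · refine hΓ _ ha ((h1.image fun k => k.1).subset ?_)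
    rintro _ ⟨h, rfl⟩
    exact ⟨_, hmem h, rfl⟩

end orb

section cf

variable {I Γ Λ : Type} [Fintype I] [Group Γ] [Group Λ]
  {U : Γ → Ell2 (I × Λ) →L[ℂ] Ell2 (I × Λ)}

theorem hs_U_eq (hU : CF U) (g h : Γ) : hs (U g) (U h) = TR (U (g⁻¹ * h)) := by
  rw [hU.mul, ← hU.adj]
  unfold hs TR
  exact Finset.sum_congr rfl fun i _ => by rw [mul_apply_eq_comp, adjoint_inner_right]

theorem hs_U_ne (hU : CF U) {g h : Γ} (hgh : g ≠ h) : hs (U g) (U h) = 0 := by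
  rw [hs_U_eq hU]
  exact hU.tr0 _ fun h1 => hgh (inv_mul_eq_one.mp h1)

theorem hs_U_self (hU : CF U) (g : Γ) : hs (U g) (U g) = TR (U 1) := by
  rw [hs_U_eq hU, inv_mul_cancel]

theorem approx_van (hU : CF U) (F : (Ell2 (I × Λ) →L[ℂ] Ell2 (I × Λ)) →+ ℂ) (C : ℝ)
    (hb : ∀ a, ‖F a‖ ^ 2 ≤ C * hn a) (h0 : ∀ g (c : ℂ), F (c • U g) = 0)
    {a : Ell2 (I × Λ) →L[ℂ] Ell2 (I × Λ)} (ha : Hm a) (h1 : U 1 * a = a) (h2 : a * U 1 = a) :
    F a = 0 := by
  by_contra hne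
  have hpos : 0 < ‖F a‖ ^ 2 := by positivity
  have hC : 0 < |C| + 1 := by positivity
  obtain ⟨t, c, htc⟩ := hU.approx a ha h1 h2 (‖F a‖ ^ 2 / (|C| + 1)) (by positivity)
  have h3 : F (a - ∑ g ∈ t, c g • U g) = F a := by
    rw [map_sub, map_sum, Finset.sum_eq_zero fun g _ => h0 g (c g), sub_zero]
  have h4 := hb (a - ∑ g ∈ t, c g • U g)
  rw [h3] at h4
  have h5 : 0 ≤ hn (a - ∑ g ∈ t, c g • U g) := Finset.sum_nonneg fun i _ => by positivity
  have h6 : C * hn (a - ∑ g ∈ t, c g • U g) ≤ (|C| + 1) * hn (a - ∑ g ∈ t, c g • U g) :=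
    mul_le_mul_of_nonneg_right (by linarith [le_abs_self C]) h5
  rw [lt_div_iff₀ hC] at htc
  linarith

end cf

end S2

section main

variable {I Γ Λ : Type} [Fintype I] [Group Γ] [Group Λ]

theorem lemII (hΓ : ∀ g : Γ, g ≠ 1 → Set.Infinite {y : Γ | ∃ h, y = h * g * h⁻¹})
    {U : Γ → Ell2 (I × Λ) →L[ℂ] Ell2 (I × Λ)} (hU : CF U) (hp : TR (U 1) ≠ 0)
    {y : Ell2 ((I × I × I) × (Λ × Λ × Λ)) →L[ℂ] Ell2 ((I × I × I) × (Λ × Λ × Λ))}
    (hy : Hm y) (hl : T3 (U 1) (U 1) (U 1) * y = y) (hr : y * T3 (U 1) (U 1) (U 1) = y)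
    (hc : ∀ g, T3 (U g) (U g) (U g) * y = y * T3 (U g) (U g) (U g)) :
    ∃ c : ℂ, y = c • T3 (U 1) (U 1) (U 1) := by
  classical
  set P := T3 (U 1) (U 1) (U 1) with hP
  set W : Γ × Γ × Γ → Ell2 ((I × I × I) × (Λ × Λ × Λ)) →L[ℂ] Ell2 ((I × I × I) × (Λ × Λ × Λ)) :=
    fun g => T3 (U g.1) (U g.2.1) (U g.2.2) with hW
  have hWm : ∀ g, Hm (W g) := fun g => S2.Hm_T3 (hU.hm _) (hU.hm _) (hU.hm _)
  have hPm : Hm P := hWm (1, 1, 1)
  -- inner products of the W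
  have hWne : ∀ g g', g ≠ g' → hs (W g) (W g') = 0 := by
    intro g g' hne
    change hs (T3 (U g.1) (U g.2.1) (U g.2.2)) (T3 (U g'.1) (U g'.2.1) (U g'.2.2)) = 0
    rw [S2.hs_T3]
    by_cases h1 : g.1 = g'.1
    · by_cases h2 : g.2.1 = g'.2.1
      · by_cases h3 : g.2.2 = g'.2.2
        · exact absurd (Prod.ext h1 (Prod.ext h2 h3)) hne
        · rw [S2.hs_U_ne hU h3, mul_zero]
      · rw [S2.hs_U_ne hU (Ne.symm h2), mul_zero, zero_mul]
    · rw [S2.hs_U_ne hU h1, zero_mul, zero_mul]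
  set r : ℝ := hn (U 1) with hr0
  have hTR : TR (U 1) = (r : ℂ) := by rw [← S2.hs_U_self hU 1, S2.hs_self]
  have hrpos : 0 < r := by
    have h1 : 0 ≤ r := Finset.sum_nonneg fun i _ => by positivity
    refine lt_of_le_of_ne h1 fun h2 => hp ?_
    rw [hTR, ← h2, Complex.ofReal_zero]
  have hWs : ∀ g, hs (W g) (W g) = ((r ^ 3 : ℝ) : ℂ) := by
    intro g
    change hs (T3 (U g.1) (U g.2.1) (U g.2.2)) (T3 (U g.1) (U g.2.1) (U g.2.2)) = _
    rw [S2.hs_T3, S2.hs_U_self hU, S2.hs_U_self hU, S2.hs_U_self hU, hTR]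
    push_cast
    ring
  -- the coefficients
  set F : Γ × Γ × Γ → ℂ := fun g => hs (W g) y with hF
  have hsum : Summable fun g => ‖F g‖ ^ 2 := by
    obtain ⟨q, hs0, hs1⟩ : ∃ q : ℝ, 0 < q ∧ q * q = r ^ 3 :=
      ⟨Real.sqrt (r ^ 3), Real.sqrt_pos.mpr (by positivity), Real.mul_self_sqrt (by positivity)⟩
    have hon : Orthonormal ℂ fun g => ((q⁻¹ : ℝ) : ℂ) • S2.vec (W g) := by
      rw [orthonormal_iff_ite]
      intro g g'
      rw [inner_smul_left, inner_smul_right, S2.inner_vec, Complex.conj_ofReal]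
      split_ifs with h
      · rw [h, hWs, ← hs1]
        push_cast
        have : ((q : ℝ) : ℂ) ≠ 0 := by exact_mod_cast hs0.ne'
        field_simp
      · rw [hWne g g' h, mul_zero, mul_zero]
    have h1 := hon.inner_products_summable (x := S2.vec y)
    have h2 := h1.mul_left (q ^ 2)
    refine h2.congr fun g => ?_
    rw [inner_smul_left, S2.inner_vec, Complex.conj_ofReal, norm_mul, mul_pow, ← mul_assoc,
      ← mul_pow, Complex.norm_real, norm_inv, Real.norm_of_nonneg hs0.le, mul_inv_cancel₀ hs0.ne',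
      one_pow, one_mul]
  have hinv : ∀ h g, F (h * g.1 * h⁻¹, h * g.2.1 * h⁻¹, h * g.2.2 * h⁻¹) = F g := by
    intro h g
    change hs (T3 (U (h * g.1 * h⁻¹)) (U (h * g.2.1 * h⁻¹)) (U (h * g.2.2 * h⁻¹))) y = hs (W g) y
    rw [hU.mul, hU.mul, hU.mul, hU.mul, hU.mul, hU.mul, T3_mul, T3_mul]
    have hV : Hm (T3 (U h⁻¹) (U h⁻¹) (U h⁻¹)) := hWm (h⁻¹, h⁻¹, h⁻¹)
    have hV' : Hm (T3 (U h) (U h) (U h)) := hWm (h, h, h)
    have h1 := S2.hs_mul_right (A := T3 (U h) (U h) (U h) * T3 (U g.1) (U g.2.1) (U g.2.2)) (B := y)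
      hV (hV'.mul (hWm g)) hy
    have hadj : adjoint (T3 (U h⁻¹) (U h⁻¹) (U h⁻¹)) = T3 (U h) (U h) (U h) := by
      rw [T3_adj, hU.adj, inv_inv]
    have hadj' : adjoint (T3 (U h) (U h) (U h)) = T3 (U h⁻¹) (U h⁻¹) (U h⁻¹) := by
      rw [T3_adj, hU.adj]
    rw [hadj] at h1
    refine h1.trans ?_
    have h2 := S2.hs_mul_left (T3 (U h) (U h) (U h)) (T3 (U g.1) (U g.2.1) (U g.2.2))
      (y ∘L T3 (U h) (U h) (U h))
    refine h2.trans ?_
    rw [hadj']
    have h3 : T3 (U h⁻¹) (U h⁻¹) (U h⁻¹) ∘L (y ∘L T3 (U h) (U h) (U h)) = y := by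
      change T3 (U h⁻¹) (U h⁻¹) (U h⁻¹) * (y * T3 (U h) (U h) (U h)) = y
      rw [← hc h, ← mul_assoc, ← T3_mul, ← hU.mul, inv_mul_cancel, hl]
    rw [h3]
  have hFz : ∀ g, g ≠ 1 → F g = 0 := fun g hg => S2.orbit_zero hΓ hsum hinv hg
  -- subtract the multiple of P
  refine ⟨F 1 / ((r ^ 3 : ℝ) : ℂ), ?_⟩
  set c : ℂ := F 1 / ((r ^ 3 : ℝ) : ℂ) with hcdef
  have hr3 : ((r ^ 3 : ℝ) : ℂ) ≠ 0 := by exact_mod_cast (by positivity : (r ^ 3 : ℝ) ≠ 0)
  set z := y - c • P with hz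
  have hzm : Hm z := hy.sub (hPm.smul c)
  have hPP : P * P = P := by
    rw [hP, ← T3_mul, ← hU.mul, mul_one]
  have hPz : P * z = z := by
    rw [hz, mul_sub, hl, mul_smul_comm, hPP]
  have hzP : z * P = z := by
    rw [hz, sub_mul, hr, smul_mul_assoc, hPP]
  have hz0 : ∀ g, hs (W g) z = 0 := by
    intro g
    rw [hz, S2.hs_sub_right, S2.hs_smul_right]
    by_cases hg : g = 1
    · subst hg
      change F 1 - c * hs (W 1) (W 1) = 0
      rw [hWs, hcdef, div_mul_cancel₀ _ hr3, sub_self]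
    · have h1 : hs (W g) P = 0 := hWne g 1 hg
      rw [h1, mul_zero, sub_zero]
      exact hFz g hg
  -- first variable
  have hv1 : ∀ a, Hm a → U 1 * a = a → a * U 1 = a → ∀ g h, hs (T3 a (U g) (U h)) z = 0 := by
    intro a ha h1 h2 g h
    have := S2.approx_van hU (AddMonoidHom.mk' (fun a => hs (T3 a (U g) (U h)) z) fun a b => by
        rw [S2.T3_add1, S2.hs_add_left])
      (hn (U g) * hn (U h) * hn z) (fun a => by
        change ‖hs (T3 a (U g) (U h)) z‖ ^ 2 ≤ _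
        refine (S2.hs_sq_le _ _).trans (le_of_eq ?_)
        rw [S2.hn_T3]
        ring) (fun k d => by
        change hs (T3 (d • U k) (U g) (U h)) z = 0
        rw [S2.T3_smul1, S2.hs_smul_left]
        have h3 : hs (T3 (U k) (U g) (U h)) z = 0 := hz0 (k, g, h)
        rw [h3, mul_zero]) ha h1 h2
    exact this
  have hv2 : ∀ a, Hm a → U 1 * a = a → a * U 1 = a → ∀ b, Hm b → U 1 * b = b → b * U 1 = b →
      ∀ h, hs (T3 a b (U h)) z = 0 := by
    intro a ha h1 h2 b hb h1b h2b h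
    have := S2.approx_van hU (AddMonoidHom.mk' (fun b => hs (T3 a b (U h)) z) fun b b' => by
        rw [S2.T3_add2, S2.hs_add_left])
      (hn a * hn (U h) * hn z) (fun b => by
        change ‖hs (T3 a b (U h)) z‖ ^ 2 ≤ _
        refine (S2.hs_sq_le _ _).trans (le_of_eq ?_)
        rw [S2.hn_T3]
        ring) (fun k d => by
        change hs (T3 a (d • U k) (U h)) z = 0
        rw [S2.T3_smul2, S2.hs_smul_left, hv1 a ha h1 h2, mul_zero]) hb h1b h2b
    exact this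
  have hv3 : ∀ a, Hm a → U 1 * a = a → a * U 1 = a → ∀ b, Hm b → U 1 * b = b → b * U 1 = b →
      ∀ d, Hm d → U 1 * d = d → d * U 1 = d → hs (T3 a b d) z = 0 := by
    intro a ha h1 h2 b hb h1b h2b d hd h1d h2d
    have := S2.approx_van hU (AddMonoidHom.mk' (fun d => hs (T3 a b d) z) fun d d' => by
        rw [S2.T3_add3, S2.hs_add_left])
      (hn a * hn b * hn z) (fun d => by
        change ‖hs (T3 a b d) z‖ ^ 2 ≤ _
        refine (S2.hs_sq_le _ _).trans (le_of_eq ?_)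
        rw [S2.hn_T3]
        ring) (fun k e => by
        change hs (T3 a b (e • U k)) z = 0
        rw [S2.T3_smul3, S2.hs_smul_left, hv2 a ha h1 h2 b hb h1b h2b, mul_zero]) hd h1d h2d
    exact this
  have hUU : U 1 * U 1 = U 1 := by rw [← hU.mul, mul_one]
  have hPadj : adjoint P = P := by
    rw [hP, T3_adj, hU.adj, inv_one]
  have hall : ∀ A, Hm A → ∀ B, Hm B → ∀ C, Hm C → hs (T3 A B C) z = 0 := by
    intro A hA B hB C hC
    have hU1 := hU.hm 1
    have hcor : ∀ X, Hm X → Hm (U 1 * X * U 1) ∧ U 1 * (U 1 * X * U 1) = U 1 * X * U 1 ∧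
        U 1 * X * U 1 * U 1 = U 1 * X * U 1 := fun X hX =>
      ⟨(hU1.mul hX).mul hU1, by rw [← mul_assoc, ← mul_assoc, hUU], by rw [mul_assoc, hUU]⟩
    obtain ⟨a1, a2, a3⟩ := hcor A hA
    obtain ⟨b1, b2, b3⟩ := hcor B hB
    obtain ⟨c1, c2, c3⟩ := hcor C hC
    have h1 := hv3 _ a1 a2 a3 _ b1 b2 b3 _ c1 c2 c3
    rw [T3_mul, T3_mul] at h1
    have hT : Hm (T3 A B C) := S2.Hm_T3 hA hB hC
    have h2 := S2.hs_mul_right (A := P * T3 A B C) (B := z) hPm (hPm.mul hT) hzm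
    have h3 := S2.hs_mul_left P (T3 A B C) (z ∘L adjoint P)
    have h4 : adjoint P ∘L (z ∘L adjoint P) = z := by
      rw [hPadj]
      change P * (z * P) = z
      rw [hzP, hPz]
    rw [h4] at h3
    exact h3.symm.trans (h2.symm.trans h1)
  have hz00 : z = 0 := by
    apply hzm.ext Hm.zero
    rintro ⟨i, j, k⟩
    apply ext_inner_dl
    rintro ⟨⟨i', j', k'⟩, ⟨s1, s2, s3⟩⟩
    have h1 := hall _ (S2.Hm_el i' s1 i) _ (S2.Hm_el j' s2 j) _ (S2.Hm_el k' s3 k)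
    unfold hs at h1
    rw [Finset.sum_eq_single (i, j, k)] at h1
    · have h2 : T3 (S2.el i' s1 i) (S2.el j' s2 j) (S2.el k' s3 k)
          (H160.dl ((i, j, k), (1, 1, 1))) = H160.dl ((i', j', k'), (s1, s2, s3)) := by
        rw [S2.T3_dl, S2.el_dl, S2.el_dl, S2.el_dl, dl_self, dl_self, dl_self, one_smul, one_smul,
          one_smul, cj_dl, ← dl_prod, ← dl_prod, rei_dl, mul_one, mul_one, mul_one]
        rfl
      have h3 : ⟪T3 (S2.el i' s1 i) (S2.el j' s2 j) (S2.el k' s3 k)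
          (H160.dl ((i, j, k), (1, 1, 1))), z (H160.dl ((i, j, k), (1, 1, 1)))⟫_ℂ = 0 := h1
      rw [h2, inner_dl] at h3
      exact h3
    · rintro ⟨a, b, d⟩ - hne
      have h2 : T3 (S2.el i' s1 i) (S2.el j' s2 j) (S2.el k' s3 k)
          (H160.dl ((a, b, d), (1, 1, 1))) = 0 := by
        rw [S2.T3_dl, S2.el_dl, S2.el_dl, S2.el_dl]
        by_cases ha : i = a
        · by_cases hb : j = b
          · by_cases hd : k = d
            · exact absurd (by rw [ha, hb, hd]) hne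
            · rw [dl_ne hd, zero_smul, tv_zero_right, tv_zero_right, map_zero]
          · rw [dl_ne hb, zero_smul]
            have h0 : cj (0 : Ell2 (I × Λ)) = 0 := by
              apply ext_inner_dl
              intro x
              exact map_zero _
            rw [h0, tv_zero_left, tv_zero_right, map_zero]
        · rw [dl_ne ha, zero_smul, tv_zero_left, map_zero]
      have h3 : ⟪T3 (S2.el i' s1 i) (S2.el j' s2 j) (S2.el k' s3 k)
          (H160.dl ((a, b, d), (1, 1, 1))), z (H160.dl ((a, b, d), (1, 1, 1)))⟫_ℂ = 0 := by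
        rw [h2, inner_zero_left]
      exact h3
    · intro h
      exact absurd (Finset.mem_univ _) h
  exact sub_eq_zero.mp hz00

end main

end Vale.Agent.P092.H605
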