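import Vale.Agent.P092.H605.Core

/-!
P092, stable isomorphisms, (S3): the relative commutant of the diagonal corner is trivial.
-/

set_option linter.all false

open scoped InnerProductSpace
open Filter Topology ContinuousLinearMap

namespace Vale.Agent.P092.H605.S3

open Vale.Agent.P092.H160

section mix

/-- closed convex hull -/
def chull {F : Type} [NormedAddCommGroup F] [NormedSpace ℂ F] (S : Set F) : Set F :=
  {x | ∀ K : Set F, IsClosed K → Cvx K → S ⊆ K → x ∈ K}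

theorem chull_closed {F : Type} [NormedAddCommGroup F] [NormedSpace ℂ F] (S : Set F) :
    IsClosed (chull S) := by
  have h : chull S = ⋂₀ {K : Set F | IsClosed K ∧ Cvx K ∧ S ⊆ K} := by
    ext x
    constructor
    · rintro hx K ⟨h1, h2, h3⟩
      exact hx K h1 h2 h3
    · intro hx K h1 h2 h3
      exact hx K ⟨h1, h2, h3⟩
  rw [h]
  exact isClosed_sInter fun K hK => hK.1

theorem chull_cvx {F : Type} [NormedAddCommGroup F] [NormedSpace ℂ F] (S : Set F) :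
    Cvx (chull S) := fun x hx y hy a b ha hb hab K h1 h2 h3 =>
  h2 x (hx K h1 h2 h3) y (hy K h1 h2 h3) a b ha hb hab

theorem subset_chull {F : Type} [NormedAddCommGroup F] [NormedSpace ℂ F] (S : Set F) :
    S ⊆ chull S := fun _ hx _ _ _ h3 => h3 hx

theorem aff_closed {F : Type} [NormedAddCommGroup F] [InnerProductSpace ℂ F] (w : F) (c : ℂ) :
    IsClosed {ξ : F | ⟪w, ξ⟫_ℂ = c} :=
  isClosed_eq (continuous_const.inner continuous_id) continuous_const

theorem aff_cvx {F : Type} [NormedAddCommGroup F] [InnerProductSpace ℂ F] (w : F) (c : ℂ) :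
    Cvx {ξ : F | ⟪w, ξ⟫_ℂ = c} := by
  intro x hx y hy a b ha hb hab
  change ⟪w, (a : ℂ) • x + (b : ℂ) • y⟫_ℂ = c
  have hx' : ⟪w, x⟫_ℂ = c := hx
  have hy' : ⟪w, y⟫_ℂ = c := hy
  rw [inner_add_right, inner_smul_right, inner_smul_right, hx', hy', ← add_mul]
  have : (a : ℂ) + (b : ℂ) = 1 := by exact_mod_cast congrArg (fun r : ℝ => (r : ℂ)) hab
  rw [this, one_mul]

theorem mix {X G : Type} [Group G] (σ : G →* Equiv.Perm X) {u v : Ell2 X} {c : ℂ}
    {P : Set X} (hP : ∀ x ∈ P, ∀ g, σ g x = x)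
    (hinf : ∀ x, x ∉ P → Set.Infinite {y | ∃ g, y = σ g x})
    (h : ∀ g, ⟪u, rei (σ g) v⟫_ℂ = c) :
    ∃ ω : Ell2 X, (∀ x ∈ P, ω x = v x) ∧ (∀ x, x ∉ P → ω x = 0) ∧ ⟪u, ω⟫_ℂ = c := by
  obtain ⟨ω, hω, hmin, huniq⟩ := min_norm_ell2 (X := X)
    (K := chull (Set.range fun g => rei (σ g) v))
    ⟨_, subset_chull _ ⟨1, rfl⟩⟩ (chull_closed _) (chull_cvx _)
  have hinv : ∀ g, rei (σ g) ω = ω := by
    intro g
    refine huniq _ ?_ (norm_rei _ _).le
    intro K h1 h2 h3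
    have h4 : IsClosed ((fun ξ : Ell2 X => rei (σ g) ξ) ⁻¹' K) :=
      h1.preimage (rei (σ g)).continuous
    refine hω ((fun ξ : Ell2 X => rei (σ g) ξ) ⁻¹' K) h4 ?_ ?_
    · intro x hx y hy a b ha hb hab
      change rei (σ g) ((a : ℂ) • x + (b : ℂ) • y) ∈ K
      rw [map_add, map_smul, map_smul]
      exact h2 _ hx _ hy a b ha hb hab
    · rintro _ ⟨k, rfl⟩
      change rei (σ g) (rei (σ k) v) ∈ K
      refine h3 ⟨g * k, ?_⟩
      change rei (σ (g * k)) v = _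
      rw [map_mul, rei_mul]
      rfl
  have hcst : ∀ g x, ω (σ g x) = ω x := by
    intro g x
    have h1 : (rei (σ g) ω) (σ g x) = ω x := by
      rw [rei_apply, Equiv.symm_apply_apply]
    rw [hinv g] at h1
    exact h1
  refine ⟨ω, ?_, ?_, ?_⟩
  · intro x hx
    have h1 := hω {ξ | ⟪(dl x : Ell2 X), ξ⟫_ℂ = v x} (aff_closed _ _) (aff_cvx _ _) ?_
    · have h2 : ⟪(dl x : Ell2 X), ω⟫_ℂ = v x := h1
      rwa [inner_dl] at h2
    · rintro _ ⟨g, rfl⟩
      change ⟪(dl x : Ell2 X), rei (σ g) v⟫_ℂ = v x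
      rw [inner_dl, rei_apply]
      have h5 : (σ g).symm x = x := by rw [Equiv.symm_apply_eq, hP x hx g]
      exact congrArg (fun z => v z) h5
  · intro x hx
    by_contra hne
    have hpos : 0 < ‖ω x‖ ^ 2 := by positivity
    obtain ⟨n, hn⟩ := exists_nat_gt (‖ω‖ ^ 2 / ‖ω x‖ ^ 2)
    obtain ⟨t, ht, hcard⟩ := (hinf x hx).exists_subset_card_eq n
    have h1 := sum_sq_le ω t
    have h2 : ∑ y ∈ t, ‖ω y‖ ^ 2 = ∑ y ∈ t, ‖ω x‖ ^ 2 := by
      refine Finset.sum_congr rfl fun y hy => ?_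
      obtain ⟨g, hg⟩ := ht hy
      rw [hg, hcst]
    rw [h2, Finset.sum_const, hcard, nsmul_eq_mul] at h1
    rw [div_lt_iff₀ hpos] at hn
    linarith
  · exact hω {ξ | ⟪u, ξ⟫_ℂ = c} (aff_closed _ _) (aff_cvx _ _) (by
      rintro _ ⟨g, rfl⟩
      exact h g)

/-- the conjugation action on two copies -/
def sg {K G : Type} [Group K] [Group G] (ι : G →* K) : G →* Equiv.Perm (Bool × K) where
  toFun t := Equiv.prodCongr (Equiv.refl Bool) (MulAut.conj (ι t)).toEquiv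
  map_one' := by
    ext ⟨b, x⟩ <;> simp
  map_mul' s t := by
    ext ⟨b, x⟩ <;> simp [mul_assoc]

theorem lam_rho_eq {K : Type} [Group K] (k : K) (v : Ell2 K) :
    lam k (rho k v) = rei (MulAut.conj k).toEquiv v := by
  apply ext_inner_dl
  intro x
  rw [lam_apply, rho_apply, rei_apply]
  rfl

theorem rei_sg {K G : Type} [Group K] [Group G] (ι : G →* K) (t : G) (b : Bool) (v : Ell2 K) :
    rei (sg ι t) (tv (dl b) v) = tv (dl b) (lam (ι t) (rho (ι t) v)) := by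
  rw [lam_rho_eq]
  change rei (Equiv.prodCongr (Equiv.refl Bool) (MulAut.conj (ι t)).toEquiv) _ = _
  rw [← tens_rei, tens_tv]
  rfl

theorem mix2 {K G : Type} [Group K] [Group G] (ι : G →* K)
    (hinf : ∀ x : K, x ≠ 1 → Set.Infinite {y | ∃ s : G, y = ι s * x * (ι s)⁻¹})
    {u1 u2 v1 v2 : Ell2 K}
    (h : ∀ t, ⟪u1, lam (ι t) (rho (ι t) v1)⟫_ℂ = ⟪u2, lam (ι t) (rho (ι t) v2)⟫_ℂ) :
    (starRingEnd ℂ) (u1 1) * v1 1 = (starRingEnd ℂ) (u2 1) * v2 1 := by
  have e0 : ⟪(dl false : Ell2 Bool), dl false⟫_ℂ = 1 := by rw [inner_dl, dl_self]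
  have e1 : ⟪(dl true : Ell2 Bool), dl true⟫_ℂ = 1 := by rw [inner_dl, dl_self]
  have e2 : ⟪(dl true : Ell2 Bool), dl false⟫_ℂ = 0 := by rw [inner_dl, dl_ne (by decide)]
  have e3 : ⟪(dl false : Ell2 Bool), dl true⟫_ℂ = 0 := by rw [inner_dl, dl_ne (by decide)]
  have key : ∀ a b : Ell2 K, ⟪tv (dl false) u1 - tv (dl true) u2,
      tv (dl false) a + tv (dl true) b⟫_ℂ = ⟪u1, a⟫_ℂ - ⟪u2, b⟫_ℂ := by
    intro a b
    rw [inner_sub_left, inner_add_right, inner_add_right, inner_tv, inner_tv, inner_tv, inner_tv,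
      e0, e1, e2, e3]
    ring
  obtain ⟨ω, h1, h2, h3⟩ := mix (sg ι) (u := tv (dl false) u1 - tv (dl true) u2)
    (v := tv (dl false) v1 + tv (dl true) v2) (c := 0) (P := {x | x.2 = 1}) (by
      rintro ⟨b, x⟩ hx g
      change x = 1 at hx
      subst hx
      change (b, ι g * 1 * (ι g)⁻¹) = (b, 1)
      rw [mul_one, mul_inv_cancel]) (by
      rintro ⟨b, x⟩ hx
      have hx' : x ≠ 1 := hx
      refine fun hfin => hinf x hx' ((hfin.image Prod.snd).subset ?_)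
      rintro _ ⟨s, rfl⟩
      exact ⟨_, ⟨s, rfl⟩, rfl⟩) (by
      intro g
      rw [map_add, rei_sg, rei_sg, key, h g, sub_self])
  have h4 : ω = tv (dl false) (v1 1 • dl 1) + tv (dl true) (v2 1 • dl 1) := by
    classical
    apply ext_inner_dl
    rintro ⟨b, x⟩
    by_cases hx : x = 1
    · subst hx
      rw [h1 (b, 1) rfl]
      change dl false b * v1 1 + dl true b * v2 1 =
        dl false b * (v1 1 * dl 1 1) + dl true b * (v2 1 * dl 1 1)
      rw [dl_self, mul_one, mul_one]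
    · rw [h2 (b, x) hx]
      change 0 = dl false b * (v1 1 * dl 1 x) + dl true b * (v2 1 * dl 1 x)
      rw [dl_ne hx, mul_zero, mul_zero, mul_zero, mul_zero, add_zero]
  rw [h4, key, inner_smul_right, inner_smul_right, inner_dl_right, inner_dl_right] at h3
  linear_combination h3

end mix

/-! ### matrix units -/

section units

variable {I K : Type} [Group K]

/-- `e_ij ⊗ λ_k` -/
noncomputable def mu (i j : I) (k : K) : Ell2 (I × K) →L[ℂ] Ell2 (I × K) :=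
  tvr (dl i) ∘L lam k ∘L slL K j

theorem mu_apply (i j : I) (k : K) (v : Ell2 (I × K)) :
    mu i j k v = tv (dl i) (lam k (sl v j)) := rfl

theorem sl_rt (x : K) (v : Ell2 (I × K)) (j : I) : sl (rt I x v) j = rho x (sl v j) := by
  apply ext_inner_dl
  intro y
  rw [sl_apply, rt_apply, rho_apply, sl_apply]

theorem rt_tv (x : K) (u : Ell2 I) (v : Ell2 K) : rt I x (tv u v) = tv u (rho x v) := by
  rw [rt_eq_tens, tens_tv]
  rfl

theorem mu_hm (i j : I) (k : K) : Hm (mu i j k) := by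
  intro x v
  rw [mu_apply, mu_apply, sl_rt, rt_tv]
  have h := rho_lam x k
  exact congrArg (fun w => tv (dl i) w)
    (congrArg (fun L : Ell2 K →L[ℂ] Ell2 K => L (sl v j)) h).symm

theorem mu_dl_self (i j : I) (k x : K) : mu i j k (dl (j, x)) = dl (i, k * x) := by
  rw [mu_apply, dl_prod, sl_tv, dl_self, one_smul, lam_dl, dl_prod]

theorem mu_dl_ne {i j l : I} (h : l ≠ j) (k x : K) : mu i j k (dl (l, x)) = 0 := by
  rw [mu_apply, dl_prod, sl_tv, dl_ne (Ne.symm h), zero_smul, map_zero, tv_zero_right]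

variable [Fintype I]

theorem inner_tv_dl (w : Ell2 (I × K)) (i : I) (a : Ell2 K) :
    ⟪w, tv (dl i) a⟫_ℂ = ⟪sl w i, a⟫_ℂ := by
  classical
  rw [inner_sl, Finset.sum_eq_single i]
  · rw [sl_tv, dl_self, one_smul]
  · intro j _ hj
    rw [sl_tv, dl_ne hj, zero_smul, inner_zero_right]
  · intro h; exact absurd (Finset.mem_univ i) h

theorem hs_mu {S : Ell2 (I × K) →L[ℂ] Ell2 (I × K)} (hS : Hm S)
    (Z : Ell2 (I × K) →L[ℂ] Ell2 (I × K)) (i j : I) (k : K) :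
    hs Z (mu i j k * S * mu j i k⁻¹) =
      ⟪sl (Z (dl (i, 1))) i, lam k (rho k (sl (S (dl (j, 1))) j))⟫_ℂ := by
  classical
  unfold hs
  rw [Finset.sum_eq_single i]
  · change ⟪_, mu i j k (S (mu j i k⁻¹ (dl (i, 1))))⟫_ℂ = _
    rw [mu_dl_self, mul_one, hS.dl, inv_inv, mu_apply, sl_rt, inner_tv_dl]
  · intro l _ hl
    change ⟪_, mu i j k (S (mu j i k⁻¹ (dl (l, 1))))⟫_ℂ = _
    rw [mu_dl_ne hl, map_zero, map_zero, inner_zero_right]
  · intro h; exact absurd (Finset.mem_univ i) h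

end units

section main

variable {I Γ Λ : Type} [Group Γ] [Group Λ]

theorem Del_mu (i j : I) (t : Λ) : Del (mu i j t) = mu i j (t, t, t) := by
  refine (Del_hm (mu_hm i j t)).ext (mu_hm _ _ _) fun l => ?_
  have h1 : Del (mu i j t) (dl (l, (1 : Λ × Λ × Λ))) = emb I Λ (mu i j t (dl (l, 1))) :=
    Del_dl _ l
  rw [h1]
  by_cases h : l = j
  · subst h
    rw [mu_dl_self, mu_dl_self, mul_one, mul_one, emb_dl]
  · rw [mu_dl_ne h, mu_dl_ne h, map_zero]

theorem Del_zero : Del (0 : Ell2 (I × Λ) →L[ℂ] Ell2 (I × Λ)) = 0 := by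
  have h := Del_smul (I := I) (Λ := Λ) 0 0
  rw [zero_smul, zero_smul] at h
  exact h

variable [Fintype I]

theorem hn_sub_le {J K : Type} [Group K] (A B : Ell2 (I × K) →L[ℂ] Ell2 (J × K)) :
    hn (A - B) ≤ 2 * hn A + 2 * hn B := by
  unfold hn
  rw [Finset.mul_sum, Finset.mul_sum, ← Finset.sum_add_distrib]
  refine Finset.sum_le_sum fun i _ => ?_
  rw [sub_apply]
  have h1 := norm_sub_le (A (dl (i, 1))) (B (dl (i, 1)))
  have h2 := norm_nonneg (A (dl (i, 1)) - B (dl (i, 1)))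
  nlinarith [sq_nonneg (‖A (dl (i, 1))‖ - ‖B (dl (i, 1))‖), norm_nonneg (A (dl (i, 1))),
    norm_nonneg (B (dl (i, 1)))]

theorem comm_all {U : Γ → Ell2 (I × Λ) →L[ℂ] Ell2 (I × Λ)} (hU : CF U)
    {y : Ell2 (I × (Λ × Λ × Λ)) →L[ℂ] Ell2 (I × (Λ × Λ × Λ))} (hy : Hm y)
    (hc : ∀ g, Del (U g) * y = y * Del (U g)) {a : Ell2 (I × Λ) →L[ℂ] Ell2 (I × Λ)}
    (ha : Hm a) (h1 : U 1 * a = a) (h2 : a * U 1 = a) : Del a * y = y * Del a := by
  classical
  have hs0 : ∀ (t : Finset Γ) (c : Γ → ℂ), Del (∑ g ∈ t, c g • U g) * y =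
      y * Del (∑ g ∈ t, c g • U g) := by
    intro t c
    induction t using Finset.induction_on with
    | empty => rw [Finset.sum_empty, Del_zero, zero_mul, mul_zero]
    | insert g t hg ih =>
      rw [Finset.sum_insert hg, Del_add, Del_smul, add_mul, mul_add, ih, smul_mul_assoc,
        mul_smul_comm, hc g]
  have hd : Hm (Del a * y - y * Del a) := ((Del_hm ha).mul hy).sub (hy.mul (Del_hm ha))
  have hle : ∀ ε : ℝ, 0 < ε → hn (Del a * y - y * Del a) ≤ 4 * ‖y‖ ^ 2 * ε := by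
    intro ε hε
    obtain ⟨t, c, ht⟩ := hU.approx a ha h1 h2 ε hε
    have hsum : Hm (∑ g ∈ t, c g • U g) := Hm.sum t fun g => (hU.hm g).smul (c g)
    have hb : Hm (a - ∑ g ∈ t, c g • U g) := ha.sub hsum
    have e1 : Del a = Del (a - ∑ g ∈ t, c g • U g) + Del (∑ g ∈ t, c g • U g) := by
      rw [← Del_add, sub_add_cancel]
    have e2 : Del a * y - y * Del a = Del (a - ∑ g ∈ t, c g • U g) * y -
        y * Del (a - ∑ g ∈ t, c g • U g) := by
      rw [e1, add_mul, mul_add, hs0]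
      abel
    rw [e2]
    refine (hn_sub_le _ _).trans ?_
    have e3 : hn (Del (a - ∑ g ∈ t, c g • U g) * y) ≤
        ‖y‖ ^ 2 * hn (Del (a - ∑ g ∈ t, c g • U g)) := hn_comp_right (Del_hm hb) hy
    have e4 : hn (y * Del (a - ∑ g ∈ t, c g • U g)) ≤
        ‖y‖ ^ 2 * hn (Del (a - ∑ g ∈ t, c g • U g)) := hn_comp_left _ _
    rw [hn_Del] at e3 e4
    have e5 : ‖y‖ ^ 2 * hn (a - ∑ g ∈ t, c g • U g) ≤ ‖y‖ ^ 2 * ε :=
      mul_le_mul_of_nonneg_left ht.le (by positivity)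
    linarith
  have h0 : hn (Del a * y - y * Del a) = 0 := by
    refine le_antisymm (le_of_forall_pos_le_add fun ε hε => ?_) (hn_nonneg _)
    have h3 := hle (ε / (4 * ‖y‖ ^ 2 + 1)) (by positivity)
    have h4 : 4 * ‖y‖ ^ 2 * (ε / (4 * ‖y‖ ^ 2 + 1)) ≤ ε := by
      rw [mul_div_assoc', div_le_iff₀ (by positivity)]
      nlinarith [sq_nonneg ‖y‖]
    linarith
  exact sub_eq_zero.mp (eq_zero_of_hn hd h0)

theorem TR_coord {K : Type} [Group K] (A : Ell2 (I × K) →L[ℂ] Ell2 (I × K)) :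
    TR A = ∑ i, sl (A (dl (i, 1))) i 1 := by
  unfold TR
  refine Finset.sum_congr rfl fun i _ => ?_
  rw [inner_dl]
  rfl

end main

end Vale.Agent.P092.H605.S3

namespace Vale.Agent.P092.H605

open Vale.Agent.P092.H160 S3

section lemI

variable {I Γ Λ : Type} [Group Γ] [Group Λ] [Fintype I]

/-- The relative commutant of `Δ(pMp)` in `Δ(p) M_I(L(Λ³)) Δ(p)` is trivial. -/
theorem lemI (hΛ : ∀ g : Λ, g ≠ 1 → Set.Infinite {y : Λ | ∃ h, y = h * g * h⁻¹})
    {U : Γ → Ell2 (I × Λ) →L[ℂ] Ell2 (I × Λ)} (hU : CF U) (hp : TR (U 1) ≠ 0)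
    {y : Ell2 (I × (Λ × Λ × Λ)) →L[ℂ] Ell2 (I × (Λ × Λ × Λ))} (hy : Hm y)
    (hl : Del (U 1) * y = y) (hr : y * Del (U 1) = y)
    (hc : ∀ g, Del (U g) * y = y * Del (U g)) : ∃ c : ℂ, y = c • Del (U 1) := by
  classical
  have hpp : U 1 * U 1 = U 1 := by rw [← hU.mul, one_mul]
  have hpa : adjoint (U 1) = U 1 := by rw [hU.adj, inv_one]
  have hPP : Del (U 1) * Del (U 1) = Del (U 1) := by rw [← Del_mul, hpp]
  have hPa : adjoint (Del (U 1)) = Del (U 1) := by rw [Del_adj, hpa]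
  have hPh : Hm (Del (U 1)) := Del_hm (hU.hm 1)
  have hpc : ∀ w : Ell2 (I × Λ) →L[ℂ] Ell2 (I × Λ), Hm w →
      (Del (U 1) * Del w * Del (U 1)) * y = y * (Del (U 1) * Del w * Del (U 1)) := by
    intro w hw
    rw [← Del_mul, ← Del_mul]
    refine comm_all hU hy hc (((hU.hm 1).mul hw).mul (hU.hm 1)) ?_ ?_
    · rw [← mul_assoc, ← mul_assoc, hpp]
    · rw [mul_assoc, hpp]
  -- the basic identity
  have hid : ∀ (i j : I) (t : Λ),
      Del (U 1) * ((mu i j (t, t, t) * y * mu j i (t, t, t)⁻¹) * Del (U 1)) =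
        y * ((mu i j (t, t, t) * Del (U 1) * mu j i (t, t, t)⁻¹) * Del (U 1)) := by
    intro i j t
    have ha := hpc (mu i j t) (mu_hm i j t)
    have hb := hpc (mu j i t⁻¹) (mu_hm j i t⁻¹)
    rw [Del_mu] at ha hb
    have hinv : (t⁻¹, t⁻¹, t⁻¹) = ((t, t, t) : Λ × Λ × Λ)⁻¹ := rfl
    rw [hinv] at hb
    generalize mu i j ((t, t, t) : Λ × Λ × Λ) = W at *
    generalize mu j i ((t, t, t) : Λ × Λ × Λ)⁻¹ = W' at *
    generalize Del (U 1) = P at *
    calc P * (W * y * W' * P) = P * (W * (P * y * P) * W' * P) := by rw [hl, hr]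
      _ = (P * W * P) * y * (P * W' * P) := by simp only [mul_assoc]
      _ = y * (P * W * P) * (P * W' * P) := by rw [ha]
      _ = (y * P) * W * (P * P) * W' * P := by simp only [mul_assoc]
      _ = y * (W * P * W' * P) := by rw [hr, hPP]; simp only [mul_assoc]
  have hleft : ∀ Z T : Ell2 (I × (Λ × Λ × Λ)) →L[ℂ] Ell2 (I × (Λ × Λ × Λ)),
      hs Z (Del (U 1) * T) = hs (Del (U 1) * Z) T := by
    intro Z T
    have h := hs_comp_left (Del (U 1)) Z T
    rw [hPa] at h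
    exact h.symm
  have hright : ∀ Z T : Ell2 (I × (Λ × Λ × Λ)) →L[ℂ] Ell2 (I × (Λ × Λ × Λ)), Hm Z → Hm T →
      hs Z (T * Del (U 1)) = hs (Z * Del (U 1)) T := by
    intro Z T hZ hT
    have h := hs_comp_right (T := T) hZ hPh hT
    rw [hPa] at h
    exact h.symm
  have hyl : ∀ Z T : Ell2 (I × (Λ × Λ × Λ)) →L[ℂ] Ell2 (I × (Λ × Λ × Λ)),
      hs Z (y * T) = hs (adjoint y * Z) T := by
    intro Z T
    have h := hs_comp_left (adjoint y) Z T
    rw [adjoint_adjoint] at h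
    exact h.symm
  -- consequence for coordinates
  have hco : ∀ Z : Ell2 (I × (Λ × Λ × Λ)) →L[ℂ] Ell2 (I × (Λ × Λ × Λ)), Hm Z → ∀ i j : I,
      (starRingEnd ℂ) (sl ((Del (U 1) * Z * Del (U 1)) (dl (i, 1))) i 1) *
          sl (y (dl (j, 1))) j 1 =
        (starRingEnd ℂ) (sl ((adjoint y * Z * Del (U 1)) (dl (i, 1))) i 1) *
          sl (Del (U 1) (dl (j, 1))) j 1 := by
    intro Z hZ i j
    refine mix2 ι3 (ι3_icc hΛ) fun t => ?_
    rw [ι3_apply, ← hs_mu hy, ← hs_mu hPh]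
    have hm1 : Hm (mu i j ((t, t, t) : Λ × Λ × Λ) * y * mu j i (t, t, t)⁻¹) :=
      ((mu_hm _ _ _).mul hy).mul (mu_hm _ _ _)
    have hm2 : Hm (mu i j ((t, t, t) : Λ × Λ × Λ) * Del (U 1) * mu j i (t, t, t)⁻¹) :=
      ((mu_hm _ _ _).mul hPh).mul (mu_hm _ _ _)
    rw [← hright _ _ (hPh.mul hZ) hm1, ← hleft, hid, hyl, hright _ _ (hy.adj.mul hZ) hm2]
  have hsum : ∀ Z : Ell2 (I × (Λ × Λ × Λ)) →L[ℂ] Ell2 (I × (Λ × Λ × Λ)), Hm Z →
      (starRingEnd ℂ) (TR (Del (U 1) * Z * Del (U 1))) * TR y =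
        (starRingEnd ℂ) (TR (adjoint y * Z * Del (U 1))) * TR (Del (U 1)) := by
    intro Z hZ
    rw [TR_coord, TR_coord, TR_coord, TR_coord, map_sum, map_sum, Finset.sum_mul_sum,
      Finset.sum_mul_sum]
    exact Finset.sum_congr rfl fun i _ => Finset.sum_congr rfl fun j _ => hco Z hZ i j
  have hfin : ∀ Z : Ell2 (I × (Λ × Λ × Λ)) →L[ℂ] Ell2 (I × (Λ × Λ × Λ)), Hm Z →
      hs Z (Del (U 1)) * TR y = hs Z y * TR (U 1) := by
    intro Z hZ
    have h := hsum Z hZ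
    rw [TR_Del, TR_eq_hs (Del (U 1) * Z * Del (U 1)), TR_eq_hs (adjoint y * Z * Del (U 1)),
      hs_conj, hs_conj, ← hright _ _ (hPh.mul hZ) Hm.one, ← hleft,
      ← hright _ _ (hy.adj.mul hZ) Hm.one, ← hyl, one_mul, hPP, hr] at h
    exact h
  refine ⟨TR y / TR (U 1), ?_⟩
  have hD : Hm (TR (U 1) • y - TR y • Del (U 1)) := (hy.smul _).sub (hPh.smul _)
  have h0 : hs (TR (U 1) • y - TR y • Del (U 1)) (TR (U 1) • y - TR y • Del (U 1)) = 0 := by
    have h := hfin _ hD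
    rw [hs_sub, hs_smul, hs_smul]
    linear_combination -h
  rw [hs_self] at h0
  have h1 : hn (TR (U 1) • y - TR y • Del (U 1)) = 0 := by exact_mod_cast h0
  have h2 := sub_eq_zero.mp (eq_zero_of_hn hD h1)
  rw [div_eq_inv_mul, mul_smul, ← h2, smul_smul, inv_mul_cancel₀ hp, one_smul]

end lemI

end Vale.Agent.P092.H605
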