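import Vale.Agent.P092.H605.Fin
import Vale.Agent.P092.H605.S1a
import Vale.Agent.P092.H605.S2
import Vale.Agent.P092.H605.S3

/-!
P092, stable isomorphisms: assembly.
-/

set_option linter.all false

open scoped InnerProductSpace
open Filter Topology ContinuousLinearMap

namespace Vale.Agent.P092.H605

open Vale.Agent.P092.H160 Vale.Agent.P092.H885

section frames

variable {I Γ Λ : Type} [Group Γ] [Group Λ] [Fintype I]
  {U : Γ → Ell2 (I × Λ) →L[ℂ] Ell2 (I × Λ)}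

theorem no_inv (hΓ : ∀ g : Γ, g ≠ 1 → Set.Infinite {y : Γ | ∃ h, y = h * g * h⁻¹})
    (hΛ : ∀ g : Λ, g ≠ 1 → Set.Infinite {y : Λ | ∃ h, y = h * g * h⁻¹})
    (hU : CF U) (hp : TR (U 1) ≠ 0) (h1 : TR (U 1) ≠ 1)
    (X : Ell2 (I × K3 Λ) →L[ℂ] Ell2 (J3 I × K3 Λ)) (hX : Hm X)
    (hinv : ∀ g, AA U g ∘L X ∘L Del (U g⁻¹) = X) : X = 0 :=
  no_itw hU hp h1 (fun y hy a b c => lemI hΛ hU hp hy a b c)
    (fun y hy a b c => lemII hΓ hU hp hy a b c) X hX hinv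

theorem orth (hΓ : ∀ g : Γ, g ≠ 1 → Set.Infinite {y : Γ | ∃ h, y = h * g * h⁻¹})
    (hΛ : ∀ g : Λ, g ≠ 1 → Set.Infinite {y : Λ | ∃ h, y = h * g * h⁻¹})
    (hU : CF U) (hp : TR (U 1) ≠ 0) (h1 : TR (U 1) ≠ 1) :
    ∀ η, (∀ g, pi1 hU g η = η) → ⟪η, xi U⟫_ℂ = 0 :=
  min_arg hU (no_inv hΓ hΛ hU hp h1)

end frames

end Vale.Agent.P092.H605
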