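import Vale.Agent.P092.H885.Final

/-!
P092, stable isomorphisms: matrices over group von Neumann algebras as equivariant operators
`ℓ²(I × K) → ℓ²(J × K)`, the corner frames, the diagonal embedding and the threefold tensor power.
-/

set_option linter.all false

open scoped InnerProductSpace
open Filter Topology ContinuousLinearMap

namespace Vale.Agent.P092.H605

open Vale.Agent.P092.H160

section hom

variable {I J L K : Type} [Group K]

/-- the right translation `(R_x v)(i, h) = v(i, h x)` of `ℓ²(I × K)` -/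
noncomputable def rt (I : Type) {K : Type} [Group K] (x : K) :
    Ell2 (I × K) →L[ℂ] Ell2 (I × K) :=
  rei (Equiv.prodCongr (Equiv.refl I) (Equiv.mulRight x⁻¹))

theorem rt_apply (x : K) (v : Ell2 (I × K)) (i : I) (h : K) : rt I x v (i, h) = v (i, h * x) := by
  change v (i, h * x⁻¹⁻¹) = _
  rw [inv_inv]

theorem rt_dl (x : K) (i : I) (h : K) : rt I x (dl (i, h)) = dl (i, h * x⁻¹) := by
  rw [rt, rei_dl]; rfl

theorem rt_one (v : Ell2 (I × K)) : rt I (1 : K) v = v := by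
  apply ext_inner_dl
  rintro ⟨i, h⟩
  rw [rt_apply, mul_one]

theorem rt_mul (x y : K) (v : Ell2 (I × K)) : rt I (x * y) v = rt I x (rt I y v) := by
  apply ext_inner_dl
  rintro ⟨i, h⟩
  rw [rt_apply, rt_apply, rt_apply, mul_assoc]

theorem norm_rt (x : K) (v : Ell2 (I × K)) : ‖rt I x v‖ = ‖v‖ := norm_rei _ _

theorem inner_rt (x : K) (u v : Ell2 (I × K)) : ⟪rt I x u, rt I x v⟫_ℂ = ⟪u, v⟫_ℂ :=
  inner_rei _ _ _

theorem rt_inv_self (x : K) (v : Ell2 (I × K)) : rt I x⁻¹ (rt I x v) = v := by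
  rw [← rt_mul, inv_mul_cancel, rt_one]

theorem rt_self_inv (x : K) (v : Ell2 (I × K)) : rt I x (rt I x⁻¹ v) = v := by
  rw [← rt_mul, mul_inv_cancel, rt_one]

theorem inner_rt_left (x : K) (u v : Ell2 (I × K)) :
    ⟪rt I x u, v⟫_ℂ = ⟪u, rt I x⁻¹ v⟫_ℂ := by
  rw [← inner_rt x u (rt I x⁻¹ v), rt_self_inv]

/-- equivariant operators, that is `J × I` matrices over `L(K)` -/
def Hm (S : Ell2 (I × K) →L[ℂ] Ell2 (J × K)) : Prop := ∀ x v, S (rt I x v) = rt J x (S v)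

theorem Hm.comp {S : Ell2 (I × K) →L[ℂ] Ell2 (J × K)} {T : Ell2 (J × K) →L[ℂ] Ell2 (L × K)}
    (hT : Hm T) (hS : Hm S) : Hm (T ∘L S) := fun x v => by
  rw [comp_apply, comp_apply, hS, hT]

theorem Hm.mul {S T : Ell2 (I × K) →L[ℂ] Ell2 (I × K)} (hT : Hm T) (hS : Hm S) : Hm (T * S) :=
  Hm.comp hT hS

theorem Hm.add {S T : Ell2 (I × K) →L[ℂ] Ell2 (J × K)} (hS : Hm S) (hT : Hm T) :
    Hm (S + T) := fun x v => by rw [add_apply, add_apply, hS, hT, map_add]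

theorem Hm.sub {S T : Ell2 (I × K) →L[ℂ] Ell2 (J × K)} (hS : Hm S) (hT : Hm T) :
    Hm (S - T) := fun x v => by rw [sub_apply, sub_apply, hS, hT, map_sub]

theorem Hm.smul {S : Ell2 (I × K) →L[ℂ] Ell2 (J × K)} (c : ℂ) (hS : Hm S) : Hm (c • S) :=
  fun x v => by
    change c • S (rt I x v) = rt J x (c • S v)
    rw [hS, map_smul]

theorem Hm.zero : Hm (0 : Ell2 (I × K) →L[ℂ] Ell2 (J × K)) := fun x v => by
  rw [ContinuousLinearMap.zero_apply, ContinuousLinearMap.zero_apply, map_zero]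

theorem Hm.one : Hm (1 : Ell2 (I × K) →L[ℂ] Ell2 (I × K)) := fun x v => rfl

theorem Hm.sum {ι : Type} (s : Finset ι) {S : ι → Ell2 (I × K) →L[ℂ] Ell2 (J × K)}
    (h : ∀ i, Hm (S i)) : Hm (∑ i ∈ s, S i) := fun x v => by
  rw [sum_apply, sum_apply, map_sum]
  exact Finset.sum_congr rfl fun i _ => h i x v

theorem Hm.adj {S : Ell2 (I × K) →L[ℂ] Ell2 (J × K)} (hS : Hm S) : Hm (adjoint S) := by
  intro x v
  refine ext_inner_left ℂ fun u => ?_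
  have h1 := inner_rt_left (I := I) x⁻¹ u (adjoint S v)
  rw [inv_inv] at h1
  have h2 := inner_rt_left (I := J) x⁻¹ (S u) v
  rw [inv_inv] at h2
  rw [adjoint_inner_right, ← h1, adjoint_inner_right, hS, h2]

theorem Hm.dl {S : Ell2 (I × K) →L[ℂ] Ell2 (J × K)} (hS : Hm S) (i : I) (x : K) :
    S (dl (i, x)) = rt J x⁻¹ (S (dl (i, 1))) := by
  rw [← hS, rt_dl, one_mul, inv_inv]

theorem Hm.ext {S T : Ell2 (I × K) →L[ℂ] Ell2 (J × K)} (hS : Hm S) (hT : Hm T)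
    (h : ∀ i, S (H160.dl (i, 1)) = T (H160.dl (i, 1))) : S = T := by
  apply op_ext
  rintro ⟨i, x⟩
  rw [hS.dl, hT.dl, h]

/-- coordinates of the adjoint -/
theorem adj_coord (S : Ell2 (I × K) →L[ℂ] Ell2 (J × K)) (a : I × K) (b : J × K) :
    adjoint S (H160.dl b) a = (starRingEnd ℂ) (S (H160.dl a) b) := by
  rw [← inner_dl, adjoint_inner_right, inner_dl_right]

variable [Fintype I] [Fintype J] [Fintype L]

/-- Hilbert-Schmidt inner product over `L(K)` -/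
noncomputable def hs (S T : Ell2 (I × K) →L[ℂ] Ell2 (J × K)) : ℂ :=
  ∑ i, ⟪S (H160.dl (i, 1)), T (H160.dl (i, 1))⟫_ℂ

/-- squared Hilbert-Schmidt norm -/
noncomputable def hn (S : Ell2 (I × K) →L[ℂ] Ell2 (J × K)) : ℝ :=
  ∑ i, ‖S (H160.dl (i, 1))‖ ^ 2

/-- the trace `(Tr ⊗ τ)(A)` -/
noncomputable def TR (A : Ell2 (I × K) →L[ℂ] Ell2 (I × K)) : ℂ :=
  ∑ i, ⟪(H160.dl (i, 1) : Ell2 (I × K)), A (H160.dl (i, 1))⟫_ℂ

end hom

/-- Corner frames: the image `U` of `Γ` under an isomorphism `L(Γ) → p M_I(L(Λ)) p`, `p = U 1`. -/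
structure CF {I Γ Λ : Type} [Fintype I] [Group Γ] [Group Λ]
    (U : Γ → Ell2 (I × Λ) →L[ℂ] Ell2 (I × Λ)) : Prop where
  mul : ∀ g h, U (g * h) = U g * U h
  adj : ∀ g, adjoint (U g) = U g⁻¹
  hm : ∀ g, Hm (U g)
  tr0 : ∀ g, g ≠ 1 → TR (U g) = 0
  approx : ∀ a : Ell2 (I × Λ) →L[ℂ] Ell2 (I × Λ), Hm a → U 1 * a = a → a * U 1 = a →
    ∀ ε : ℝ, 0 < ε → ∃ (t : Finset Γ) (c : Γ → ℂ), hn (a - ∑ g ∈ t, c g • U g) < ε

section defs

variable (I Λ : Type) [Group Λ]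

/-- coordinates adapted to the diagonal left translations -/
def phe : I × (Λ × Λ × Λ) ≃ (I × Λ) × (Λ × Λ) where
  toFun x := ((x.1, x.2.1), (x.2.1⁻¹ * x.2.2.1, x.2.1⁻¹ * x.2.2.2))
  invFun y := (y.1.1, (y.1.2, y.1.2 * y.2.1, y.1.2 * y.2.2))
  left_inv x := by simp
  right_inv y := by simp

/-- separation of the matrix indices -/
def sge : (I × Λ) × (I × Λ) × (I × Λ) ≃ (I × I × I) × (Λ × Λ × Λ) where
  toFun x := ((x.1.1, x.2.1.1, x.2.2.1), (x.1.2, x.2.1.2, x.2.2.2))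
  invFun y := ((y.1.1, y.2.1), (y.1.2.1, y.2.2.1), (y.1.2.2, y.2.2.2))
  left_inv x := rfl
  right_inv y := rfl

variable {I Λ}

/-- `Δ(V) = ∑_s V_s ⊗ v_(s,s,s)` for `V = ∑_s V_s ⊗ v_s` -/
noncomputable def Del (V : Ell2 (I × Λ) →L[ℂ] Ell2 (I × Λ)) :
    Ell2 (I × (Λ × Λ × Λ)) →L[ℂ] Ell2 (I × (Λ × Λ × Λ)) :=
  rei (phe I Λ).symm ∘L tens V 1 ∘L rei (phe I Λ)

/-- `A ⊗ conj B ⊗ C` -/
noncomputable def T3 (A B C : Ell2 (I × Λ) →L[ℂ] Ell2 (I × Λ)) :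
    Ell2 ((I × I × I) × (Λ × Λ × Λ)) →L[ℂ] Ell2 ((I × I × I) × (Λ × Λ × Λ)) :=
  rei (sge I Λ) ∘L tens A (tens (bar B) C) ∘L rei (sge I Λ).symm

theorem Del_apply (V : Ell2 (I × Λ) →L[ℂ] Ell2 (I × Λ)) (v : Ell2 (I × (Λ × Λ × Λ))) :
    Del V v = rei (phe I Λ).symm (tens V 1 (rei (phe I Λ) v)) := rfl

theorem T3_apply (A B C : Ell2 (I × Λ) →L[ℂ] Ell2 (I × Λ))
    (v : Ell2 ((I × I × I) × (Λ × Λ × Λ))) :
    T3 A B C v = rei (sge I Λ) (tens A (tens (bar B) C) (rei (sge I Λ).symm v)) := rfl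

theorem Del_mul (V W : Ell2 (I × Λ) →L[ℂ] Ell2 (I × Λ)) : Del (V * W) = Del V * Del W := by
  ext1 v
  change rei (phe I Λ).symm (tens (V * W) 1 (rei (phe I Λ) v)) =
    rei (phe I Λ).symm (tens V 1 (rei (phe I Λ) (rei (phe I Λ).symm
      (tens W 1 (rei (phe I Λ) v)))))
  have h1 := tens_mul W V (1 : Ell2 (Λ × Λ) →L[ℂ] Ell2 (Λ × Λ)) 1
  rw [mul_one] at h1
  rw [rei_rei (phe I Λ).symm, Equiv.symm_trans_self, rei_refl, h1]
  rfl

theorem Del_adj (V : Ell2 (I × Λ) →L[ℂ] Ell2 (I × Λ)) :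
    adjoint (Del V) = Del (adjoint V) := by
  change adjoint (rei (phe I Λ).symm ∘L tens V 1 ∘L rei (phe I Λ)) = _
  rw [adjoint_comp, adjoint_comp, adjoint_rei, adjoint_rei, adjoint_tens, Equiv.symm_symm,
    ← star_eq_adjoint (1 : Ell2 (Λ × Λ) →L[ℂ] Ell2 (Λ × Λ)), star_one]
  rfl

theorem T3_mul (A B C A' B' C' : Ell2 (I × Λ) →L[ℂ] Ell2 (I × Λ)) :
    T3 (A * A') (B * B') (C * C') = T3 A B C * T3 A' B' C' := by
  ext1 v
  change rei (sge I Λ) (tens (A * A') (tens (bar (B * B')) (C * C')) (rei (sge I Λ).symm v)) =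
    rei (sge I Λ) (tens A (tens (bar B) C) (rei (sge I Λ).symm (rei (sge I Λ)
      (tens A' (tens (bar B') C') (rei (sge I Λ).symm v)))))
  rw [rei_rei (sge I Λ), Equiv.self_trans_symm, rei_refl, bar_mul, tens_mul, tens_mul]
  rfl

theorem T3_adj (A B C : Ell2 (I × Λ) →L[ℂ] Ell2 (I × Λ)) :
    adjoint (T3 A B C) = T3 (adjoint A) (adjoint B) (adjoint C) := by
  change adjoint (rei (sge I Λ) ∘L tens A (tens (bar B) C) ∘L rei (sge I Λ).symm) = _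
  rw [adjoint_comp, adjoint_comp, adjoint_rei, adjoint_rei, adjoint_tens, adjoint_tens,
    adjoint_bar, Equiv.symm_symm]
  rfl

end defs

end Vale.Agent.P092.H605
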