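import Vale.Agent.P092.H605.S3
import Vale.Agent.P092.H108.Base

/-!
P092, stable isomorphisms: a projection of trace one in `M_I(L(Λ))`, `Λ` an ICC group, is
equivalent to the unit of the corner `L(Λ)`. The partial isometry is an extreme point of a weakly
compact convex set.
-/

set_option linter.all false

open scoped InnerProductSpace
open Filter Topology ContinuousLinearMap

namespace Vale.Agent.P092.H605.W

open Vale.Agent.P092.H160 Vale.Agent.P092.H605 S3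

section extreme

variable {H : Type} [NormedAddCommGroup H] [InnerProductSpace ℂ H] [CompleteSpace H]

/-- the matrix coefficients of an operator -/
noncomputable def mc (H : Type) [NormedAddCommGroup H] [InnerProductSpace ℂ H] :
    (H →L[ℂ] H) →ₗ[ℝ] (H × H → ℂ) where
  toFun T p := ⟪p.1, T p.2⟫_ℂ
  map_add' S T := by
    funext p
    exact inner_add_right _ _ _
  map_smul' c T := by
    funext p
    change ⟪p.1, (c • T) p.2⟫_ℂ = c • ⟪p.1, T p.2⟫_ℂ
    have h : (c • T) p.2 = (c : ℂ) • T p.2 := rfl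
    rw [h, inner_smul_right]
    rfl

theorem mc_apply (T : H →L[ℂ] H) (p : H × H) : mc H T p = ⟪p.1, T p.2⟫_ℂ := rfl

theorem mc_inj : Function.Injective (mc H) := by
  intro S T h
  ext1 v
  refine ext_inner_left ℂ fun u => ?_
  exact congrFun h (u, v)

theorem exists_extreme (B : Set (H →L[ℂ] H)) (h0 : B.Nonempty) (hb : ∀ x ∈ B, ‖x‖ ≤ 1)
    (hcl : ∀ (U : Ultrafilter B) (L : H →L[ℂ] H), ‖L‖ ≤ 1 →
      (∀ ξ η : H, Tendsto (fun x : B => ⟪ξ, (x : H →L[ℂ] H) η⟫_ℂ) U (𝓝 ⟪ξ, L η⟫_ℂ)) → L ∈ B) :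
    ∃ x ∈ B, ∀ z : H →L[ℂ] H, x + z ∈ B → x - z ∈ B → z = 0 := by
  have hc : IsCompact (mc H '' B) := by
    rw [isCompact_iff_ultrafilter_le_nhds]
    intro f hf
    have hm : Function.Injective (fun x : B => mc H (x : H →L[ℂ] H)) :=
      mc_inj.comp Subtype.val_injective
    have hr : Set.range (fun x : B => mc H (x : H →L[ℂ] H)) ∈ f := by
      have : Set.range (fun x : B => mc H (x : H →L[ℂ] H)) = mc H '' B := by
        ext y
        constructor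
        · rintro ⟨x, rfl⟩; exact ⟨x, x.2, rfl⟩
        · rintro ⟨x, hx, rfl⟩; exact ⟨⟨x, hx⟩, rfl⟩
      rw [this]
      exact le_principal_iff.mp hf
    set U : Ultrafilter B := f.comap hm hr with hU
    have hmap : Filter.map (fun x : B => mc H (x : H →L[ℂ] H)) (U : Filter B) = f := by
      rw [hU, Ultrafilter.coe_comap, Filter.map_comap_of_mem hr]
    obtain ⟨L, hL1, hL⟩ := Vale.Agent.P092.H108.exists_wot_limit U
      (fun x : B => (x : H →L[ℂ] H)) 1 (fun x => hb x x.2) zero_le_one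
    refine ⟨mc H L, ⟨L, hcl U L hL1 hL, rfl⟩, ?_⟩
    rw [← hmap]
    refine tendsto_pi_nhds.mpr fun p => ?_
    exact hL p.1 p.2
  obtain ⟨y, hy⟩ := hc.extremePoints_nonempty (h0.image _)
  obtain ⟨⟨x, hx, rfl⟩, hy2⟩ := hy
  refine ⟨x, hx, fun z h1 h2 => ?_⟩
  have hseg : mc H x ∈ openSegment ℝ (mc H (x + z)) (mc H (x - z)) := by
    refine ⟨1 / 2, 1 / 2, by norm_num, by norm_num, by norm_num, ?_⟩
    rw [← map_smul, ← map_smul, ← map_add]
    congr 1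
    rw [← smul_add]
    have : x + z + (x - z) = (2 : ℝ) • x := by rw [two_smul]; abel
    rw [this, smul_smul]
    norm_num
  have h3 := hy2 ⟨_, h1, rfl⟩ ⟨_, h2, rfl⟩ hseg
  have h4 : mc H (x + z) = mc H x := by
    first | exact h3 | exact h3.1
  have h5 := mc_inj h4
  simpa using h5

theorem wot_rel {B : Set (H →L[ℂ] H)} {U : Ultrafilter B} {L : H →L[ℂ] H}
    (hL : ∀ ξ η : H, Tendsto (fun x : B => ⟪ξ, (x : H →L[ℂ] H) η⟫_ℂ) U (𝓝 ⟪ξ, L η⟫_ℂ))
    (A C A' C' : H →L[ℂ] H) (h : ∀ x ∈ B, A * x * C = A' * x * C') :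
    A * L * C = A' * L * C' := by
  ext1 v
  refine ext_inner_left ℂ fun u => ?_
  change ⟪u, A (L (C v))⟫_ℂ = ⟪u, A' (L (C' v))⟫_ℂ
  have e1 : ⟪u, A (L (C v))⟫_ℂ = ⟪adjoint A u, L (C v)⟫_ℂ := (adjoint_inner_left _ _ _).symm
  have e2 : ⟪u, A' (L (C' v))⟫_ℂ = ⟪adjoint A' u, L (C' v)⟫_ℂ := (adjoint_inner_left _ _ _).symm
  rw [e1, e2]
  refine tendsto_nhds_unique (hL (adjoint A u) (C v)) ?_
  refine (hL (adjoint A' u) (C' v)).congr fun x => ?_
  rw [adjoint_inner_left, adjoint_inner_left]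
  have h1 := congrArg (fun T : H →L[ℂ] H => T v) (h x x.2)
  change A (x.1 (C v)) = A' (x.1 (C' v)) at h1
  rw [h1]

/-- the norm of the modified contraction -/
theorem norm_plus {x : H →L[ℂ] H} (hx : ‖x‖ ≤ 1) :
    ‖x + ((1 / 2 : ℝ) : ℂ) • (x - x * (adjoint x * x))‖ ≤ 1 := by
  have hxv : ∀ v, ‖x v‖ ≤ ‖v‖ := fun v => by
    simpa using x.le_of_opNorm_le hx v
  refine opNorm_le_bound _ zero_le_one fun v => ?_
  rw [one_mul]
  set w := v - adjoint x (x v) with hw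
  have e1 : (x + ((1 / 2 : ℝ) : ℂ) • (x - x * (adjoint x * x))) v =
      x v + ((1 / 2 : ℝ) : ℂ) • x w := by
    change x v + ((1 / 2 : ℝ) : ℂ) • (x v - x (adjoint x (x v))) = _
    rw [hw, map_sub]
  have e2 : adjoint x (x v) = v - w := by rw [hw]; abel
  have h1 := norm_add_sq (𝕜 := ℂ) (x v) (((1 / 2 : ℝ) : ℂ) • x w)
  have h2 : (⟪x v, ((1 / 2 : ℝ) : ℂ) • x w⟫_ℂ).re = 1 / 2 * ((⟪v, w⟫_ℂ).re - ‖w‖ ^ 2) := by
    rw [inner_smul_right, Complex.re_ofReal_mul, ← adjoint_inner_left, e2, inner_sub_left,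
      Complex.sub_re, inner_self_eq_norm_sq_to_K]
    norm_cast
  have h3 : ‖x v‖ ^ 2 = ‖v‖ ^ 2 - (⟪v, w⟫_ℂ).re := by
    have h4 : ((‖x v‖ ^ 2 : ℝ) : ℂ) = ⟪v, adjoint x (x v)⟫_ℂ := by
      rw [adjoint_inner_right, inner_self_eq_norm_sq_to_K]
      push_cast
      rfl
    rw [e2, inner_sub_right, inner_self_eq_norm_sq_to_K] at h4
    have h5 := congrArg Complex.re h4
    rw [Complex.ofReal_re, Complex.sub_re] at h5
    rw [h5]
    norm_cast
  have h6 : ‖((1 / 2 : ℝ) : ℂ) • x w‖ = 1 / 2 * ‖x w‖ := by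
    rw [norm_smul, Complex.norm_real]
    norm_num
  have h7 : ‖x v + ((1 / 2 : ℝ) : ℂ) • x w‖ ^ 2 ≤ ‖v‖ ^ 2 := by
    have h8 : ‖x v + ((1 / 2 : ℝ) : ℂ) • x w‖ ^ 2 = ‖x v‖ ^ 2 +
      2 * (⟪x v, ((1 / 2 : ℝ) : ℂ) • x w⟫_ℂ).re + ‖((1 / 2 : ℝ) : ℂ) • x w‖ ^ 2 := h1
    rw [h8, h2, h3, h6]
    have h9 := hxv w
    nlinarith [norm_nonneg (x w), norm_nonneg w]
  rw [e1]
  exact (pow_le_pow_iff_left₀ (norm_nonneg _) (norm_nonneg _) two_ne_zero).mp h7

theorem norm_minus {x : H →L[ℂ] H} (hx : ‖x‖ ≤ 1) :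
    ‖x - ((1 / 2 : ℝ) : ℂ) • (x - x * (adjoint x * x))‖ ≤ 1 := by
  have e1 : x - ((1 / 2 : ℝ) : ℂ) • (x - x * (adjoint x * x)) =
      ((1 / 2 : ℝ) : ℂ) • (x + x * (adjoint x * x)) := by
    have e2 : x = ((1 / 2 : ℝ) : ℂ) • (x + x) := by
      rw [← two_smul ℂ, smul_smul]
      norm_num
    rw [smul_sub, smul_add]
    nth_rewrite 1 [e2]
    rw [smul_add]
    abel
  have ha : ‖adjoint x‖ ≤ 1 := by
    rw [LinearIsometryEquiv.norm_map]; exact hx
  have h1 : ‖x * (adjoint x * x)‖ ≤ 1 := by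
    calc ‖x * (adjoint x * x)‖ ≤ ‖x‖ * (‖adjoint x‖ * ‖x‖) :=
          (norm_mul_le _ _).trans (mul_le_mul_of_nonneg_left (norm_mul_le _ _) (norm_nonneg _))
      _ ≤ 1 * (1 * 1) := by gcongr
      _ = 1 := by norm_num
  rw [e1, norm_smul, Complex.norm_real]
  calc ‖(1 / 2 : ℝ)‖ * ‖x + x * (adjoint x * x)‖ ≤ 1 / 2 * (1 + 1) := by
        have : ‖(1 / 2 : ℝ)‖ = 1 / 2 := by norm_num
        rw [this]
        gcongr
        exact (norm_add_le _ _).trans (add_le_add hx h1)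
    _ = 1 := by norm_num

end extreme

section corner

variable {I K : Type} [Group K] [Fintype I]

/-- the partial isometries of norm one between two corners -/
def BB (p e : Ell2 (I × K) →L[ℂ] Ell2 (I × K)) : Set (Ell2 (I × K) →L[ℂ] Ell2 (I × K)) :=
  {x | Hm x ∧ ‖x‖ ≤ 1 ∧ p * x = x ∧ x * e = x}

omit [Fintype I] in
theorem hm_iff (x : Ell2 (I × K) →L[ℂ] Ell2 (I × K)) :
    Hm x ↔ ∀ s, 1 * x * rt I s = rt I s * x * 1 := by
  constructor
  · intro h s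
    ext1 v
    exact h s v
  · intro h s v
    exact congrArg (fun T : Ell2 (I × K) →L[ℂ] Ell2 (I × K) => T v) (h s)

omit [Fintype I] in
theorem exists_ext (p e : Ell2 (I × K) →L[ℂ] Ell2 (I × K)) :
    ∃ x ∈ BB p e, ∀ z, x + z ∈ BB p e → x - z ∈ BB p e → z = 0 := by
  refine exists_extreme (BB p e) ⟨0, Hm.zero, by simp, by simp, by simp⟩ (fun x hx => hx.2.1) ?_
  intro U L hL1 hL
  refine ⟨(hm_iff L).mpr fun s => ?_, hL1, ?_, ?_⟩
  · exact wot_rel hL 1 (rt I s) (rt I s) 1 fun x hx => (hm_iff x).mp hx.1 s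
  · have h := wot_rel hL p 1 1 1 fun x hx => by rw [mul_one, one_mul, mul_one]; exact hx.2.2.1
    rwa [mul_one, one_mul, mul_one] at h
  · have h := wot_rel hL 1 e 1 1 fun x hx => by rw [one_mul, mul_one]; exact hx.2.2.2
    rwa [one_mul, mul_one] at h

omit [Fintype I] in
theorem ext_pi {p e x : Ell2 (I × K) →L[ℂ] Ell2 (I × K)} (hx : x ∈ BB p e)
    (hext : ∀ z, x + z ∈ BB p e → x - z ∈ BB p e → z = 0) : x * (adjoint x * x) = x := by
  obtain ⟨h1, h2, h3, h4⟩ := hx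
  have hz : Hm (((1 / 2 : ℝ) : ℂ) • (x - x * (adjoint x * x))) :=
    (h1.sub (h1.mul (h1.adj.mul h1))).smul _
  have hp : p * (((1 / 2 : ℝ) : ℂ) • (x - x * (adjoint x * x))) =
      ((1 / 2 : ℝ) : ℂ) • (x - x * (adjoint x * x)) := by
    rw [mul_smul_comm, mul_sub, ← mul_assoc p x, h3]
  have he : (((1 / 2 : ℝ) : ℂ) • (x - x * (adjoint x * x))) * e =
      ((1 / 2 : ℝ) : ℂ) • (x - x * (adjoint x * x)) := by
    rw [smul_mul_assoc, sub_mul, mul_assoc, mul_assoc, h4]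
  have h := hext _ ⟨h1.add hz, norm_plus h2, by rw [mul_add, h3, hp], by rw [add_mul, h4, he]⟩
    ⟨h1.sub hz, norm_minus h2, by rw [mul_sub, h3, hp], by rw [sub_mul, h4, he]⟩
  have h5 : x - x * (adjoint x * x) = 0 := by
    rcases smul_eq_zero.mp h with h6 | h6
    · exfalso
      have : ((1 / 2 : ℝ) : ℂ) ≠ 0 := by norm_num
      exact this h6
    · exact h6
  exact (sub_eq_zero.mp h5).symm

omit [Fintype I] in
theorem norm_add_orth {v z e' e : Ell2 (I × K) →L[ℂ] Ell2 (I × K)} (hz1 : ‖z‖ ≤ 1)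
    (he : adjoint e * e = e) (hee : ‖e‖ ≤ 1) (he' : adjoint e' * e' = e') (hvz : adjoint v * z = 0)
    (hze : z * e' = z) (hsum : adjoint v * v + e' = e) : ‖v + z‖ ≤ 1 := by
  have hsq : ∀ (T : Ell2 (I × K) →L[ℂ] Ell2 (I × K)) (ξ : Ell2 (I × K)),
      ‖T ξ‖ ^ 2 = (⟪ξ, (adjoint T * T) ξ⟫_ℂ).re := by
    intro T ξ
    have h4 : ((‖T ξ‖ ^ 2 : ℝ) : ℂ) = ⟪ξ, (adjoint T * T) ξ⟫_ℂ := by
      change _ = ⟪ξ, adjoint T (T ξ)⟫_ℂ
      rw [adjoint_inner_right, inner_self_eq_norm_sq_to_K]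
      push_cast
      rfl
    rw [← h4, Complex.ofReal_re]
  refine opNorm_le_bound _ zero_le_one fun ξ => ?_
  rw [one_mul]
  have h1 := norm_add_sq (𝕜 := ℂ) (v ξ) (z ξ)
  have h2 : ⟪v ξ, z ξ⟫_ℂ = 0 := by
    have h3 : adjoint v (z ξ) = 0 :=
      congrArg (fun T : Ell2 (I × K) →L[ℂ] Ell2 (I × K) => T ξ) hvz
    rw [← adjoint_inner_right, h3, inner_zero_right]
  have h3 : ‖v ξ + z ξ‖ ^ 2 = ‖v ξ‖ ^ 2 + ‖z ξ‖ ^ 2 := by
    have h4 : ‖v ξ + z ξ‖ ^ 2 = ‖v ξ‖ ^ 2 + 2 * (⟪v ξ, z ξ⟫_ℂ).re + ‖z ξ‖ ^ 2 := h1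
    rw [h4, h2]
    simp
  have h4 : ‖z ξ‖ ≤ ‖e' ξ‖ := by
    have h5 : z ξ = z (e' ξ) := by
      have := congrArg (fun T : Ell2 (I × K) →L[ℂ] Ell2 (I × K) => T ξ) hze
      exact this.symm
    rw [h5]
    simpa using z.le_of_opNorm_le hz1 (e' ξ)
  have h5 : ‖z ξ‖ ^ 2 ≤ ‖e' ξ‖ ^ 2 := pow_le_pow_left₀ (norm_nonneg _) h4 2
  have h6 : ‖v ξ‖ ^ 2 + ‖e' ξ‖ ^ 2 = ‖e ξ‖ ^ 2 := by
    rw [hsq v, hsq e', hsq e, he', he, ← hsum, add_apply, inner_add_right, Complex.add_re]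
  have h7 : ‖e ξ‖ ≤ ‖ξ‖ := by simpa using e.le_of_opNorm_le hee ξ
  have h8 : ‖e ξ‖ ^ 2 ≤ ‖ξ‖ ^ 2 := pow_le_pow_left₀ (norm_nonneg _) h7 2
  change ‖v ξ + z ξ‖ ≤ ‖ξ‖
  refine (pow_le_pow_iff_left₀ (norm_nonneg _) (norm_nonneg _) two_ne_zero).mp ?_
  rw [h3]
  linarith

/-- projections with no operator between them -/
theorem proj_zero (hK : ∀ g : K, g ≠ 1 → Set.Infinite {y : K | ∃ h, y = h * g * h⁻¹})
    {q r : Ell2 (I × K) →L[ℂ] Ell2 (I × K)} (hq : Hm q) (hr : Hm r) (hqa : adjoint q = q)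
    (h : ∀ y, Hm y → q * y * r = 0) : (starRingEnd ℂ) (TR q) * TR r = 0 := by
  rw [TR_coord, TR_coord, map_sum, Finset.sum_mul_sum]
  refine Finset.sum_eq_zero fun i _ => Finset.sum_eq_zero fun j _ => ?_
  have h1 := mix2 (MonoidHom.id K) hK (u1 := sl (q (dl (i, 1))) i) (u2 := 0)
    (v1 := sl (r (dl (j, 1))) j) (v2 := 0) (by
      intro t
      rw [inner_zero_left]
      change ⟪sl (q (dl (i, 1))) i, lam t (rho t (sl (r (dl (j, 1))) j))⟫_ℂ = 0
      rw [← hs_mu hr]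
      have h2 := hs_comp_left q 1 (mu i j t * r * mu j i t⁻¹)
      have h3 : q ∘L (1 : Ell2 (I × K) →L[ℂ] Ell2 (I × K)) = q := mul_one q
      have h4 : q ∘L (mu i j t * r * mu j i t⁻¹) = 0 := by
        change q * (mu i j t * r * mu j i t⁻¹) = 0
        have h5 := h (mu i j t) (mu_hm i j t)
        rw [← mul_assoc, ← mul_assoc, h5, zero_mul]
      rw [h3, hqa, h4, hs_zero] at h2
      exact h2)
  rw [h1]
  change (starRingEnd ℂ) 0 * 0 = 0
  rw [mul_zero]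

theorem TR_add (A B : Ell2 (I × K) →L[ℂ] Ell2 (I × K)) : TR (A + B) = TR A + TR B := by
  rw [TR_eq_hs, TR_eq_hs, TR_eq_hs, hs_add]

theorem proj_eq_zero {q : Ell2 (I × K) →L[ℂ] Ell2 (I × K)} (hq : Hm q)
    (hqq : adjoint q * q = q) (h : TR q = 0) : q = 0 := by
  have h1 := TR_mul q q
  rw [hqq, h, hs_self] at h1
  exact eq_zero_of_hn hq (by exact_mod_cast h1.symm)

/-- Comparison of projections of trace one. -/
theorem cmp_aux (hK : ∀ g : K, g ≠ 1 → Set.Infinite {y : K | ∃ h, y = h * g * h⁻¹})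
    {p e : Ell2 (I × K) →L[ℂ] Ell2 (I × K)} (hp : Hm p) (hpa : adjoint p = p) (hpp : p * p = p)
    (he : Hm e) (hea : adjoint e = e) (hee : e * e = e) (hen : ‖e‖ ≤ 1) (htr : TR p = TR e) :
    ∃ v, Hm v ∧ adjoint v * v = e ∧ v * adjoint v = p ∧ e * adjoint v = adjoint v := by
  obtain ⟨v, hv, hext⟩ := exists_ext p e
  have hpi := ext_pi hv hext
  obtain ⟨h1, h2, h3, h4⟩ := hv
  have h3' : adjoint v * p = adjoint v := by
    have h := congrArg adjoint h3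
    change adjoint (p ∘L v) = _ at h
    rw [adjoint_comp, hpa] at h
    exact h
  have h4' : e * adjoint v = adjoint v := by
    have h := congrArg adjoint h4
    change adjoint (v ∘L e) = _ at h
    rw [adjoint_comp, hea] at h
    exact h
  have hpi' : adjoint v * v * adjoint v = adjoint v := by
    have h := congrArg adjoint hpi
    change adjoint (v ∘L (adjoint v ∘L v)) = _ at h
    rw [adjoint_comp, adjoint_comp, adjoint_adjoint] at h
    exact h
  set q1 := adjoint v * v with hq1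
  set q2 := v * adjoint v with hq2
  have hq1a : adjoint q1 = q1 := by
    change adjoint (adjoint v ∘L v) = _
    rw [adjoint_comp, adjoint_adjoint]
    rfl
  have hq2a : adjoint q2 = q2 := by
    change adjoint (v ∘L adjoint v) = _
    rw [adjoint_comp, adjoint_adjoint]
    rfl
  have hq11 : q1 * q1 = q1 := by
    rw [hq1]
    calc adjoint v * v * (adjoint v * v) = adjoint v * v * adjoint v * v := by
          simp only [mul_assoc]
      _ = _ := by rw [hpi']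
  have hq22 : q2 * q2 = q2 := by
    rw [hq2]
    calc v * adjoint v * (v * adjoint v) = v * (adjoint v * v * adjoint v) := by
          simp only [mul_assoc]
      _ = _ := by rw [hpi']
  have heq : e * q1 = q1 := by rw [hq1, ← mul_assoc, h4']
  have hqe : q1 * e = q1 := by rw [hq1, mul_assoc, h4]
  have hpq : p * q2 = q2 := by rw [hq2, ← mul_assoc, h3]
  have hqp : q2 * p = q2 := by rw [hq2, mul_assoc, h3']
  have hq1m : Hm q1 := h1.adj.mul h1
  have hq2m : Hm q2 := h1.mul h1.adj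
  have hadj_sub : ∀ A B : Ell2 (I × K) →L[ℂ] Ell2 (I × K),
      adjoint (A - B) = adjoint A - adjoint B := fun A B => map_sub adjoint A B
  -- the remainders
  have he'a : adjoint (e - q1) = e - q1 := by rw [hadj_sub, hea, hq1a]
  have hp'a : adjoint (p - q2) = p - q2 := by rw [hadj_sub, hpa, hq2a]
  have he'e : (e - q1) * (e - q1) = e - q1 := by
    rw [mul_sub, sub_mul, sub_mul, hee, heq, hqe, hq11]
    abel
  have hp'p : (p - q2) * (p - q2) = p - q2 := by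
    rw [mul_sub, sub_mul, sub_mul, hpp, hpq, hqp, hq22]
    abel
  have hvp : adjoint v * (p - q2) = 0 := by
    rw [mul_sub, h3', hq2, ← mul_assoc, hpi', sub_self]
  have hfac : ∀ y, Hm y → (p - q2) * y * (e - q1) = 0 := by
    intro y hy
    set z0 := (p - q2) * y * (e - q1) with hz0
    have hz0m : Hm z0 := ((hp.sub hq2m).mul hy).mul (he.sub hq1m)
    have hc : ∃ c : ℝ, 0 < c ∧ ‖(c : ℂ) • z0‖ ≤ 1 := by
      refine ⟨1 / (‖z0‖ + 1), by positivity, ?_⟩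
      rw [norm_smul, Complex.norm_real, Real.norm_of_nonneg (by positivity), div_mul_eq_mul_div,
        one_mul, div_le_one (by positivity)]
      linarith [norm_nonneg z0]
    obtain ⟨c, hc0, hc1⟩ := hc
    have hA1 : adjoint v * ((c : ℂ) • z0) = 0 := by
      rw [mul_smul_comm, hz0, ← mul_assoc, ← mul_assoc, hvp, zero_mul, zero_mul, smul_zero]
    have hA2 : ((c : ℂ) • z0) * (e - q1) = (c : ℂ) • z0 := by
      rw [smul_mul_assoc, hz0, mul_assoc, he'e]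
    have hA3 : p * ((c : ℂ) • z0) = (c : ℂ) • z0 := by
      have : p * (p - q2) = p - q2 := by rw [mul_sub, hpp, hpq]
      rw [mul_smul_comm, hz0, ← mul_assoc, ← mul_assoc, this]
    have hA4 : ((c : ℂ) • z0) * e = (c : ℂ) • z0 := by
      have : (e - q1) * e = e - q1 := by rw [sub_mul, hee, hqe]
      rw [smul_mul_assoc, hz0, mul_assoc, this]
    have hsum : adjoint v * v + (e - q1) = e := by rw [← hq1]; abel
    have hea2 : adjoint e * e = e := by rw [hea, hee]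
    have he'2 : adjoint (e - q1) * (e - q1) = e - q1 := by rw [he'a, he'e]
    have hn1 : ‖v + (c : ℂ) • z0‖ ≤ 1 :=
      norm_add_orth hc1 hea2 hen he'2 hA1 hA2 hsum
    have hn2 : ‖v - (c : ℂ) • z0‖ ≤ 1 := by
      rw [sub_eq_add_neg]
      refine norm_add_orth (by rwa [norm_neg]) hea2 hen he'2 ?_ ?_ hsum
      · rw [mul_neg, hA1, neg_zero]
      · rw [neg_mul, hA2]
    have hz := hext _ ⟨h1.add (hz0m.smul _), hn1, by rw [mul_add, h3, hA3],
      by rw [add_mul, h4, hA4]⟩ ⟨h1.sub (hz0m.smul _), hn2, by rw [mul_sub, h3, hA3],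
      by rw [sub_mul, h4, hA4]⟩
    rcases smul_eq_zero.mp hz with h | h
    · exact absurd (by exact_mod_cast h : c = 0) hc0.ne'
    · exact h
  have htr1 : TR (e - q1) = TR (p - q2) := by
    have e1 : TR q1 = (hn v : ℂ) := by rw [hq1, TR_mul, hs_self]
    have e2 : TR q2 = (hn v : ℂ) := by
      have h := TR_mul (adjoint v) (adjoint v)
      rw [adjoint_adjoint, hs_self, hn_adj h1] at h
      exact h
    have e3 : TR e = TR (e - q1) + TR q1 := by rw [← TR_add, sub_add_cancel]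
    have e4 : TR p = TR (p - q2) + TR q2 := by rw [← TR_add, sub_add_cancel]
    rw [e1] at e3
    rw [e2] at e4
    have e5 := htr
    rw [e3, e4] at e5
    exact (add_right_cancel e5).symm
  have hprod := proj_zero hK (hp.sub hq2m) (he.sub hq1m) hp'a hfac
  have hz1 : TR (e - q1) = 0 := by
    rcases mul_eq_zero.mp hprod with h | h
    · rw [htr1]
      exact (map_eq_zero _).mp h
    · exact h
  have hz2 : TR (p - q2) = 0 := by rw [← htr1, hz1]
  have hE := proj_eq_zero (he.sub hq1m) (by rw [he'a, he'e]) hz1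
  have hP := proj_eq_zero (hp.sub hq2m) (by rw [hp'a, hp'p]) hz2
  exact ⟨v, h1, (sub_eq_zero.mp hE).symm, (sub_eq_zero.mp hP).symm, h4'⟩

theorem adj_tvr (i : I) (v : Ell2 (I × K)) :
    adjoint (tvr (dl i) : Ell2 K →L[ℂ] Ell2 (I × K)) v = sl v i := by
  refine ext_inner_left ℂ fun u => ?_
  rw [adjoint_inner_right]
  change ⟪tv (dl i) u, v⟫_ℂ = _
  rw [← inner_conj_symm, inner_tv_dl, inner_conj_symm]

/-- the first corner -/
theorem mu_eq (i : I) : (mu i i (1 : K) : Ell2 (I × K) →L[ℂ] Ell2 (I × K)) =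
    tvr (dl i) ∘L adjoint (tvr (dl i)) := by
  ext1 v
  rw [comp_apply, adj_tvr, mu_apply, lam_one]
  rfl

theorem tvr_iso (i : I) : adjoint (tvr (dl i) : Ell2 K →L[ℂ] Ell2 (I × K)) ∘L tvr (dl i) = 1 := by
  ext1 v
  refine ext_inner_left ℂ fun u => ?_
  rw [comp_apply, adjoint_inner_right]
  change ⟪tv (dl i) u, tv (dl i) v⟫_ℂ = ⟪u, v⟫_ℂ
  rw [inner_tv, inner_dl, dl_self, one_mul]

end corner

end Vale.Agent.P092.H605.W

namespace Vale.Agent.P092.H605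

open Vale.Agent.P092.H160 S3 W

/-- A projection of trace one of `M_I(L(Λ))`, `Λ` ICC, is equivalent to the unit of `L(Λ)`. -/
theorem cmp {I Λ : Type} [Group Λ] [Fintype I]
    (hΛ : ∀ g : Λ, g ≠ 1 → Set.Infinite {y : Λ | ∃ h, y = h * g * h⁻¹})
    {p : Ell2 (I × Λ) →L[ℂ] Ell2 (I × Λ)} (hp : Hm p) (hpa : adjoint p = p) (hpp : p * p = p)
    (h1 : TR p = 1) : ∃ w : Ell2 Λ →L[ℂ] Ell2 (I × Λ),
      (∀ x v, w (rho x v) = rt I x (w v)) ∧ adjoint w ∘L w = 1 ∧ w ∘L adjoint w = p := by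
  classical
  obtain ⟨i0⟩ : Nonempty I := by
    by_contra hne
    rw [not_nonempty_iff] at hne
    have : TR p = 0 := by
      unfold TR
      rw [Finset.univ_eq_empty, Finset.sum_empty]
    rw [this] at h1
    exact zero_ne_one h1
  set e : Ell2 (I × Λ) →L[ℂ] Ell2 (I × Λ) := mu i0 i0 1 with he
  have heq : e = tvr (dl i0) ∘L adjoint (tvr (dl i0)) := mu_eq i0
  have hiso : adjoint (tvr (dl i0) : Ell2 Λ →L[ℂ] Ell2 (I × Λ)) ∘L tvr (dl i0) = 1 := tvr_iso i0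
  have hem : Hm e := mu_hm _ _ _
  have hea : adjoint e = e := by
    rw [heq, adjoint_comp, adjoint_adjoint]
  have hee : e * e = e := by
    have h2 : e * e = tvr (dl i0) ∘L (adjoint (tvr (dl i0) : Ell2 Λ →L[ℂ] Ell2 (I × Λ)) ∘L
        tvr (dl i0)) ∘L adjoint (tvr (dl i0)) := by
      rw [heq]; rfl
    rw [h2, hiso, heq]
    rfl
  have hen : ‖e‖ ≤ 1 := by
    refine opNorm_le_bound _ zero_le_one fun v => ?_
    rw [one_mul]
    have h2 : ‖e v‖ ^ 2 ≤ ‖v‖ * ‖e v‖ := by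
      have h3 : ((‖e v‖ ^ 2 : ℝ) : ℂ) = ⟪v, e v⟫_ℂ := by
        have h4 : ⟪e v, e v⟫_ℂ = ⟪v, e v⟫_ℂ := by
          rw [← adjoint_inner_right, hea, ← mul_ap, hee]
        rw [← h4, inner_self_eq_norm_sq_to_K]
        push_cast
        rfl
      have h5 : ‖e v‖ ^ 2 = (⟪v, e v⟫_ℂ).re := by
        rw [← h3, Complex.ofReal_re]
      rw [h5]
      exact (Complex.re_le_norm _).trans (norm_inner_le_norm _ _)
    by_contra h
    push Not at h
    nlinarith [norm_nonneg v]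
  have hte : TR e = 1 := by
    rw [TR_coord, Finset.sum_eq_single i0]
    · rw [he, mu_dl_self, mul_one, sl_apply, dl_self]
    · intro j _ hj
      rw [he, mu_dl_ne hj]
      rfl
    · intro h; exact absurd (Finset.mem_univ i0) h
  obtain ⟨v, hvm, hv1, hv2, hv3⟩ := cmp_aux hΛ hp hpa hpp hem hea hee hen (by rw [h1, hte])
  refine ⟨v ∘L tvr (dl i0), ?_, ?_, ?_⟩
  · intro x u
    change v (tv (dl i0) (rho x u)) = rt I x (v (tv (dl i0) u))
    rw [← rt_tv, hvm]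
  · rw [adjoint_comp]
    have h2 : (adjoint (tvr (dl i0) : Ell2 Λ →L[ℂ] Ell2 (I × Λ)) ∘L adjoint v) ∘L
        (v ∘L tvr (dl i0)) = adjoint (tvr (dl i0) : Ell2 Λ →L[ℂ] Ell2 (I × Λ)) ∘L
        (adjoint v * v) ∘L tvr (dl i0) := rfl
    have h3 : adjoint (tvr (dl i0) : Ell2 Λ →L[ℂ] Ell2 (I × Λ)) ∘L
        (tvr (dl i0) ∘L adjoint (tvr (dl i0))) ∘L tvr (dl i0) =
        (adjoint (tvr (dl i0) : Ell2 Λ →L[ℂ] Ell2 (I × Λ)) ∘L tvr (dl i0)) ∘L
        (adjoint (tvr (dl i0) : Ell2 Λ →L[ℂ] Ell2 (I × Λ)) ∘L tvr (dl i0)) := rfl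
    rw [h2, hv1, heq, h3, hiso]
    rfl
  · rw [adjoint_comp]
    have h2 : (v ∘L tvr (dl i0)) ∘L (adjoint (tvr (dl i0) : Ell2 Λ →L[ℂ] Ell2 (I × Λ)) ∘L
        adjoint v) = v * ((tvr (dl i0) ∘L adjoint (tvr (dl i0))) * adjoint v) := rfl
    rw [h2, ← heq, hv3, hv2]

end Vale.Agent.P092.H605
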