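import Vale.Agent.P092.H605.S1b
import Vale.Agent.P092.H605.Cmp

/-!
Transport of a `*`-isomorphism `L(Γ) → p M_n(L(Λ)) p` to a `*`-isomorphism `L(Γ) → L(Λ)` along an
equivariant isometry `w : ℓ²(Λ) → ℓ²(Fin n × Λ)` with `w w* = p`.
-/

set_option linter.all false

open scoped InnerProductSpace
open Filter Topology ContinuousLinearMap

namespace Vale.Agent.P092.H605

open Vale.Agent.P092.H160

namespace W2

variable {n : ℕ} {Γ Λ : Type} [Group Γ] [Group Λ]

theorem adj_equi {w : Ell2 Λ →L[ℂ] Ell2 (Fin n × Λ)}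
    (hw : ∀ x v, w (rho x v) = rt (Fin n) x (w v)) (x : Λ) (v : Ell2 (Fin n × Λ)) :
    adjoint w (rt (Fin n) x v) = rho x (adjoint w v) := by
  refine ext_inner_left ℂ fun u => ?_
  have h1 := inner_rt_left (I := Fin n) x⁻¹ (w u) v
  rw [inv_inv] at h1
  have h2 : ⟪rho x⁻¹ u, adjoint w v⟫_ℂ = ⟪u, rho x (adjoint w v)⟫_ℂ := by
    have h3 := inner_rho x⁻¹ u (rho x (adjoint w v))
    have h4 : rho x⁻¹ (rho x (adjoint w v)) = adjoint w v := by
      have h5 := rho_mul x⁻¹ x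
      rw [inv_mul_cancel, rho_one] at h5
      exact (DFunLike.congr_fun h5 (adjoint w v)).symm
    rw [h4] at h3
    exact h3
  rw [adjoint_inner_right, ← h1, ← hw, ← adjoint_inner_right, h2]

theorem inL_of_comm {T : Ell2 Λ →L[ℂ] Ell2 Λ} (h : ∀ x v, T (rho x v) = rho x (T v)) :
    St.InL T := by
  rw [inL_iff, mem_LG_iff]
  intro s
  ext1 v
  exact h s v

theorem comm_of_inL {T : Ell2 Λ →L[ℂ] Ell2 Λ} (h : St.InL T) (x : Λ) (v : Ell2 Λ) :
    T (rho x v) = rho x (T v) :=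
  DFunLike.congr_fun (h (rho x) fun g => rho_lam x g) v

/-- the transported isomorphism -/
noncomputable def starIsoOf {p : St.Op (Fin n × Λ)} (θ : St.CornerIso Γ Λ n p)
    (w : Ell2 Λ →L[ℂ] Ell2 (Fin n × Λ)) (hw : ∀ x v, w (rho x v) = rt (Fin n) x (w v))
    (h1 : adjoint w ∘L w = 1) (h2 : w ∘L adjoint w = p) : H160.St.StarIso Γ Λ where
  toFun T := adjoint w ∘L θ.toFun T ∘L w
  invFun S := θ.invFun (w ∘L S ∘L adjoint w)
  map_mem T hT := by
    have h3 : Hm (θ.toFun T) := S1.hm_of_inM (θ.map_mem T hT).1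
    refine inL_of_comm fun x v => ?_
    change adjoint w (θ.toFun T (w (rho x v))) = rho x (adjoint w (θ.toFun T (w v)))
    rw [hw, h3, adj_equi hw]
  inv_mem S hS := by
    refine θ.inv_mem _ ⟨S1.inM_of_hm fun x v => ?_, ?_, ?_⟩
    · change w (S (adjoint w (rt (Fin n) x v))) = rt (Fin n) x (w (S (adjoint w v)))
      rw [adj_equi hw, comm_of_inL hS, hw]
    · change p ∘L (w ∘L S ∘L adjoint w) = w ∘L S ∘L adjoint w
      rw [← h2]
      ext1 v
      change w ((adjoint w ∘L w) (S (adjoint w v))) = w (S (adjoint w v))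
      rw [h1]
      rfl
    · change (w ∘L S ∘L adjoint w) ∘L p = w ∘L S ∘L adjoint w
      rw [← h2]
      ext1 v
      change w (S ((adjoint w ∘L w) (adjoint w v))) = w (S (adjoint w v))
      rw [h1]
      rfl
  left_inv T hT := by
    have h3 : w ∘L (adjoint w ∘L θ.toFun T ∘L w) ∘L adjoint w = θ.toFun T := by
      have e1 : p ∘L θ.toFun T = θ.toFun T := (θ.map_mem T hT).2.1
      have e2 : θ.toFun T ∘L p = θ.toFun T := (θ.map_mem T hT).2.2
      have e3 : w ∘L (adjoint w ∘L θ.toFun T ∘L w) ∘L adjoint w =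
        (w ∘L adjoint w) ∘L (θ.toFun T ∘L (w ∘L adjoint w)) := rfl
      rw [e3, h2, e2, e1]
    rw [h3]
    exact θ.left_inv T hT
  right_inv S hS := by
    have hC : St.InC p (w ∘L S ∘L adjoint w) := by
      refine ⟨S1.inM_of_hm fun x v => ?_, ?_, ?_⟩
      · change w (S (adjoint w (rt (Fin n) x v))) = rt (Fin n) x (w (S (adjoint w v)))
        rw [adj_equi hw, comm_of_inL hS, hw]
      · change p ∘L (w ∘L S ∘L adjoint w) = w ∘L S ∘L adjoint w
        rw [← h2]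
        ext1 v
        change w ((adjoint w ∘L w) (S (adjoint w v))) = w (S (adjoint w v))
        rw [h1]
        rfl
      · change (w ∘L S ∘L adjoint w) ∘L p = w ∘L S ∘L adjoint w
        rw [← h2]
        ext1 v
        change w (S ((adjoint w ∘L w) (adjoint w v))) = w (S (adjoint w v))
        rw [h1]
        rfl
    rw [θ.right_inv _ hC]
    have e3 : adjoint w ∘L (w ∘L S ∘L adjoint w) ∘L w =
        (adjoint w ∘L w) ∘L (S ∘L (adjoint w ∘L w)) := rfl
    rw [e3, h1]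
    rfl
  map_add S T hS hT := by
    have e1 : θ.toFun (H160.St.add S T) = θ.toFun S + θ.toFun T := θ.map_add S T hS hT
    rw [e1]
    ext1 v
    change adjoint w ((θ.toFun S + θ.toFun T) (w v)) =
      adjoint w (θ.toFun S (w v)) + adjoint w (θ.toFun T (w v))
    rw [add_apply, map_add]
  map_smul c S T hS hT h := by
    have e1 := (S1.isSmul_iff' _ _ _).mp (θ.map_smul c S T hS hT h)
    refine (S1.isSmul_iff' _ _ _).mpr ?_
    rw [e1]
    ext1 v
    change adjoint w ((c • θ.toFun S) (w v)) = c • adjoint w (θ.toFun S (w v))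
    rw [smul_apply, map_smul]
  map_mul S T hS hT := by
    have e1 : θ.toFun (H160.St.mul S T) = θ.toFun S ∘L θ.toFun T := θ.map_mul S T hS hT
    have e2 : p ∘L θ.toFun T = θ.toFun T := (θ.map_mem T hT).2.1
    rw [e1]
    change adjoint w ∘L (θ.toFun S ∘L θ.toFun T) ∘L w =
      (adjoint w ∘L θ.toFun S ∘L w) ∘L (adjoint w ∘L θ.toFun T ∘L w)
    have e3 : (adjoint w ∘L θ.toFun S ∘L w) ∘L (adjoint w ∘L θ.toFun T ∘L w) =
      adjoint w ∘L (θ.toFun S ∘L ((w ∘L adjoint w) ∘L θ.toFun T)) ∘L w := rfl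
    rw [e3, h2, e2]
  map_adj S T hS hT h := by
    have e1 := (S1.isAdj_iff' _ _).mp (θ.map_adj S T hS hT h)
    refine (S1.isAdj_iff' _ _).mpr ?_
    rw [e1, star_eq_adjoint, star_eq_adjoint, adjoint_comp, adjoint_comp, adjoint_adjoint]
    rfl

theorem starIsoOf_apply {p : St.Op (Fin n × Λ)} (θ : St.CornerIso Γ Λ n p)
    (w : Ell2 Λ →L[ℂ] Ell2 (Fin n × Λ)) (hw : ∀ x v, w (rho x v) = rt (Fin n) x (w v))
    (h1 : adjoint w ∘L w = 1) (h2 : w ∘L adjoint w = p) (T : Ell2 Γ →L[ℂ] Ell2 Γ) :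
    (starIsoOf θ w hw h1 h2).toFun T = adjoint w ∘L θ.toFun T ∘L w := rfl

theorem toFun_eq {p : St.Op (Fin n × Λ)} (θ : St.CornerIso Γ Λ n p)
    (w : Ell2 Λ →L[ℂ] Ell2 (Fin n × Λ)) (hw : ∀ x v, w (rho x v) = rt (Fin n) x (w v))
    (h1 : adjoint w ∘L w = 1) (h2 : w ∘L adjoint w = p) (T : Ell2 Γ →L[ℂ] Ell2 Γ)
    (hT : H160.St.InL T) :
    θ.toFun T = w ∘L (starIsoOf θ w hw h1 h2).toFun T ∘L adjoint w := by
  have e1 : p ∘L θ.toFun T = θ.toFun T := (θ.map_mem T hT).2.1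
  have e2 : θ.toFun T ∘L p = θ.toFun T := (θ.map_mem T hT).2.2
  have e3 : w ∘L (adjoint w ∘L θ.toFun T ∘L w) ∘L adjoint w =
    (w ∘L adjoint w) ∘L (θ.toFun T ∘L (w ∘L adjoint w)) := rfl
  rw [starIsoOf_apply, e3, h2, e2, e1]

/-- comparison, for projections in the form of the statement -/
theorem cmp_proj (hΛ : ∀ g : Λ, g ≠ 1 → Set.Infinite {y : Λ | ∃ h, y = h * g * h⁻¹})
    {p : St.Op (Fin n × Λ)} (hp : St.IsProj p) (h1 : TR p = 1) :
    ∃ w : Ell2 Λ →L[ℂ] Ell2 (Fin n × Λ), (∀ x v, w (rho x v) = rt (Fin n) x (w v)) ∧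
      adjoint w ∘L w = 1 ∧ w ∘L adjoint w = p := by
  obtain ⟨hpM, hpa, hpp⟩ := hp
  have hpa' : adjoint p = p := by
    rw [← star_eq_adjoint]
    exact ((S1.isAdj_iff' _ _).mp hpa).symm
  exact Vale.Agent.P092.H605.cmp hΛ (S1.hm_of_inM hpM) hpa' hpp h1

end W2

end Vale.Agent.P092.H605
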