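import Vale.Agent.P092.H605.PubB
import Vale.Agent.P092.H605.W2

/-!
P092, stable isomorphisms: canonical isomorphisms in coordinates and the lower bound for them.
-/

set_option linter.all false

open scoped InnerProductSpace
open Filter Topology ContinuousLinearMap

namespace Vale.Agent.P092.H605.Can

open Vale.Agent.P092.H160 Vale.Agent.P092.H885 Vale.Agent.P092.H605

variable {Γ Λ : Type} [Group Γ] [Group Λ] {n : ℕ} {p : H160.St.Op (Fin n × Λ)}

theorem inner_slL (i : Fin n) (w : Ell2 (Fin n × Λ)) (a : Ell2 Λ) :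
    ⟪w, tv (dl i) a⟫_ℂ = ⟪sl w i, a⟫_ℂ := S3.inner_tv_dl w i a

/-- (d) -/
theorem canon_of (θ : Pb.CornerIso Γ Λ n p) (w : Ell2 Λ →L[ℂ] Ell2 (Fin n × Λ))
    (hw : ∀ x v, w (rho x v) = rt (Fin n) x (w v)) (h1 : adjoint w ∘L w = 1)
    (h2 : w ∘L adjoint w = p)
    (h : H160.St.Canonical (W2.starIsoOf θ.old w hw h1 h2)) : Pb.CanonicalM θ := by
  obtain ⟨δ, χ, v, v', hv, hvv, hv1, hv2, hg⟩ := h
  have hv' : v' = star v := (isAdj_iff _ _).mp hvv
  have hvone : v' * v = 1 := by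
    have h3 : v' * v = lam 1 := hv2
    rw [h3, lam_one]
  refine ⟨δ, χ, fun i => slL Λ i ∘L w ∘L v, fun i => star (slL Λ i ∘L w ∘L v), fun i => ?_,
    fun i => (isAdj_iff _ _).mpr rfl, fun ξ => ?_, fun g i j s t => ?_⟩
  · refine W2.inL_of_comm fun x u => ?_
    change sl (w (v (rho x u))) i = rho x (sl (w (v u)) i)
    rw [W2.comm_of_inL hv, hw, S3.sl_rt]
  · refine ext_inner_left ℂ fun η => ?_
    rw [inner_sum]
    have h3 : ∀ i : Fin n, ⟪η, H160.St.ap (H160.St.mul (star (slL Λ i ∘L w ∘L v))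
        (slL Λ i ∘L w ∘L v)) ξ⟫_ℂ = ⟪sl (w (v η)) i, sl (w (v ξ)) i⟫_ℂ := by
      intro i
      change ⟪η, star (slL Λ i ∘L w ∘L v) ((slL Λ i ∘L w ∘L v) ξ)⟫_ℂ = _
      rw [star_eq_adjoint, adjoint_inner_right]
      rfl
    rw [Finset.sum_congr rfl fun i _ => h3 i, ← inner_sl, ← adjoint_inner_right]
    have h4 : adjoint w (w (v ξ)) = v ξ := DFunLike.congr_fun h1 (v ξ)
    have h5 : v' (v ξ) = ξ := DFunLike.congr_fun hvone ξ
    rw [h4, ← adjoint_inner_right, ← star_eq_adjoint, ← hv', h5]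
  · have h3 := W2.toFun_eq θ.old w hw h1 h2 (H160.St.u g) ((inL_iff _).mpr (lam_mem_LG g))
    have h4 := (isSmul_iff _ _ _).mp (hg g)
    have h5 : θ.toFun (H160.St.u g) = w ∘L (((χ g : Circle) : ℂ) •
        (H160.St.mul (H160.St.mul v (H160.St.u (δ g))) v')) ∘L adjoint w := by
      rw [← h4]
      exact h3
    have h6 : star (slL Λ j ∘L w ∘L v) (dl t) = v' (adjoint w (dl (j, t))) := by
      refine ext_inner_left ℂ fun η => ?_
      rw [star_eq_adjoint, adjoint_inner_right, hv', star_eq_adjoint, adjoint_inner_right,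
        adjoint_inner_right, dl_prod, inner_slL]
      rfl
    change ⟪dl (i, s), θ.toFun (H160.St.u g) (dl (j, t))⟫_ℂ = ((χ g : Circle) : ℂ) *
      ⟪dl s, slL Λ i (w (v (H160.St.u (δ g) (star (slL Λ j ∘L w ∘L v) (dl t)))))⟫_ℂ
    rw [h5, h6, inner_dl, inner_dl]
    change (w (((χ g : Circle) : ℂ) • v (H160.St.u (δ g) (v' (adjoint w (dl (j, t)))))) :
      Ell2 (Fin n × Λ)) (i, s) = _
    rw [map_smul]
    rfl

/-- the frame data of a canonical isomorphism -/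
theorem canonical_form (θ : Pb.CornerIso Γ Λ n p) (h : Pb.CanonicalM θ) :
    ∃ (δ : Γ ≃* Λ) (χ : Γ →* Circle) (V : Ell2 Λ →L[ℂ] Ell2 (Fin n × Λ)),
      (∀ x v, V (rho x v) = rt (Fin n) x (V v)) ∧ (∀ u v, ⟪V u, V v⟫_ℂ = ⟪u, v⟫_ℂ) ∧
      ∀ g, θ.toFun (H160.St.u g) = ((χ g : Circle) : ℂ) • (V ∘L lam (δ g) ∘L adjoint V) := by
  classical
  obtain ⟨δ, χ, w, w', hw, hww, h1, hg⟩ := h
  have hw' : ∀ i, w' i = star (w i) := fun i => (isAdj_iff _ _).mp (hww i)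
  obtain ⟨V, hV⟩ : ∃ V : Ell2 Λ →L[ℂ] Ell2 (Fin n × Λ), V = ∑ i, tvr (dl i) ∘L w i := ⟨_, rfl⟩
  have hsl : ∀ ξ i, sl (V ξ) i = w i ξ := by
    intro ξ i
    have h2 : slL Λ i (V ξ) = w i ξ := by
      rw [hV, sum_apply, map_sum, Finset.sum_eq_single i]
      · change sl (tv (dl i) (w i ξ)) i = _
        rw [sl_tv, dl_self, one_smul]
      · intro j _ hj
        change sl (tv (dl j) (w j ξ)) i = 0
        rw [sl_tv, dl_ne (Ne.symm hj), zero_smul]
      · intro h; exact absurd (Finset.mem_univ i) h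
    exact h2
  have hiso : ∀ u v, ⟪V u, V v⟫_ℂ = ⟪u, v⟫_ℂ := by
    intro u v
    rw [inner_sl]
    have h3 : ∀ i, ⟪sl (V u) i, sl (V v) i⟫_ℂ = ⟪u, H160.St.ap (H160.St.mul (w' i) (w i)) v⟫_ℂ := by
      intro i
      rw [hsl, hsl]
      change _ = ⟪u, w' i (w i v)⟫_ℂ
      rw [hw', star_eq_adjoint, adjoint_inner_right]
    rw [Finset.sum_congr rfl fun i _ => h3 i, ← inner_sum, h1]
  have hadj : ∀ j t, adjoint V (dl (j, t)) = w' j (dl t) := by
    intro j t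
    refine ext_inner_left ℂ fun η => ?_
    rw [adjoint_inner_right, dl_prod, inner_slL, hsl, hw', star_eq_adjoint, adjoint_inner_right]
  refine ⟨δ, χ, V, ?_, hiso, ?_⟩
  · intro x v
    apply ext_inner_dl
    rintro ⟨i, y⟩
    rw [rt_apply]
    have h2 : (sl (V (rho x v)) i) y = (sl (V v) i) (y * x) := by
      rw [hsl, hsl, W2.comm_of_inL (hw i), rho_apply]
    exact h2
  · intro g
    apply op_ext
    rintro ⟨j, t⟩
    apply ext_inner_dl
    rintro ⟨i, s⟩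
    have h2 := hg g i j s t
    change ⟪dl (i, s), θ.toFun (H160.St.u g) (dl (j, t))⟫_ℂ = ((χ g : Circle) : ℂ) *
      ⟪dl s, w i (lam (δ g) (w' j (dl t)))⟫_ℂ at h2
    rw [inner_dl, inner_dl] at h2
    rw [h2]
    change _ = ((χ g : Circle) : ℂ) * (sl (V (lam (δ g) (adjoint V (dl (j, t))))) i) s
    rw [hsl, hadj]

end Vale.Agent.P092.H605.Can
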