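import Vale.Agent.P092.H605.Can

/-!
P092, stable isomorphisms: for a canonical isomorphism the trace of the corner is one and the sums
of the fourth powers of the Fourier coefficients are bounded below.
-/

set_option linter.all false

open scoped InnerProductSpace
open Filter Topology ContinuousLinearMap

namespace Vale.Agent.P092.H605.Can

open Vale.Agent.P092.H160 Vale.Agent.P092.H885 Vale.Agent.P092.H605

variable {Γ Λ : Type} [Group Γ] [Group Λ] {n : ℕ} {p : H160.St.Op (Fin n × Λ)}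

theorem V_dl {V : Ell2 Λ →L[ℂ] Ell2 (Fin n × Λ)}
    (hV : ∀ x v, V (rho x v) = rt (Fin n) x (V v)) (t : Λ) :
    V (dl t) = rt (Fin n) t⁻¹ (V (dl 1)) := by
  rw [dl_eq_rho, hV]

theorem norm_of_iso {V : Ell2 Λ →L[ℂ] Ell2 (Fin n × Λ)} (hi : ∀ u v, ⟪V u, V v⟫_ℂ = ⟪u, v⟫_ℂ)
    (u : Ell2 Λ) : ‖V u‖ = ‖u‖ := by
  have h := hi u u
  rw [inner_self_eq_norm_sq_to_K, inner_self_eq_norm_sq_to_K] at h
  have h2 : ‖V u‖ ^ 2 = ‖u‖ ^ 2 := by exact_mod_cast h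
  exact (pow_left_inj₀ (norm_nonneg _) (norm_nonneg _) two_ne_zero).mp h2

theorem norm_adj_le {V : Ell2 Λ →L[ℂ] Ell2 (Fin n × Λ)}
    (hi : ∀ u v, ⟪V u, V v⟫_ℂ = ⟪u, v⟫_ℂ) (v : Ell2 (Fin n × Λ)) : ‖adjoint V v‖ ≤ ‖v‖ := by
  by_cases h0 : ‖adjoint V v‖ = 0
  · rw [h0]; exact norm_nonneg _
  have hpos : 0 < ‖adjoint V v‖ := lt_of_le_of_ne (norm_nonneg _) (Ne.symm h0)
  have h1 : ⟪adjoint V v, adjoint V v⟫_ℂ = ⟪V (adjoint V v), v⟫_ℂ := by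
    rw [adjoint_inner_right]
  have h2 : ‖adjoint V v‖ * ‖adjoint V v‖ ≤ ‖adjoint V v‖ * ‖v‖ := by
    have h3 := norm_inner_le_norm (𝕜 := ℂ) (V (adjoint V v)) v
    rw [← h1, norm_of_iso hi, inner_self_eq_norm_sq_to_K] at h3
    have h4 : ‖((‖adjoint V v‖ : ℂ)) ^ 2‖ = ‖adjoint V v‖ * ‖adjoint V v‖ := by
      rw [norm_pow, Complex.norm_real, norm_norm, sq]
    rw [← h4]
    exact h3
  exact le_of_mul_le_mul_left h2 hpos

theorem tr_VV {V : Ell2 Λ →L[ℂ] Ell2 (Fin n × Λ)}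
    (hV : ∀ x v, V (rho x v) = rt (Fin n) x (V v)) (hi : ∀ u v, ⟪V u, V v⟫_ℂ = ⟪u, v⟫_ℂ) :
    TR (V ∘L adjoint V) = 1 := by
  have h1 : ∀ j : Fin n, ⟪(dl (j, 1) : Ell2 (Fin n × Λ)), (V ∘L adjoint V) (dl (j, 1))⟫_ℂ =
      ⟪sl (V (dl 1)) j, sl (V (dl 1)) j⟫_ℂ := by
    intro j
    have h2 : ⟪(dl (j, 1) : Ell2 (Fin n × Λ)), (V ∘L adjoint V) (dl (j, 1))⟫_ℂ =
        ⟪adjoint V (dl (j, 1)), adjoint V (dl (j, 1))⟫_ℂ := by
      rw [adjoint_inner_left]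
      rfl
    have hco : ∀ t : Λ, (adjoint V (dl (j, 1)) : Ell2 Λ) t =
        (starRingEnd ℂ) ((sl (V (dl 1)) j) t⁻¹) := by
      intro t
      rw [← inner_dl, adjoint_inner_right, inner_dl_right, V_dl hV, rt_apply, one_mul]
      rfl
    rw [h2, inner_eq, inner_eq, ← (Equiv.inv Λ).tsum_eq]
    refine tsum_congr fun t => ?_
    rw [hco, Complex.conj_conj, Equiv.inv_apply, inv_inv, mul_comm]
  unfold TR
  rw [Finset.sum_congr rfl fun j _ => h1 j, ← inner_sl, hi, inner_dl, dl_self]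

/-- (e) -/
theorem lower (hp : Pb.IsProj p) (θ : Pb.CornerIso Γ Λ n p) (h : Pb.CanonicalM θ) :
    Pb.trM p = 1 ∧ ∃ c : ℝ, 0 < c ∧ ∀ g, c ≤ Pb.fourM (θ.toFun (H160.St.u g)) := by
  obtain ⟨δ, χ, V, hVe, hVi, hT⟩ := canonical_form θ h
  refine ⟨?_, ?_⟩
  · have h1 : θ.toFun (H160.St.u 1) = p := ci_one θ.old (Pb.isProj_iff.mp hp)
    have h2 := hT 1
    rw [h1, map_one, map_one, Circle.coe_one, one_smul, lam_one] at h2
    have h3 : Pb.trM p = TR p := rfl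
    rw [h3, h2]
    exact tr_VV hVe hVi
  · obtain ⟨W, hW⟩ : ∃ W : Ell2 (Fin n × Λ), W = V (dl 1) := ⟨_, rfl⟩
    have hWn : ‖W‖ = 1 := by rw [hW, norm_of_iso hVi, norm_dl]
    obtain ⟨S, hS⟩ : ∃ S : Finset (Fin n × Λ), ‖(∑ z ∈ S, W z • dl z) - W‖ < 1 / 4 := by
      have h1 := hasSum_dl W
      have h2 := (Metric.tendsto_nhds.mp h1) (1 / 4) (by norm_num)
      obtain ⟨S, hS⟩ := h2.exists
      exact ⟨S, by rwa [← dist_eq_norm]⟩
    obtain ⟨Z, hZ⟩ : ∃ Z : Ell2 (Fin n × Λ), Z = ∑ z ∈ S, W z • dl z := ⟨_, rfl⟩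
    rw [← hZ] at hS
    have hZW : ‖W - Z‖ < 1 / 4 := by rwa [norm_sub_rev]
    have hZn : ‖Z‖ ≤ 5 / 4 := by
      have h1 : Z = W + (Z - W) := by abel
      rw [h1]
      refine (norm_add_le _ _).trans ?_
      linarith
    obtain ⟨r, hr⟩ : ∃ r : ℝ, r = 1 / (4 * ((S.card : ℝ) ^ 2 + 1)) := ⟨_, rfl⟩
    have hrpos : 0 < r := by rw [hr]; positivity
    refine ⟨r ^ 4, by positivity, fun g => ?_⟩
    obtain ⟨T, hTg⟩ : ∃ T : Ell2 (Fin n × Λ) →L[ℂ] Ell2 (Fin n × Λ),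
      T = θ.toFun (H160.St.u g) := ⟨_, rfl⟩
    rw [← hTg]
    have hTf := hT g
    rw [← hTg] at hTf
    have hTm : Hm T := by
      rw [hTg]
      exact S1.hm_of_inM (Pb.inM_iff.mp (θ.map_mem _ ((inL_iff _).mpr (lam_mem_LG g))).1)
    have hχ : ‖((χ g : Circle) : ℂ)‖ = 1 := Circle.norm_coe _
    have hTn : ∀ ξ, ‖T ξ‖ ≤ ‖ξ‖ := by
      intro ξ
      rw [hTf]
      change ‖((χ g : Circle) : ℂ) • V (lam (δ g) (adjoint V ξ))‖ ≤ _
      rw [norm_smul, hχ, one_mul, norm_of_iso hVi, norm_lam]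
      exact norm_adj_le hVi ξ
    have hTW : T W = ((χ g : Circle) : ℂ) • rt (Fin n) (δ g)⁻¹ W := by
      have h1 : adjoint V (V (dl 1)) = (dl 1 : Ell2 Λ) := by
        refine ext_inner_left ℂ fun u => ?_
        rw [adjoint_inner_right, hVi]
      rw [hTf, hW]
      change ((χ g : Circle) : ℂ) • V (lam (δ g) (adjoint V (V (dl 1)))) = _
      rw [h1, lam_dl, mul_one, V_dl hVe]
    by_contra hlt
    rw [not_le] at hlt
    -- all coefficients are small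
    have hco : ∀ z z' : Fin n × Λ,
        ‖⟪rt (Fin n) (δ g)⁻¹ (dl z), T (dl z')⟫_ℂ‖ ≤ r := by
      rintro ⟨i, s⟩ ⟨j, t⟩
      rw [rt_dl, inner_dl, hTm.dl, rt_apply]
      obtain ⟨q, hq⟩ : ∃ q : Fin n × Λ, q = (i, s * (δ g)⁻¹⁻¹ * t⁻¹) := ⟨_, rfl⟩
      rw [← hq]
      have h1 : ‖(T (dl (j, 1)) : Ell2 (Fin n × Λ)) q‖ ^ 4 ≤
          ∑' z, ‖(T (dl (j, 1)) : Ell2 (Fin n × Λ)) z‖ ^ 4 :=
        (summable_four (T (dl (j, 1)))).le_tsum q fun _ _ => by positivity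
      have h2 : ∑' z, ‖(T (dl (j, 1)) : Ell2 (Fin n × Λ)) z‖ ^ 4 ≤ f4 T := by
        unfold f4
        exact Finset.single_le_sum
          (f := fun j => ∑' z, ‖(T (dl (j, 1)) : Ell2 (Fin n × Λ)) z‖ ^ 4)
          (fun k _ => tsum_nonneg fun _ => by positivity) (Finset.mem_univ j)
      rw [Pb.fourM_eq'] at hlt
      have h3 : ‖(T (dl (j, 1)) : Ell2 (Fin n × Λ)) q‖ ^ 4 < r ^ 4 := lt_of_le_of_lt (h1.trans h2) hlt
      exact (lt_of_pow_lt_pow_left₀ 4 hrpos.le h3).le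
    have hWz : ∀ z, ‖W z‖ ≤ 1 := fun z => (norm_coord_le W z).trans hWn.le
    have hup : ‖⟪rt (Fin n) (δ g)⁻¹ Z, T Z⟫_ℂ‖ ≤ (S.card : ℝ) ^ 2 * r := by
      have h1 : ⟪rt (Fin n) (δ g)⁻¹ Z, T Z⟫_ℂ = ∑ z ∈ S, ∑ z' ∈ S,
          (starRingEnd ℂ) (W z) * (W z' * ⟪rt (Fin n) (δ g)⁻¹ (dl z), T (dl z')⟫_ℂ) := by
        rw [hZ, map_sum, map_sum, sum_inner]
        refine Finset.sum_congr rfl fun z _ => ?_
        rw [inner_sum]
        refine Finset.sum_congr rfl fun z' _ => ?_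
        rw [map_smul, map_smul, inner_smul_left, inner_smul_right]
      rw [h1]
      refine (norm_sum_le _ _).trans ?_
      have h2 : ∀ z ∈ S, ‖∑ z' ∈ S, (starRingEnd ℂ) (W z) *
          (W z' * ⟪rt (Fin n) (δ g)⁻¹ (dl z), T (dl z')⟫_ℂ)‖ ≤ (S.card : ℝ) * r := by
        intro z _
        refine (norm_sum_le _ _).trans ?_
        have h3 : ∀ z' ∈ S, ‖(starRingEnd ℂ) (W z) *
            (W z' * ⟪rt (Fin n) (δ g)⁻¹ (dl z), T (dl z')⟫_ℂ)‖ ≤ r := by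
          intro z' _
          rw [norm_mul, norm_mul, RCLike.norm_conj]
          calc ‖W z‖ * (‖W z'‖ * ‖⟪rt (Fin n) (δ g)⁻¹ (dl z), T (dl z')⟫_ℂ‖)
              ≤ 1 * (1 * r) := by
                gcongr
                · exact hWz z
                · exact hWz z'
                · exact hco z z'
            _ = r := by ring
        refine (Finset.sum_le_sum h3).trans ?_
        rw [Finset.sum_const, nsmul_eq_mul]
      refine (Finset.sum_le_sum h2).trans ?_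
      rw [Finset.sum_const, nsmul_eq_mul]
      exact le_of_eq (by ring)
    have hlo : 7 / 16 ≤ ‖⟪rt (Fin n) (δ g)⁻¹ Z, T Z⟫_ℂ‖ := by
      have h1 : ‖⟪rt (Fin n) (δ g)⁻¹ W, T W⟫_ℂ‖ = 1 := by
        rw [hTW, inner_smul_right, inner_rt, norm_mul, hχ, one_mul, inner_self_eq_norm_sq_to_K,
          hWn]
        simp
      have h2 : ⟪rt (Fin n) (δ g)⁻¹ W, T W⟫_ℂ = ⟪rt (Fin n) (δ g)⁻¹ Z, T Z⟫_ℂ +
          (⟪rt (Fin n) (δ g)⁻¹ (W - Z), T W⟫_ℂ + ⟪rt (Fin n) (δ g)⁻¹ Z, T (W - Z)⟫_ℂ) := by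
        rw [map_sub, map_sub, inner_sub_left, inner_sub_right]
        ring
      have h3 : ‖⟪rt (Fin n) (δ g)⁻¹ (W - Z), T W⟫_ℂ‖ ≤ 1 / 4 := by
        refine (norm_inner_le_norm _ _).trans ?_
        rw [norm_rt]
        have := hTn W
        rw [hWn] at this
        calc ‖W - Z‖ * ‖T W‖ ≤ (1 / 4) * 1 := by gcongr
          _ = 1 / 4 := by ring
      have h4 : ‖⟪rt (Fin n) (δ g)⁻¹ Z, T (W - Z)⟫_ℂ‖ ≤ 5 / 16 := by
        refine (norm_inner_le_norm _ _).trans ?_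
        rw [norm_rt]
        have := (hTn (W - Z)).trans hZW.le
        calc ‖Z‖ * ‖T (W - Z)‖ ≤ (5 / 4) * (1 / 4) := by gcongr
          _ = 5 / 16 := by ring
      have h5 := norm_add_le (⟪rt (Fin n) (δ g)⁻¹ Z, T Z⟫_ℂ)
        (⟪rt (Fin n) (δ g)⁻¹ (W - Z), T W⟫_ℂ + ⟪rt (Fin n) (δ g)⁻¹ Z, T (W - Z)⟫_ℂ)
      have h6 := norm_add_le (⟪rt (Fin n) (δ g)⁻¹ (W - Z), T W⟫_ℂ)
        (⟪rt (Fin n) (δ g)⁻¹ Z, T (W - Z)⟫_ℂ)
      rw [← h2, h1] at h5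
      linarith
    have hfin : (S.card : ℝ) ^ 2 * r < 7 / 16 := by
      have h1 : (S.card : ℝ) ^ 2 * r ≤ ((S.card : ℝ) ^ 2 + 1) * r := by
        gcongr
        linarith
      have h2 : ((S.card : ℝ) ^ 2 + 1) * r = 1 / 4 := by
        rw [hr]
        field_simp
      rw [h2] at h1
      linarith
    linarith

end Vale.Agent.P092.H605.Can
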