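import Vale.Agent.P092.H605.Fin
import Vale.Agent.P092.H605.S3

/-!
P092, stable isomorphisms, corners of trace one: if the averages of the fourth power sums of the
unamplified isomorphism tend to zero, the base vector of the amplified one is orthogonal to the
invariant vectors.
-/

set_option linter.all false

open scoped InnerProductSpace
open Filter Topology ContinuousLinearMap

namespace Vale.Agent.P092.H605.One

open Vale.Agent.P092.H160 Vale.Agent.P092.H605 Vale.Agent.P092.H885 S3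

/-! ### averages -/

section averages

variable {Γ : Type} [Group Γ]

theorem avg_mono {Q : Finset Γ} {f g : Γ → ℝ} (h : ∀ x, f x ≤ g x) (x : Γ) :
    avg Q f x ≤ avg Q g x := by
  unfold avg
  have h1 : ∑ s ∈ Q, (f (x * s) + f (x * s⁻¹)) ≤ ∑ s ∈ Q, (g (x * s) + g (x * s⁻¹)) :=
    Finset.sum_le_sum fun s _ => add_le_add (h _) (h _)
  have h2 : (∑ s ∈ Q, (f (x * s) + f (x * s⁻¹))) / (4 * Q.card) ≤
      (∑ s ∈ Q, (g (x * s) + g (x * s⁻¹))) / (4 * Q.card) :=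
    div_le_div_of_nonneg_right h1 (by positivity)
  have := h x
  linarith

theorem avg_iter_mono {Q : Finset Γ} {f g : Γ → ℝ} (h : ∀ x, f x ≤ g x) (k : ℕ) (x : Γ) :
    (avg Q)^[k] f x ≤ (avg Q)^[k] g x := by
  induction k generalizing f g with
  | zero => exact h x
  | succ k ih =>
    rw [Function.iterate_succ_apply, Function.iterate_succ_apply]
    exact ih fun x => avg_mono h x

theorem avg_aff {Q : Finset Γ} (hQ : Q.Nonempty) (a b : ℝ) (f : Γ → ℝ) :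
    avg Q (fun x => a + b * f x) = fun x => a + b * avg Q f x := by
  funext x
  unfold avg
  have hc : (Q.card : ℝ) ≠ 0 := by exact_mod_cast hQ.card_pos.ne'
  have h1 : ∑ s ∈ Q, (a + b * f (x * s) + (a + b * f (x * s⁻¹))) =
      2 * a * Q.card + b * ∑ s ∈ Q, (f (x * s) + f (x * s⁻¹)) := by
    rw [Finset.mul_sum]
    have h2 : (2 * a * Q.card : ℝ) = ∑ s ∈ Q, 2 * a := by
      rw [Finset.sum_const, nsmul_eq_mul]; ring
    rw [h2, ← Finset.sum_add_distrib]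
    exact Finset.sum_congr rfl fun s _ => by ring
  rw [h1]
  field_simp
  ring

theorem avg_iter_aff {Q : Finset Γ} (hQ : Q.Nonempty) (a b : ℝ) (f : Γ → ℝ) (k : ℕ) (x : Γ) :
    (avg Q)^[k] (fun x => a + b * f x) x = a + b * (avg Q)^[k] f x := by
  induction k generalizing f with
  | zero => rfl
  | succ k ih =>
    rw [Function.iterate_succ_apply, Function.iterate_succ_apply, avg_aff hQ, ih]

end averages

/-! ### orthogonality from the decay of the averages -/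

section orth

variable {Γ : Type} [Group Γ] {H : Type} [NormedAddCommGroup H] [InnerProductSpace ℂ H]
    [CompleteSpace H] {π : Γ →* (H →L[ℂ] H)}

theorem av_fix {Q : Finset Γ} (hQ : Q.Nonempty) {η : H} (hη : ∀ g, π g η = η) :
    av π Q η = η := by
  unfold av
  have h1 : ∑ s ∈ Q, (π s η + π s⁻¹ η) = (2 * Q.card : ℂ) • η := by
    rw [Finset.sum_congr rfl fun s _ => by rw [hη, hη], Finset.sum_const]
    rw [← two_smul ℂ, ← Nat.cast_smul_eq_nsmul ℂ, smul_smul, mul_comm]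
  have hc : (Q.card : ℂ) ≠ 0 := by exact_mod_cast hQ.card_pos.ne'
  rw [h1, smul_smul, ← add_smul]
  have : (1 / 2 : ℂ) + (4 * Q.card : ℂ)⁻¹ * (2 * Q.card : ℂ) = 1 := by
    field_simp
    norm_num
  rw [this, one_smul]

theorem orth_of_avg (hπ : ∀ g, adjoint (π g) = π g⁻¹) {Q : Finset Γ} (hQ : Q.Nonempty) {ξ : H}
    (h : Tendsto (fun k : ℕ => (avg Q)^[k] (fun g => (⟪ξ, π g ξ⟫_ℂ).re) 1) atTop (𝓝 0))
    (η : H) (hη : ∀ g, π g η = η) : ⟪η, ξ⟫_ℂ = 0 := by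
  have h1 : ∀ k : ℕ, (avg Q)^[k] (fun g => (⟪ξ, π g ξ⟫_ℂ).re) 1 =
      (⟪ξ, (av π Q)^[k] ξ⟫_ℂ).re := by
    intro k
    rw [avg_iter]
    have h3 : π 1 ((av π Q)^[k] ξ) = (av π Q)^[k] ξ := by rw [map_one]; rfl
    change (⟪ξ, π 1 ((av π Q)^[k] ξ)⟫_ℂ).re = _
    rw [h3]
  have h2 : ∀ k : ℕ, ‖(av π Q)^[k] ξ‖ ^ 2 = (⟪ξ, (av π Q)^[k + k] ξ⟫_ℂ).re := by
    intro k
    rw [Function.iterate_add_apply, ← av_pair hπ, inner_self_eq_norm_sq_to_K]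
    norm_cast
  have h3 : Tendsto (fun k : ℕ => ‖(av π Q)^[k] ξ‖ ^ 2) atTop (𝓝 0) := by
    have h4 : Tendsto (fun k : ℕ => k + k) atTop atTop :=
      tendsto_atTop_mono (fun n => Nat.le_add_right n n) tendsto_id
    refine (h.comp h4).congr fun k => ?_
    change (avg Q)^[k + k] (fun g => (⟪ξ, π g ξ⟫_ℂ).re) 1 = _
    rw [h1, h2]
  have h5 : ∀ k : ℕ, (av π Q)^[k] η = η := fun k => Function.iterate_fixed (av_fix hQ hη) k
  have h6 : ∀ k : ℕ, ‖⟪η, ξ⟫_ℂ‖ ^ 2 ≤ ‖η‖ ^ 2 * ‖(av π Q)^[k] ξ‖ ^ 2 := by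
    intro k
    have h7 : ⟪η, ξ⟫_ℂ = ⟪η, (av π Q)^[k] ξ⟫_ℂ := by
      rw [← av_pair hπ, h5]
    rw [h7, ← mul_pow]
    exact pow_le_pow_left₀ (norm_nonneg _) (norm_inner_le_norm _ _) 2
  have h8 : Tendsto (fun k : ℕ => ‖η‖ ^ 2 * ‖(av π Q)^[k] ξ‖ ^ 2) atTop (𝓝 0) := by
    simpa using h3.const_mul (‖η‖ ^ 2)
  have h9 : ‖⟪η, ξ⟫_ℂ‖ ^ 2 ≤ 0 := ge_of_tendsto h8 (Eventually.of_forall h6)
  have h10 : ‖⟪η, ξ⟫_ℂ‖ ^ 2 = 0 := le_antisymm h9 (by positivity)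
  exact norm_eq_zero.mp ((pow_eq_zero_iff two_ne_zero).mp h10)

end orth

/-! ### comparison of the fourth power sums -/

section comparison

variable {I Λ : Type} [Group Λ] [Fintype I]

theorem exists_fin (ζ : Ell2 Λ) {ε : ℝ} (hε : 0 < ε) :
    ∃ s : Finset Λ, ∀ t : Finset Λ, s ⊆ t → ‖ζ - ∑ x ∈ t, ζ x • dl x‖ ≤ ε := by
  have h1 := hasSum_dl ζ
  have h2 := h1.eventually (Metric.closedBall_mem_nhds _ hε)
  obtain ⟨s, hs⟩ := Filter.mem_atTop_sets.mp h2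
  refine ⟨s, fun t ht => ?_⟩
  have h3 := hs t ht
  have h4 : dist (∑ x ∈ t, ζ x • dl x) ζ ≤ ε := h3
  rwa [dist_comm, dist_eq_norm] at h4

theorem norm_fin_le (ζ : Ell2 Λ) (t : Finset Λ) : ‖∑ x ∈ t, ζ x • dl x‖ ≤ ‖ζ‖ := by
  classical
  have h1 : ‖∑ x ∈ t, ζ x • (dl x : Ell2 Λ)‖ ^ 2 ≤ ‖ζ‖ ^ 2 := by
    have h2 : ((‖∑ x ∈ t, ζ x • (dl x : Ell2 Λ)‖ ^ 2 : ℝ) : ℂ) =
        ((∑ x ∈ t, ‖ζ x‖ ^ 2 : ℝ) : ℂ) := by
      have h3 : ⟪∑ x ∈ t, ζ x • (dl x : Ell2 Λ), ∑ x ∈ t, ζ x • (dl x : Ell2 Λ)⟫_ℂ =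
          ∑ x ∈ t, (‖ζ x‖ ^ 2 : ℂ) := by
        rw [sum_inner]
        refine Finset.sum_congr rfl fun x hx => ?_
        rw [inner_sum, Finset.sum_eq_single x]
        · rw [inner_smul_left, inner_smul_right, inner_dl, dl_self, mul_one, Complex.conj_mul']
        · intro y _ hy
          rw [inner_smul_left, inner_smul_right, inner_dl, dl_ne (Ne.symm hy), mul_zero, mul_zero]
        · intro h; exact absurd hx h
      rw [inner_self_eq_norm_sq_to_K] at h3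
      push_cast
      exact h3
    have h4 : ‖∑ x ∈ t, ζ x • (dl x : Ell2 Λ)‖ ^ 2 = ∑ x ∈ t, ‖ζ x‖ ^ 2 := by
      exact_mod_cast h2
    rw [h4]
    exact sum_sq_le ζ t
  exact (pow_le_pow_iff_left₀ (norm_nonneg _) (norm_nonneg _) two_ne_zero).mp h1

theorem summable_four (v : Ell2 Λ) : Summable fun z => ‖v z‖ ^ 4 := by
  refine Summable.of_nonneg_of_le (fun _ => by positivity) (fun z => ?_)
    ((summable_sq v).mul_left (‖v‖ ^ 2))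
  have h1 := norm_coord_le v z
  have h2 : ‖v z‖ ^ 2 ≤ ‖v‖ ^ 2 := pow_le_pow_left₀ (norm_nonneg _) h1 2
  calc ‖v z‖ ^ 4 = ‖v z‖ ^ 2 * ‖v z‖ ^ 2 := by ring
    _ ≤ _ := by gcongr

/-- the coefficients of `f a f'` for finite sums -/
theorem inner_fin_le {a : Ell2 Λ →L[ℂ] Ell2 Λ} (ha : ∀ s v, a (rho s v) = rho s (a v))
    {μ : ℝ} (hμ : ∀ s, ‖(a (dl 1)) s‖ ≤ μ) {c d : Λ → ℂ} (hc : ∀ x, ‖c x‖ ≤ 1)
    (hd : ∀ x, ‖d x‖ ≤ 1) (t : Finset Λ) (g : Λ) :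
    ‖⟪rho g (∑ x ∈ t, c x • (dl x : Ell2 Λ)), a (∑ y ∈ t, d y • (dl y : Ell2 Λ))⟫_ℂ‖ ≤
      (t.card : ℝ) ^ 2 * μ := by
  have hμ0 : 0 ≤ μ := (norm_nonneg _).trans (hμ 1)
  rw [map_sum, map_sum, sum_inner]
  refine (norm_sum_le _ _).trans ?_
  have h1 : ∀ x ∈ t, ‖⟪rho g (c x • (dl x : Ell2 Λ)), ∑ y ∈ t, a (d y • (dl y : Ell2 Λ))⟫_ℂ‖ ≤
      (t.card : ℝ) * μ := by
    intro x _
    rw [inner_sum]
    refine (norm_sum_le _ _).trans ?_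
    have h2 : ∀ y ∈ t, ‖⟪rho g (c x • (dl x : Ell2 Λ)), a (d y • (dl y : Ell2 Λ))⟫_ℂ‖ ≤ μ := by
      intro y _
      rw [map_smul, map_smul, inner_smul_left, inner_smul_right, rho_dl, dl_eq_rho y, ha, inner_dl,
        rho_apply, norm_mul, norm_mul, RCLike.norm_conj]
      have h3 := hμ (x * g⁻¹ * y⁻¹)
      calc ‖c x‖ * (‖d y‖ * ‖(a (dl 1)) (x * g⁻¹ * y⁻¹)‖) ≤ 1 * (1 * μ) := by
            gcongr
            · exact hc x
            · exact hd y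
        _ = μ := by ring
    calc _ ≤ ∑ y ∈ t, μ := Finset.sum_le_sum h2
      _ = _ := by rw [Finset.sum_const, nsmul_eq_mul]
  calc _ ≤ ∑ x ∈ t, (t.card : ℝ) * μ := Finset.sum_le_sum h1
    _ = _ := by rw [Finset.sum_const, nsmul_eq_mul]; ring

/-- one coefficient -/
theorem coeff_le {a : Ell2 Λ →L[ℂ] Ell2 Λ} (ha : ∀ s v, a (rho s v) = rho s (a v))
    (ha1 : ‖a‖ ≤ 1) {μ : ℝ} (hμ : ∀ s, ‖(a (dl 1)) s‖ ≤ μ) {ζ ζ' : Ell2 Λ} (hζ : ‖ζ‖ ≤ 1)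
    (hζ' : ‖ζ'‖ ≤ 1) {ε : ℝ} {t : Finset Λ} (h : ‖ζ - ∑ x ∈ t, ζ x • dl x‖ ≤ ε)
    (h' : ‖ζ' - ∑ x ∈ t, ζ' x • dl x‖ ≤ ε) (g : Λ) :
    ‖⟪rho g ζ, a ζ'⟫_ℂ‖ ≤ 2 * ε + (t.card : ℝ) ^ 2 * μ := by
  set f := ∑ x ∈ t, ζ x • (dl x : Ell2 Λ) with hf
  set f' := ∑ x ∈ t, ζ' x • (dl x : Ell2 Λ) with hf'
  have hε : 0 ≤ ε := (norm_nonneg _).trans h
  have e1 : ⟪rho g ζ, a ζ'⟫_ℂ = ⟪rho g (ζ - f), a ζ'⟫_ℂ + ⟪rho g f, a (ζ' - f')⟫_ℂ +
      ⟪rho g f, a f'⟫_ℂ := by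
    rw [map_sub, map_sub, inner_sub_left, inner_sub_right]
    ring
  have hav : ∀ v, ‖a v‖ ≤ ‖v‖ := fun v => by simpa using a.le_of_opNorm_le ha1 v
  have b1 : ‖⟪rho g (ζ - f), a ζ'⟫_ℂ‖ ≤ ε := by
    refine (norm_inner_le_norm _ _).trans ?_
    rw [norm_rho]
    calc ‖ζ - f‖ * ‖a ζ'‖ ≤ ε * 1 := by
          gcongr
          exact (hav _).trans hζ'
      _ = ε := mul_one _
  have hfn : ‖f‖ ≤ 1 := (norm_fin_le ζ t).trans hζ
  have b2 : ‖⟪rho g f, a (ζ' - f')⟫_ℂ‖ ≤ ε := by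
    refine (norm_inner_le_norm _ _).trans ?_
    rw [norm_rho]
    calc ‖f‖ * ‖a (ζ' - f')‖ ≤ 1 * ε := by
          gcongr
          exact (hav _).trans h'
      _ = ε := one_mul _
  have b3 : ‖⟪rho g f, a f'⟫_ℂ‖ ≤ (t.card : ℝ) ^ 2 * μ :=
    inner_fin_le ha hμ (fun x => (norm_coord_le ζ x).trans hζ)
      (fun x => (norm_coord_le ζ' x).trans hζ') t g
  rw [e1]
  calc _ ≤ ‖⟪rho g (ζ - f), a ζ'⟫_ℂ‖ + ‖⟪rho g f, a (ζ' - f')⟫_ℂ‖ + ‖⟪rho g f, a f'⟫_ℂ‖ :=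
        (norm_add_le _ _).trans (add_le_add_left (norm_add_le _ _) _)
    _ ≤ _ := by linarith

omit [Fintype I] in
theorem adj_rt {w : Ell2 Λ →L[ℂ] Ell2 (I × Λ)} (hw : ∀ x v, w (rho x v) = rt I x (w v)) (x : Λ)
    (u : Ell2 (I × Λ)) : adjoint w (rt I x u) = rho x (adjoint w u) := by
  refine ext_inner_left ℂ fun v => ?_
  have h1 := inner_rt_left (I := I) x⁻¹ (w v) u
  rw [inv_inv] at h1
  rw [adjoint_inner_right, ← h1, ← hw, ← adjoint_inner_right, ← inner_rho x, ← mul_ap,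
    ← rho_mul, mul_inv_cancel, rho_one]
  rfl

/-- Comparison of the fourth power sums of `w a w*` and `a`. -/
theorem f4_le {w : Ell2 Λ →L[ℂ] Ell2 (I × Λ)} (hw : ∀ x v, w (rho x v) = rt I x (w v))
    (hw1 : ‖w‖ ≤ 1) {η : ℝ} (hη : 0 < η) : ∃ C : ℝ, 0 ≤ C ∧ ∀ a : Ell2 Λ →L[ℂ] Ell2 Λ,
      (∀ s v, a (rho s v) = rho s (a v)) → ‖a‖ ≤ 1 →
      f4 (w ∘L a ∘L adjoint w) ≤ η + C * ∑' z, ‖(a (dl 1)) z‖ ^ 4 := by
  classical
  set N : ℝ := (Fintype.card I : ℝ) with hN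
  have hN0 : 0 ≤ N := Nat.cast_nonneg _
  set ζ : I → Ell2 Λ := fun j => adjoint w (dl (j, 1)) with hζ
  have haw : ‖adjoint w‖ ≤ 1 := by
    rw [LinearIsometryEquiv.norm_map]; exact hw1
  have hζ1 : ∀ j, ‖ζ j‖ ≤ 1 := fun j => by
    have h := (adjoint w).le_of_opNorm_le haw (dl (j, 1))
    rw [norm_dl, mul_one] at h
    exact h
  set ε : ℝ := Real.sqrt (η / (16 * (N + 1))) with hε
  have hε2 : ε ^ 2 = η / (16 * (N + 1)) := Real.sq_sqrt (by positivity)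
  have hε0 : 0 < ε := Real.sqrt_pos.mpr (by positivity)
  choose s hs using fun j => exists_fin (ζ j) hε0
  set t : Finset Λ := Finset.univ.biUnion s with ht
  have htj : ∀ j, ‖ζ j - ∑ x ∈ t, ζ j x • dl x‖ ≤ ε := fun j =>
    hs j t (Finset.subset_biUnion_of_mem s (Finset.mem_univ j))
  set K : ℝ := (t.card : ℝ) ^ 2 with hK
  have hK0 : 0 ≤ K := by positivity
  set δ : ℝ := η / (4 * N * K ^ 2 + 1) with hδ
  have hδ0 : 0 < δ := by positivity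
  refine ⟨2 * N * K ^ 2 / (4 * δ), by positivity, fun a ha ha1 => ?_⟩
  set φ : ℝ := ∑' z, ‖(a (dl 1)) z‖ ^ 4 with hφ
  have hφ0 : 0 ≤ φ := tsum_nonneg fun z => by positivity
  set r : ℝ := Real.sqrt φ with hr
  have hr0 : 0 ≤ r := Real.sqrt_nonneg _
  have hr2 : r ^ 2 = φ := Real.sq_sqrt hφ0
  set μ : ℝ := Real.sqrt r with hμ'
  have hμ0 : 0 ≤ μ := Real.sqrt_nonneg _
  have hμ2 : μ ^ 2 = r := Real.sq_sqrt hr0
  have hμ : ∀ g, ‖(a (dl 1)) g‖ ≤ μ := by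
    intro g
    rw [hμ', Real.le_sqrt (norm_nonneg _) hr0, hr, Real.le_sqrt (by positivity) hφ0]
    have h1 : ‖(a (dl 1)) g‖ ^ 4 ≤ φ :=
      (summable_four (a (dl 1))).le_tsum g fun _ _ => by positivity
    calc (‖(a (dl 1)) g‖ ^ 2) ^ 2 = ‖(a (dl 1)) g‖ ^ 4 := by ring
      _ ≤ φ := h1
  have hrb : r ≤ δ + φ / (4 * δ) := by
    rw [← hr2]
    have h1 : δ + r ^ 2 / (4 * δ) - r = (r - 2 * δ) ^ 2 / (4 * δ) := by
      field_simp
      ring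
    have h2 : 0 ≤ (r - 2 * δ) ^ 2 / (4 * δ) := by positivity
    linarith
  -- all coefficients
  have hco : ∀ j i g, ‖(w (a (ζ j))) (i, g)‖ ^ 2 ≤ 8 * ε ^ 2 + 2 * K ^ 2 * r := by
    intro j i g
    have h1 : (w (a (ζ j))) (i, g) = ⟪rho g⁻¹ (ζ i), a (ζ j)⟫_ℂ := by
      rw [← inner_dl, ← adjoint_inner_left]
      have h2 : (dl (i, g) : Ell2 (I × Λ)) = rt I g⁻¹ (dl (i, 1)) := by
        rw [rt_dl, inv_inv, one_mul]
      rw [h2, adj_rt hw]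
    rw [h1]
    have h3 := coeff_le ha ha1 hμ (hζ1 i) (hζ1 j) (htj i) (htj j) g⁻¹
    have h4 : ‖⟪rho g⁻¹ (ζ i), a (ζ j)⟫_ℂ‖ ^ 2 ≤ (2 * ε + K * μ) ^ 2 :=
      pow_le_pow_left₀ (norm_nonneg _) h3 2
    have h5 : (2 * ε + K * μ) ^ 2 ≤ 8 * ε ^ 2 + 2 * K ^ 2 * μ ^ 2 := by
      nlinarith [sq_nonneg (2 * ε - K * μ)]
    rw [hμ2] at h5
    exact h4.trans h5
  set B : ℝ := 8 * ε ^ 2 + 2 * K ^ 2 * r with hB
  have hB0 : 0 ≤ B := by positivity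
  have hj : ∀ j, ∑' z, ‖(w (a (ζ j))) z‖ ^ 4 ≤ B := by
    intro j
    have h1 : ∀ z, ‖(w (a (ζ j))) z‖ ^ 4 ≤ B * ‖(w (a (ζ j))) z‖ ^ 2 := by
      rintro ⟨i, g⟩
      calc ‖(w (a (ζ j))) (i, g)‖ ^ 4 =
            ‖(w (a (ζ j))) (i, g)‖ ^ 2 * ‖(w (a (ζ j))) (i, g)‖ ^ 2 := by ring
        _ ≤ _ := mul_le_mul_of_nonneg_right (hco j i g) (by positivity)
    have h2 := (summable_sq (w (a (ζ j)))).mul_left B
    have h3 := Summable.tsum_le_tsum h1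
      (Summable.of_nonneg_of_le (fun _ => by positivity) h1 h2) h2
    refine h3.trans ?_
    rw [tsum_mul_left, ← norm_sq]
    have h4 : ‖w (a (ζ j))‖ ≤ 1 := by
      calc ‖w (a (ζ j))‖ ≤ 1 * ‖a (ζ j)‖ := w.le_of_opNorm_le hw1 _
        _ ≤ 1 * (1 * ‖ζ j‖) := by
            gcongr
            exact a.le_of_opNorm_le ha1 _
        _ ≤ 1 := by
            rw [one_mul, one_mul]; exact hζ1 j
    have h5 : ‖w (a (ζ j))‖ ^ 2 ≤ 1 := pow_le_one₀ (norm_nonneg _) h4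
    calc B * ‖w (a (ζ j))‖ ^ 2 ≤ B * 1 := by gcongr
      _ = B := mul_one _
  have hf : f4 (w ∘L a ∘L adjoint w) ≤ N * B := by
    unfold f4
    calc ∑ j, ∑' z, ‖((w ∘L a ∘L adjoint w) (dl (j, 1))) z‖ ^ 4 ≤ ∑ j : I, B :=
          Finset.sum_le_sum fun j _ => hj j
      _ = N * B := by rw [Finset.sum_const, Finset.card_univ, nsmul_eq_mul]
  have h1 : N * (8 * ε ^ 2) ≤ η / 2 := by
    rw [hε2]
    have h2 : N * (8 * (η / (16 * (N + 1)))) = η / 2 * (N / (N + 1)) := by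
      field_simp
      ring
    rw [h2]
    have h3 : N / (N + 1) ≤ 1 := by rw [div_le_one (by positivity)]; linarith
    calc η / 2 * (N / (N + 1)) ≤ η / 2 * 1 := by gcongr
      _ = _ := mul_one _
  have h2 : 2 * N * K ^ 2 * δ ≤ η / 2 := by
    rw [hδ]
    have h3 : 2 * N * K ^ 2 * (η / (4 * N * K ^ 2 + 1)) =
        η / 2 * ((4 * N * K ^ 2) / (4 * N * K ^ 2 + 1)) := by
      field_simp
      ring
    rw [h3]
    have h4 : (4 * N * K ^ 2) / (4 * N * K ^ 2 + 1) ≤ 1 := by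
      rw [div_le_one (by positivity)]; linarith
    calc η / 2 * ((4 * N * K ^ 2) / (4 * N * K ^ 2 + 1)) ≤ η / 2 * 1 := by gcongr
      _ = _ := mul_one _
  have h3 : N * (2 * K ^ 2 * r) ≤ η / 2 + 2 * N * K ^ 2 / (4 * δ) * φ := by
    calc N * (2 * K ^ 2 * r) ≤ N * (2 * K ^ 2 * (δ + φ / (4 * δ))) := by gcongr
      _ = 2 * N * K ^ 2 * δ + 2 * N * K ^ 2 / (4 * δ) * φ := by ring
      _ ≤ _ := by linarith
  calc f4 (w ∘L a ∘L adjoint w) ≤ N * B := hf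
    _ = N * (8 * ε ^ 2) + N * (2 * K ^ 2 * r) := by rw [hB]; ring
    _ ≤ _ := by linarith

end comparison

section main

variable {I Γ Λ : Type} [Group Γ] [Group Λ] [Fintype I]
  {U : Γ → Ell2 (I × Λ) →L[ℂ] Ell2 (I × Λ)}

theorem f4_nonneg (V : Ell2 (I × Λ) →L[ℂ] Ell2 (I × Λ)) : 0 ≤ f4 V :=
  Finset.sum_nonneg fun _ _ => tsum_nonneg fun _ => by positivity

theorem avg_iter_nonneg {Q : Finset Γ} {f : Γ → ℝ} (h : ∀ x, 0 ≤ f x) (k : ℕ) (x : Γ) :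
    0 ≤ (avg Q)^[k] f x := by
  induction k generalizing f with
  | zero => exact h x
  | succ k ih =>
    rw [Function.iterate_succ_apply]
    refine ih fun x => ?_
    unfold avg
    have h1 : 0 ≤ ∑ s ∈ Q, (f (x * s) + f (x * s⁻¹)) :=
      Finset.sum_nonneg fun s _ => add_nonneg (h _) (h _)
    have h2 := h x
    positivity

/-- In a corner of trace one, decay of the averages for the unamplified isomorphism makes the base
vector orthogonal to the invariant vectors. -/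
theorem orth_xi_one (hU : CF U) {w : Ell2 Λ →L[ℂ] Ell2 (I × Λ)}
    (hw : ∀ x v, w (rho x v) = rt I x (w v)) (hw1 : adjoint w ∘L w = 1)
    (hw2 : w ∘L adjoint w = U 1) {Q : Finset Γ} (hQ : Q.Nonempty)
    (h : Tendsto (fun k : ℕ => (avg Q)^[k]
      (fun g => ∑' z, ‖((adjoint w ∘L U g ∘L w) (dl 1)) z‖ ^ 4) 1) atTop (𝓝 0)) :
    ∀ η, (∀ g, pi1 hU g η = η) → ⟪η, xi U⟫_ℂ = 0 := by
  refine orth_of_avg (pi1_adj hU) hQ ?_
  have hwn : ‖w‖ ≤ 1 := opNorm_le_bound _ zero_le_one fun v => by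
    rw [one_mul]
    exact (norm_of_adj_comp hw1 v).le
  have hwa : ‖adjoint w‖ ≤ 1 := by
    rw [LinearIsometryEquiv.norm_map]; exact hwn
  have hUn : ∀ g, ‖U g‖ ≤ 1 := fun g => opNorm_le_bound _ zero_le_one fun v => by
    rw [one_mul]
    exact norm_le_of_rep U hU.mul hU.adj g v
  have han : ∀ g, ‖adjoint w ∘L U g ∘L w‖ ≤ 1 := by
    intro g
    calc ‖adjoint w ∘L U g ∘L w‖ ≤ ‖adjoint w‖ * (‖U g‖ * ‖w‖) :=
          (opNorm_comp_le _ _).trans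
            (mul_le_mul_of_nonneg_left (opNorm_comp_le _ _) (norm_nonneg _))
      _ ≤ 1 * (1 * 1) := by
          gcongr
          exact hUn g
      _ = 1 := by norm_num
  have har : ∀ g s v, (adjoint w ∘L U g ∘L w) (rho s v) = rho s ((adjoint w ∘L U g ∘L w) v) := by
    intro g s v
    change adjoint w (U g (w (rho s v))) = rho s (adjoint w (U g (w v)))
    rw [hw, hU.hm g, adj_rt hw]
  have hUw : ∀ g, w ∘L (adjoint w ∘L U g ∘L w) ∘L adjoint w = U g := by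
    intro g
    have h1 : w ∘L (adjoint w ∘L U g ∘L w) ∘L adjoint w =
        (w ∘L adjoint w) ∘L U g ∘L (w ∘L adjoint w) := rfl
    rw [h1, hw2]
    change U 1 * (U g * U 1) = U g
    rw [← hU.mul, ← hU.mul, one_mul, mul_one]
  have e1 : ∀ g, (⟪xi U, pi1 hU g (xi U)⟫_ℂ).re = f4 (U g) := fun g => by
    rw [coeff1 hU, Complex.ofReal_re]
  simp only [e1]
  rw [Metric.tendsto_atTop]
  intro ε hε
  obtain ⟨C, hC0, hC⟩ := f4_le hw hwn (half_pos hε)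
  have h2 : 0 < ε / (2 * (C + 1)) := by positivity
  obtain ⟨M, hM⟩ := (Metric.tendsto_atTop.mp h) _ h2
  refine ⟨M, fun k hk => ?_⟩
  have h3 := hM k hk
  rw [Real.dist_eq, sub_zero] at h3 ⊢
  have h4 := (abs_lt.mp h3).2
  rw [abs_of_nonneg (avg_iter_nonneg (fun g => f4_nonneg _) k 1)]
  have h5 : (avg Q)^[k] (fun g => f4 (U g)) 1 ≤ ε / 2 + C * (avg Q)^[k]
      (fun g => ∑' z, ‖((adjoint w ∘L U g ∘L w) (dl 1)) z‖ ^ 4) 1 := by
    rw [← avg_iter_aff hQ]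
    refine avg_iter_mono (fun g => ?_) k 1
    have h6 := hC (adjoint w ∘L U g ∘L w) (har g) (han g)
    rw [hUw g] at h6
    exact h6
  have h7 : C * (avg Q)^[k] (fun g => ∑' z, ‖((adjoint w ∘L U g ∘L w) (dl 1)) z‖ ^ 4) 1 <
      ε / 2 := by
    calc _ ≤ (C + 1) * (avg Q)^[k]
          (fun g => ∑' z, ‖((adjoint w ∘L U g ∘L w) (dl 1)) z‖ ^ 4) 1 := by
          have h8 : 0 ≤ (avg Q)^[k]
            (fun g => ∑' z, ‖((adjoint w ∘L U g ∘L w) (dl 1)) z‖ ^ 4) 1 :=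
            avg_iter_nonneg (fun g => tsum_nonneg fun _ => by positivity) k 1
          nlinarith
      _ < (C + 1) * (ε / (2 * (C + 1))) := by
          gcongr
      _ = ε / 2 := by field_simp
  linarith

end main

end Vale.Agent.P092.H605.One
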