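import Vale.Agent.P092.H605.S1a
import Vale.Agent.P092.H605.W2
import Vale.Agent.P092.H605.One
import Vale.Agent.P092.H605.S2

/-!
P092, stable isomorphisms: the dichotomy for all corners, of any trace.
-/

set_option linter.all false

open scoped InnerProductSpace
open Filter Topology ContinuousLinearMap

namespace Vale.Agent.P092.H605

open Vale.Agent.P092.H160 Vale.Agent.P092.H885

/-- `θ(u_g) = χ(g) w v_{δ(g)} w*` for a group isomorphism `δ : Γ → Λ`, a character `χ` and a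
partial isometry `w` between the unit of `L(Λ)` and `p` (the trace of `p` is one). -/
def StCan {Γ Λ : Type} [Group Γ] [Group Λ] {n : ℕ} {p : H160.St.Op (Fin n × Λ)}
    (θ : St.CornerIso Γ Λ n p) : Prop :=
  ∃ (w : Ell2 Λ →L[ℂ] Ell2 (Fin n × Λ)) (δ : Γ ≃* Λ) (χ : Γ →* Circle),
    (∀ x v, w (rho x v) = rt (Fin n) x (w v)) ∧ adjoint w ∘L w = 1 ∧ w ∘L adjoint w = p ∧
    ∀ g, θ.toFun (H160.St.u g) = (χ g : ℂ) • (w ∘L lam (δ g) ∘L adjoint w)

section dich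

variable {Γ Λ : Type} [Group Γ] [Group Λ] {n : ℕ} {p : H160.St.Op (Fin n × Λ)}

theorem stCan_of_canonical (θ : St.CornerIso Γ Λ n p) {w : Ell2 Λ →L[ℂ] Ell2 (Fin n × Λ)}
    (hw : ∀ x v, w (rho x v) = rt (Fin n) x (w v)) (h1 : adjoint w ∘L w = 1)
    (h2 : w ∘L adjoint w = p) (hc : H160.St.Canonical (W2.starIsoOf θ w hw h1 h2)) :
    StCan θ := by
  obtain ⟨δ, χ, v, v', hv, hvv', h3, h4, h5⟩ := hc
  have hv' : v' = adjoint v := by
    have := (isAdj_iff v v').mp hvv'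
    rw [this, star_eq_adjoint]
  have hvr : ∀ s u, v (rho s u) = rho s (v u) := by
    have h := (inL_iff v).mp hv
    intro s u
    have h6 := LG_comm_rho h s
    exact congrArg (fun T : Ell2 Λ →L[ℂ] Ell2 Λ => T u) h6
  have hu1 : (H160.St.u (1 : Λ) : H160.St.Op Λ) = 1 := lam_one
  have h3' : v ∘L adjoint v = 1 := by
    rw [← hv', ← hu1]; exact h3
  have h4' : adjoint v ∘L v = 1 := by
    rw [← hv', ← hu1]; exact h4
  refine ⟨w ∘L v, δ, χ, ?_, ?_, ?_, fun g => ?_⟩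
  · intro x u
    change w (v (rho x u)) = rt (Fin n) x (w (v u))
    rw [hvr, hw]
  · rw [adjoint_comp]
    have h6 : (adjoint v ∘L adjoint w) ∘L (w ∘L v) = adjoint v ∘L (adjoint w ∘L w) ∘L v := rfl
    rw [h6, h1]
    exact h4'
  · rw [adjoint_comp]
    have h6 : (w ∘L v) ∘L (adjoint v ∘L adjoint w) = w ∘L (v ∘L adjoint v) ∘L adjoint w := rfl
    rw [h6, h3']
    exact h2
  · have h6 := (isSmul_iff _ _ _).mp (h5 g)
    have h7 := W2.toFun_eq θ w hw h1 h2 _ (inL_u g)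
    rw [h7, h6, adjoint_comp, hv']
    ext1 ξ
    change w ((χ g : ℂ) • v (lam (δ g) (adjoint v (adjoint w ξ)))) =
      (χ g : ℂ) • w (v (lam (δ g) (adjoint v (adjoint w ξ))))
    rw [map_smul]

/-- The base vector is orthogonal to the invariant vectors. -/
def Orth {I : Type} [Fintype I] {U : Γ → Ell2 (I × Λ) →L[ℂ] Ell2 (I × Λ)} (hU : CF U) : Prop :=
  ∀ η, (∀ g, pi1 hU g η = η) → ⟪η, xi U⟫_ℂ = 0

/-- The dichotomy for corners of arbitrary trace. -/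
theorem dich (hΓ : ∀ g : Γ, g ≠ 1 → Set.Infinite {y : Γ | ∃ h, y = h * g * h⁻¹})
    (hΛ : ∀ g : Λ, g ≠ 1 → Set.Infinite {y : Λ | ∃ h, y = h * g * h⁻¹})
    (hp : St.IsProj p) (θ : St.CornerIso Γ Λ n p)
    (hdec : ∀ θ' : H160.St.StarIso Γ Λ, ¬ H160.St.Canonical θ' → ∃ Q : Finset Γ, Q.Nonempty ∧
      Tendsto (fun k : ℕ => (avg Q)^[k] (fun g => fourth (θ'.toFun (H160.St.u g))) 1)
        atTop (𝓝 0)) : StCan θ ∨ Orth (cf_of_iso θ hΓ hp) := by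
  have hU := cf_of_iso θ hΓ hp
  obtain ⟨-, htr, hne, -⟩ := iso_data θ hΓ hp
  have e1 : θ.toFun (H160.St.u 1) = p := ci_one θ hp
  by_cases h1 : TR (θ.toFun (H160.St.u 1)) = 1
  swap
  · right
    exact fun η hη => min_arg hU (fun X hX hinv => no_itw hU hne h1
      (fun y hy hl hr hc => lemI hΛ hU hne hy hl hr hc)
      (fun y hy hl hr hc => lemII hΓ hU hne hy hl hr hc) X hX hinv) η hη
  obtain ⟨w, hw, hw1, hw2⟩ := W2.cmp_proj hΛ hp (by rw [← e1]; exact h1)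
  by_cases hc : H160.St.Canonical (W2.starIsoOf θ w hw hw1 hw2)
  · exact Or.inl (stCan_of_canonical θ hw hw1 hw2 hc)
  right
  obtain ⟨Q, hQ, hlim⟩ := hdec _ hc
  have e2 : ∀ g, fourth ((W2.starIsoOf θ w hw hw1 hw2).toFun (H160.St.u g)) =
      ∑' z, ‖((adjoint w ∘L θ.toFun (H160.St.u g) ∘L w) (dl 1)) z‖ ^ 4 := by
    intro g
    exact fourth_eq ⟨(W2.starIsoOf θ w hw hw1 hw2).toFun (H160.St.u g),
      (inL_iff _).mp ((W2.starIsoOf θ w hw hw1 hw2).map_mem _ (inL_u g))⟩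
  simp only [e2] at hlim
  exact One.orth_xi_one hU hw hw1 (by rw [hw2]; exact e1.symm) hQ hlim

theorem fourM_u (hΓ : ∀ g : Γ, g ≠ 1 → Set.Infinite {y : Γ | ∃ h, y = h * g * h⁻¹})
    (hp : St.IsProj p) (θ : St.CornerIso Γ Λ n p) (g : Γ) :
    St.fourM (θ.toFun (H160.St.u g)) = f4 (θ.toFun (H160.St.u g)) :=
  (iso_data θ hΓ hp).2.2.2 g

theorem hdec_kazhdan (hΓ : ∀ g : Γ, g ≠ 1 → Set.Infinite {y : Γ | ∃ h, y = h * g * h⁻¹})
    {Q : Finset Γ} {ε : ℝ} (hK : IsKazhdanPair Γ Q ε) (θ' : H160.St.StarIso Γ Λ)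
    (hnc : ¬ H160.St.Canonical θ') : ∃ Q : Finset Γ, Q.Nonempty ∧
      Tendsto (fun k : ℕ => (avg Q)^[k] (fun g => fourth (θ'.toFun (H160.St.u g))) 1)
        atTop (𝓝 0) := by
  have hK1 : IsKazhdanPair Γ Q (min ε 1) := by
    refine ⟨lt_min hK.1 one_pos, fun H _ _ _ π hπ v => ?_⟩
    obtain ⟨s, hs, h⟩ := hK.2 H π hπ v
    refine ⟨s, hs, le_trans ?_ h⟩
    exact mul_le_mul_of_nonneg_right (min_le_left _ _) (norm_nonneg _)
  obtain ⟨⟨s, hs, -⟩, h2⟩ := icc_kazhdan hΓ θ' hnc hK1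
  have hQ : Q.Nonempty := ⟨s, hs⟩
  refine ⟨Q, hQ, ?_⟩
  set δ : ℝ := (min ε 1) ^ 2 / (4 * Q.card) with hδ
  have hm0 : 0 < min ε 1 := hK1.1
  have hm1 : min ε 1 ≤ 1 := min_le_right _ _
  have hc : (1 : ℝ) ≤ Q.card := by exact_mod_cast hQ.card_pos
  have hδ0 : 0 < δ := by positivity
  have hδ1 : δ ≤ 1 := by
    rw [hδ, div_le_one (by positivity)]
    nlinarith
  have h3 : Tendsto (fun k : ℕ => (1 - δ) ^ k) atTop (𝓝 0) :=
    tendsto_pow_atTop_nhds_zero_of_lt_one (by linarith) (by linarith)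
  refine squeeze_zero (fun k => One.avg_iter_nonneg (fun g => ?_) k 1) (fun k => ?_) h3
  · unfold fourth
    exact tsum_nonneg fun _ => by positivity
  · have h4 := h2 1 1 k
    simp only [one_mul, mul_one] at h4
    exact h4

/-- Every isomorphism `L(Γ) → p M_n(L(Λ)) p` is canonical (then `p` has trace one), or the fourth
power sums decay exponentially, at a rate which depends only on the Kazhdan pair of `Γ`. -/
theorem stable_kazhdan (hΓ : ∀ g : Γ, g ≠ 1 → Set.Infinite {y : Γ | ∃ h, y = h * g * h⁻¹})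
    (hΛ : ∀ g : Λ, g ≠ 1 → Set.Infinite {y : Λ | ∃ h, y = h * g * h⁻¹})
    (hp : St.IsProj p) (θ : St.CornerIso Γ Λ n p) {Q : Finset Γ} {ε : ℝ}
    (hK : IsKazhdanPair Γ Q ε) : StCan θ ∨
      ((∃ s ∈ Q, St.fourM (θ.toFun (H160.St.u s)) ≤
        (1 - ε ^ 2 / 2) * St.fourM (θ.toFun (H160.St.u 1))) ∧ ∀ (a b : Γ) (k : ℕ),
      (avg Q)^[k] (fun g => St.fourM (θ.toFun (H160.St.u (a * g * b)))) 1 ≤
        (1 - ε ^ 2 / (4 * Q.card)) ^ k * St.fourM (θ.toFun (H160.St.u 1))) := by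
  rcases dich hΓ hΛ hp θ (fun θ' h => hdec_kazhdan hΓ hK θ' h) with h | h
  · exact Or.inl h
  · right
    simp only [fourM_u hΓ hp θ]
    exact corner_kazhdan (cf_of_iso θ hΓ hp) h hK

/-- The same for every nonempty finite generating set, without property (T): soft decay. -/
theorem stable_soft (hΓ : ∀ g : Γ, g ≠ 1 → Set.Infinite {y : Γ | ∃ h, y = h * g * h⁻¹})
    (hΛ : ∀ g : Λ, g ≠ 1 → Set.Infinite {y : Λ | ∃ h, y = h * g * h⁻¹})
    (hp : St.IsProj p) (θ : St.CornerIso Γ Λ n p) {Q : Finset Γ} (hQ : Q.Nonempty)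
    (hgen : Subgroup.closure (Q : Set Γ) = ⊤) : StCan θ ∨ ∀ a b : Γ,
      Tendsto (fun k : ℕ => (avg Q)^[k]
        (fun g => St.fourM (θ.toFun (H160.St.u (a * g * b)))) 1) atTop (𝓝 0) := by
  rcases dich hΓ hΛ hp θ (fun θ' h => ⟨Q, hQ, by
      have h1 := icc_soft hΓ θ' h hQ hgen 1 1
      simp only [one_mul, mul_one] at h1
      exact h1⟩) with h | h
  · exact Or.inl h
  · right
    intro a b
    simp only [fourM_u hΓ hp θ]
    exact corner_soft (cf_of_iso θ hΓ hp) h hQ hgen a b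

end dich

/-- Property (T), all finite generating sets, a uniform rate. -/
theorem stable_gen {Γ : Type} [Group Γ]
    (hΓ : ∀ g : Γ, g ≠ 1 → Set.Infinite {y : Γ | ∃ h, y = h * g * h⁻¹})
    {Q₀ : Finset Γ} {ε₀ : ℝ} (hK : IsKazhdanPair Γ Q₀ ε₀) {Q : Finset Γ}
    (hgen : Subgroup.closure (Q : Set Γ) = ⊤) :
    ∃ δ : ℝ, 0 < δ ∧ δ < 1 ∧ ∀ {Λ : Type} [Group Λ]
      (_ : ∀ g : Λ, g ≠ 1 → Set.Infinite {y : Λ | ∃ h, y = h * g * h⁻¹}) {n : ℕ}
      {p : H160.St.Op (Fin n × Λ)} (_ : St.IsProj p) (θ : St.CornerIso Γ Λ n p), StCan θ ∨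
      ((∃ s ∈ Q, St.fourM (θ.toFun (H160.St.u s)) ≤
        (1 - δ) * St.fourM (θ.toFun (H160.St.u 1))) ∧ ∀ (a b : Γ) (k : ℕ),
      (avg Q)^[k] (fun g => St.fourM (θ.toFun (H160.St.u (a * g * b)))) 1 ≤
        (1 - δ) ^ k * St.fourM (θ.toFun (H160.St.u 1))) := by
  obtain ⟨δ, h0, h1, h2⟩ := corner_gen hK hgen
  refine ⟨δ, h0, h1, fun {Λ} _ hΛ {n p} hp θ => ?_⟩
  rcases dich hΓ hΛ hp θ (fun θ' h => hdec_kazhdan hΓ hK θ' h) with h | h
  · exact Or.inl h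
  · right
    simp only [fourM_u hΓ hp θ]
    exact h2 (cf_of_iso θ hΓ hp) (iso_data θ hΓ hp).2.2.1 h

end Vale.Agent.P092.H605
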