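import Vale.Agent.P092.H605.CanB
import Vale.Agent.P092.H605.Dich

/-!
P092, stable isomorphisms: the two forms of a canonical isomorphism agree.
-/

set_option linter.all false

open scoped InnerProductSpace
open Filter Topology ContinuousLinearMap

namespace Vale.Agent.P092.H605.Can

open Vale.Agent.P092.H160 Vale.Agent.P092.H885 Vale.Agent.P092.H605

variable {Γ Λ : Type} [Group Γ] [Group Λ] {n : ℕ} {p : H160.St.Op (Fin n × Λ)}

theorem canM_of_stCan (θ : Pb.CornerIso Γ Λ n p) (h : StCan θ.old) : Pb.CanonicalM θ := by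
  obtain ⟨w, δ, χ, hw, h1, h2, hg⟩ := h
  refine ⟨δ, χ, fun i => slL Λ i ∘L w, fun i => star (slL Λ i ∘L w), fun i => ?_,
    fun i => (isAdj_iff _ _).mpr rfl, fun ξ => ?_, fun g i j s t => ?_⟩
  · refine W2.inL_of_comm fun x u => ?_
    change sl (w (rho x u)) i = rho x (sl (w u) i)
    rw [hw, S3.sl_rt]
  · refine ext_inner_left ℂ fun η => ?_
    rw [inner_sum]
    have h3 : ∀ i : Fin n, ⟪η, H160.St.ap (H160.St.mul (star (slL Λ i ∘L w))
        (slL Λ i ∘L w)) ξ⟫_ℂ = ⟪sl (w η) i, sl (w ξ) i⟫_ℂ := by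
      intro i
      change ⟪η, star (slL Λ i ∘L w) ((slL Λ i ∘L w) ξ)⟫_ℂ = _
      rw [star_eq_adjoint, adjoint_inner_right]
      rfl
    rw [Finset.sum_congr rfl fun i _ => h3 i, ← inner_sl, ← adjoint_inner_right]
    have h4 : adjoint w (w ξ) = ξ := DFunLike.congr_fun h1 ξ
    rw [h4]
  · have h5 : θ.toFun (H160.St.u g) = ((χ g : Circle) : ℂ) • (w ∘L lam (δ g) ∘L adjoint w) := hg g
    have h6 : star (slL Λ j ∘L w) (dl t) = adjoint w (dl (j, t)) := by
      refine ext_inner_left ℂ fun η => ?_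
      rw [star_eq_adjoint, adjoint_inner_right, adjoint_inner_right, dl_prod, inner_slL]
      rfl
    change ⟪dl (i, s), θ.toFun (H160.St.u g) (dl (j, t))⟫_ℂ = ((χ g : Circle) : ℂ) *
      ⟪dl s, slL Λ i (w (lam (δ g) (star (slL Λ j ∘L w) (dl t))))⟫_ℂ
    rw [h5, h6, inner_dl, inner_dl]
    rfl

theorem stCan_of_canM (hp : Pb.IsProj p) (θ : Pb.CornerIso Γ Λ n p) (h : Pb.CanonicalM θ) :
    StCan θ.old := by
  obtain ⟨δ, χ, V, hVe, hVi, hT⟩ := canonical_form θ h
  refine ⟨V, δ, χ, hVe, ?_, ?_, hT⟩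
  · ext1 v
    refine ext_inner_left ℂ fun u => ?_
    change ⟪u, adjoint V (V v)⟫_ℂ = ⟪u, v⟫_ℂ
    rw [adjoint_inner_right, hVi]
  · have h1 : θ.toFun (H160.St.u 1) = p := ci_one θ.old (Pb.isProj_iff.mp hp)
    have h2 := hT 1
    rw [h1, map_one, map_one, Circle.coe_one, one_smul, lam_one] at h2
    exact h2.symm

end Vale.Agent.P092.H605.Can
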