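import Vale.Agent.P092.H605.Mn

/-!
P092, stable isomorphisms: decay of the fourth power sums of corner frames.
-/

set_option linter.all false

open scoped InnerProductSpace
open Filter Topology ContinuousLinearMap

namespace Vale.Agent.P092.H605

open Vale.Agent.P092.H160 Vale.Agent.P092.H885

section general

variable {Γ : Type} [Group Γ] {H : Type} [NormedAddCommGroup H] [InnerProductSpace ℂ H]
    [CompleteSpace H] {π : Γ →* (H →L[ℂ] H)} (hπ : ∀ g, adjoint (π g) = π g⁻¹)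

include hπ

theorem gap_one_n {Q : Finset Γ} {ε : ℝ} (hε : 0 ≤ ε) {ξ : H}
    (gap : ∃ s ∈ Q, ε * ‖ξ‖ ≤ ‖π s ξ - ξ‖) :
    ∃ s ∈ Q, (⟪ξ, π s ξ⟫_ℂ).re ≤ (1 - ε ^ 2 / 2) * ‖ξ‖ ^ 2 := by
  obtain ⟨s, hs, h2⟩ := gap
  refine ⟨s, hs, ?_⟩
  have h3 := norm_sub_sq (𝕜 := ℂ) (π s ξ) ξ
  rw [u_norm hπ] at h3
  have h4 : (⟪π s ξ, ξ⟫_ℂ).re = (⟪ξ, π s ξ⟫_ℂ).re := by
    rw [← inner_conj_symm, Complex.conj_re]
  have h5 : ‖π s ξ - ξ‖ ^ 2 = ‖ξ‖ ^ 2 - 2 * (⟪π s ξ, ξ⟫_ℂ).re + ‖ξ‖ ^ 2 := h3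
  have h6 : (ε * ‖ξ‖) ^ 2 ≤ ‖π s ξ - ξ‖ ^ 2 := pow_le_pow_left₀ (by positivity) h2 2
  rw [h5, h4, mul_pow] at h6
  linarith

theorem gap_coeff_n {Q : Finset Γ} {ε : ℝ} (hε : 0 ≤ ε) (hQ : Q.Nonempty) (K : Submodule ℂ H)
    (hK : ∀ g, ∀ v ∈ K, π g v ∈ K) (gap : ∀ v ∈ K, ∃ s ∈ Q, ε * ‖v‖ ≤ ‖π s v - v‖) {ξ : H}
    (hξ : ξ ∈ K) (a b : Γ) (n : ℕ) :
    (avg Q)^[n] (fun g => (⟪ξ, π (a * g * b) ξ⟫_ℂ).re) 1 ≤
      (1 - ε ^ 2 / (4 * Q.card)) ^ n * ‖ξ‖ ^ 2 := by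
  rw [avg_translate hπ]
  calc _ ≤ ‖⟪π a⁻¹ ξ, (av π Q)^[n] (π b ξ)⟫_ℂ‖ := Complex.re_le_norm _
    _ ≤ ‖π a⁻¹ ξ‖ * ‖(av π Q)^[n] (π b ξ)‖ := norm_inner_le_norm _ _
    _ ≤ ‖ξ‖ * ((1 - ε ^ 2 / (4 * Q.card)) ^ n * ‖ξ‖) := by
        rw [u_norm hπ]
        have := gap_norm hπ hε hQ K hK gap (hK b ξ hξ) n
        rw [u_norm hπ] at this
        exact mul_le_mul_of_nonneg_left this (norm_nonneg _)
    _ = _ := by ring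

end general

section corner

variable {I Γ Λ : Type} [Group Γ] [Group Λ] [Fintype I]
  {U : Γ → Ell2 (I × Λ) →L[ℂ] Ell2 (I × Λ)}

theorem f4_eq (hU : CF U) (g : Γ) : f4 (U g) = (⟪xi U, pi1 hU g (xi U)⟫_ℂ).re := by
  rw [coeff1, Complex.ofReal_re]

theorem summable_four' {X : Type} (v : Ell2 X) : Summable fun z => ‖v z‖ ^ 4 := by
  refine Summable.of_nonneg_of_le (fun _ => by positivity) (fun z => ?_)
    ((summable_sq v).mul_left (‖v‖ ^ 2))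
  have h1 := norm_coord_le v z
  have h2 : ‖v z‖ ^ 2 ≤ ‖v‖ ^ 2 := pow_le_pow_left₀ (norm_nonneg _) h1 2
  calc ‖v z‖ ^ 4 = ‖v z‖ ^ 2 * ‖v z‖ ^ 2 := by ring
    _ ≤ _ := by gcongr

theorem f4_pos {V : Ell2 (I × Λ) →L[ℂ] Ell2 (I × Λ)} (hV : Hm V) (h : V ≠ 0) : 0 < f4 V := by
  have h0 : ∀ j, 0 ≤ ∑' z, ‖V (dl (j, 1)) z‖ ^ 4 := fun j => tsum_nonneg fun _ => by positivity
  refine lt_of_le_of_ne (Finset.sum_nonneg fun j _ => h0 j) fun h1 => h ?_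
  refine hV.ext Hm.zero fun j => ?_
  have h2 := (Finset.sum_eq_zero_iff_of_nonneg (fun j _ => h0 j)).mp h1.symm j (Finset.mem_univ j)
  apply eq_zero_of_inner_dl
  intro z
  by_contra hne
  have h3 : ‖V (dl (j, 1)) z‖ ^ 4 ≤ ∑' z, ‖V (dl (j, 1)) z‖ ^ 4 :=
    (summable_four' _).le_tsum z fun _ _ => by positivity
  rw [h2] at h3
  have h4 : 0 < ‖V (dl (j, 1)) z‖ := norm_pos_iff.mpr hne
  have h5 : 0 < ‖V (dl (j, 1)) z‖ ^ 4 := by positivity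
  linarith

theorem xi_ne (hU : CF U) (hp : TR (U 1) ≠ 0) : xi U ≠ 0 := by
  intro h
  have h1 := norm_xi_sq hU
  rw [h, norm_zero] at h1
  have h2 : U 1 ≠ 0 := by
    intro h2
    apply hp
    rw [h2, TR_eq_hs, hs_zero]
  have h3 := f4_pos (hU.hm 1) h2
  rw [← h1] at h3
  norm_num at h3

theorem xi_mem (hU : CF U) (horth : ∀ η, (∀ g, pi1 hU g η = η) → ⟪η, xi U⟫_ℂ = 0) :
    xi U ∈ (invSub (pi1 hU))ᗮ :=
  (Submodule.mem_orthogonal _ _).mpr fun η hη => horth η hη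

/-- Exponential decay, from a gap on the orthogonal complement of the invariant vectors. -/
theorem corner_gap (hU : CF U) (horth : ∀ η, (∀ g, pi1 hU g η = η) → ⟪η, xi U⟫_ℂ = 0)
    {Q : Finset Γ} {ε : ℝ} (hε : 0 ≤ ε)
    (hgap : ∀ v ∈ (invSub (pi1 hU))ᗮ, ∃ s ∈ Q, ε * ‖v‖ ≤ ‖pi1 hU s v - v‖) :
    (∃ s ∈ Q, f4 (U s) ≤ (1 - ε ^ 2 / 2) * f4 (U 1)) ∧ ∀ (a b : Γ) (k : ℕ),
      (avg Q)^[k] (fun g => f4 (U (a * g * b))) 1 ≤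
        (1 - ε ^ 2 / (4 * Q.card)) ^ k * f4 (U 1) := by
  have hπ := pi1_adj hU
  have hmem := xi_mem hU horth
  obtain ⟨s, hs, hs'⟩ := hgap _ hmem
  refine ⟨?_, fun a b k => ?_⟩
  · obtain ⟨t, ht, h1⟩ := gap_one_n hπ hε ⟨s, hs, hs'⟩
    refine ⟨t, ht, ?_⟩
    rw [← norm_xi_sq hU, f4_eq hU]
    exact h1
  · rw [← norm_xi_sq hU]
    simp only [f4_eq hU]
    exact gap_coeff_n hπ hε ⟨s, hs⟩ _ (fun g v hv => orth_map hπ g hv) hgap hmem a b k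

theorem corner_kazhdan (hU : CF U) (horth : ∀ η, (∀ g, pi1 hU g η = η) → ⟪η, xi U⟫_ℂ = 0)
    {Q : Finset Γ} {ε : ℝ} (hK : IsKazhdanPair Γ Q ε) :
    (∃ s ∈ Q, f4 (U s) ≤ (1 - ε ^ 2 / 2) * f4 (U 1)) ∧ ∀ (a b : Γ) (k : ℕ),
      (avg Q)^[k] (fun g => f4 (U (a * g * b))) 1 ≤
        (1 - ε ^ 2 / (4 * Q.card)) ^ k * f4 (U 1) :=
  corner_gap hU horth hK.1.le fun v hv => kazhdan_moves (pi1_adj hU) hK hv

theorem corner_soft (hU : CF U) (horth : ∀ η, (∀ g, pi1 hU g η = η) → ⟪η, xi U⟫_ℂ = 0)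
    {Q : Finset Γ} (hQ : Q.Nonempty) (hgen : Subgroup.closure (Q : Set Γ) = ⊤) (a b : Γ) :
    Tendsto (fun k : ℕ => (avg Q)^[k] (fun g => f4 (U (a * g * b))) 1) atTop (𝓝 0) := by
  simp only [f4_eq hU]
  exact soft_coeff (pi1_adj hU) hQ hgen horth a b

end corner

/-- The version for all generating sets, with a constant which depends only on `Γ`. -/
theorem corner_gen {Γ : Type} [Group Γ] {Q₀ : Finset Γ} {ε₀ : ℝ} (hK : IsKazhdanPair Γ Q₀ ε₀)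
    {Q : Finset Γ} (hgen : Subgroup.closure (Q : Set Γ) = ⊤) :
    ∃ δ : ℝ, 0 < δ ∧ δ < 1 ∧ ∀ {I Λ : Type} [Fintype I] [Group Λ]
    {U : Γ → Ell2 (I × Λ) →L[ℂ] Ell2 (I × Λ)} (hU : CF U), TR (U 1) ≠ 0 →
    (∀ η, (∀ g, pi1 hU g η = η) → ⟪η, xi U⟫_ℂ = 0) →
    (∃ s ∈ Q, f4 (U s) ≤ (1 - δ) * f4 (U 1)) ∧ ∀ (a b : Γ) (k : ℕ),
      (avg Q)^[k] (fun g => f4 (U (a * g * b))) 1 ≤ (1 - δ) ^ k * f4 (U 1) := by
  have hK1 : IsKazhdanPair Γ Q₀ (min ε₀ 1) := by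
    refine ⟨lt_min hK.1 one_pos, fun H _ _ _ π hπ v => ?_⟩
    obtain ⟨s, hs, h⟩ := hK.2 H π hπ v
    refine ⟨s, hs, le_trans ?_ h⟩
    exact mul_le_mul_of_nonneg_right (min_le_left _ _) (norm_nonneg _)
  obtain ⟨ε, hε, hε1, hgap⟩ := gap_of_gen hgen (Q₀ : Set Γ) Q₀.finite_toSet hK1.1
    (min_le_right _ _)
  have hmain : ∀ {I Λ : Type} [Fintype I] [Group Λ]
      {U : Γ → Ell2 (I × Λ) →L[ℂ] Ell2 (I × Λ)} (hU : CF U), TR (U 1) ≠ 0 →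
      (∀ η, (∀ g, pi1 hU g η = η) → ⟪η, xi U⟫_ℂ = 0) →
      (∃ s ∈ Q, f4 (U s) ≤ (1 - ε ^ 2 / 2) * f4 (U 1)) ∧ ∀ (a b : Γ) (k : ℕ),
      (avg Q)^[k] (fun g => f4 (U (a * g * b))) 1 ≤
        (1 - ε ^ 2 / (4 * Q.card)) ^ k * f4 (U 1) := by
    intro I Λ _ _ U hU hp horth
    have hπ := pi1_adj hU
    have hmem := xi_mem hU horth
    obtain ⟨t, ht, -⟩ := hgap (pi1 hU) hπ _ (xi_ne hU hp) (kazhdan_moves hπ hK1 hmem)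
    refine corner_gap hU horth hε.le fun v hv => ?_
    rcases eq_or_ne v 0 with rfl | h0
    · exact ⟨t, ht, by rw [norm_zero, mul_zero]; exact norm_nonneg _⟩
    · exact hgap (pi1 hU) hπ v h0 (kazhdan_moves hπ hK1 hv)
  by_cases hQ : Q.Nonempty
  swap
  · refine ⟨1 / 2, by norm_num, by norm_num, fun {I Λ} _ _ {U} hU hp horth => ?_⟩
    obtain ⟨⟨s, hs, -⟩, -⟩ := hmain hU hp horth
    exact absurd ⟨s, hs⟩ hQ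
  have hc : (1 : ℝ) ≤ Q.card := by exact_mod_cast hQ.card_pos
  have hε2 : ε ^ 2 ≤ 1 := pow_le_one₀ hε.le hε1
  refine ⟨ε ^ 2 / (4 * Q.card), by positivity, ?_, fun {I Λ} _ _ {U} hU hp horth => ?_⟩
  · rw [div_lt_one (by positivity)]; nlinarith
  · obtain ⟨⟨s, hs, h5⟩, h6⟩ := hmain hU hp horth
    refine ⟨⟨s, hs, h5.trans ?_⟩, h6⟩
    have h7 : ε ^ 2 / (4 * Q.card) ≤ ε ^ 2 / 2 := by
      gcongr
      linarith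
    have h8 : 0 ≤ f4 (U 1) := by
      rw [← norm_xi_sq hU]
      positivity
    gcongr

end Vale.Agent.P092.H605
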