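import Vale.Agent.P092.H605.Pub
import Vale.Agent.P092.H605.S1a
import Vale.Agent.P092.H605.Fin

/-!
P092, stable isomorphisms: the definitions in coordinates agree with those by matrix entries.
-/

set_option linter.all false

open scoped InnerProductSpace
open Filter Topology ContinuousLinearMap

namespace Vale.Agent.P092.H605.Pb

open Vale.Agent.P092.H160 Vale.Agent.P092.H160.St Vale.Agent.P092.H885 Vale.Agent.P092.H605

variable {Γ Λ : Type} [Group Γ] [Group Λ] {n : ℕ} {p : Op (Fin n × Λ)}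

theorem inM_iff {T : Op (Fin n × Λ)} : InM T ↔ H605.St.InM T := by
  constructor
  · rintro ⟨A, hA, h⟩ i j
    have h1 : H605.St.ent i j T = A i j := by
      apply op_ext
      intro t
      apply ext_inner_dl
      intro s
      rw [ent_dl, sl_apply]
      have h2 := h i j s t
      change ⟪dl (i, s), T (dl (j, t))⟫_ℂ = ⟪dl s, A i j (dl t)⟫_ℂ at h2
      rwa [inner_dl, inner_dl] at h2
    rw [h1]
    exact hA i j
  · intro h
    refine ⟨fun i j => H605.St.ent i j T, fun i j => h i j, fun i j s t => ?_⟩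
    change ⟪dl (i, s), T (dl (j, t))⟫_ℂ = ⟪dl s, H605.St.ent i j T (dl t)⟫_ℂ
    rw [inner_dl, inner_dl, ent_dl, sl_apply]

theorem inC_iff {T : Op (Fin n × Λ)} : InC p T ↔ H605.St.InC p T := by
  unfold InC H605.St.InC
  rw [inM_iff]

theorem isProj_iff : IsProj p ↔ H605.St.IsProj p := by
  unfold IsProj H605.St.IsProj
  rw [inM_iff]

theorem trM_eq' (T : Op (Fin n × Λ)) : trM T = TR T := rfl

theorem fourM_eq' (T : Op (Fin n × Λ)) : fourM T = f4 T := by
  unfold fourM f4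
  rw [Finset.sum_comm]
  refine Finset.sum_congr rfl fun j _ => ?_
  have h1 : ∀ i : Fin n, ∑' s : Λ, ‖ip (dl (i, s)) (ap T (dl (j, 1)))‖ ^ 4 =
      ∑' s, ‖T (dl (j, 1)) (i, s)‖ ^ 4 := by
    intro i
    refine tsum_congr fun s => ?_
    change ‖⟪dl (i, s), T (dl (j, 1))⟫_ℂ‖ ^ 4 = _
    rw [inner_dl]
  simp only [h1]
  have h2 := (summable_four (T (dl (j, 1)))).hasSum
  have h3 : HasSum (fun i => ∑' s, ‖T (dl (j, 1)) (i, s)‖ ^ 4)
      (∑' z, ‖T (dl (j, 1)) z‖ ^ 4) := by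
    refine h2.prod_fiberwise fun i => ?_
    exact ((summable_four (T (dl (j, 1)))).comp_injective (Prod.mk_right_injective i)).hasSum
  exact (hasSum_fintype _).unique h3

/-- The same isomorphism. -/
noncomputable def CornerIso.old (θ : CornerIso Γ Λ n p) : H605.St.CornerIso Γ Λ n p where
  toFun := θ.toFun
  invFun := θ.invFun
  map_mem T hT := inC_iff.mp (θ.map_mem T hT)
  inv_mem T hT := θ.inv_mem T (inC_iff.mpr hT)
  left_inv := θ.left_inv
  right_inv T hT := θ.right_inv T (inC_iff.mpr hT)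
  map_add := θ.map_add
  map_smul := θ.map_smul
  map_mul := θ.map_mul
  map_adj := θ.map_adj

/-- The data of the corner frame. -/
theorem data (θ : CornerIso Γ Λ n p)
    (hΓ : ∀ g : Γ, g ≠ 1 → Set.Infinite {y : Γ | ∃ h, y = h * g * h⁻¹})
    (hp : IsProj p) : CF (fun g => θ.toFun (St.u g)) ∧ TR (θ.toFun (St.u 1)) = trM p ∧
      TR (θ.toFun (St.u 1)) ≠ 0 ∧ θ.toFun (St.u 1) = p ∧ 0 < fourM p ∧
      ∀ g, f4 (θ.toFun (St.u g)) = fourM (θ.toFun (St.u g)) := by
  have hp' := isProj_iff.mp hp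
  obtain ⟨hU, -, hp0, -⟩ := iso_data θ.old hΓ hp'
  have h1 : θ.toFun (St.u 1) = p := ci_one θ.old hp'
  refine ⟨hU, ?_, hp0, h1, ?_, fun g => (fourM_eq' _).symm⟩
  · rw [h1]; rfl
  · rw [fourM_eq']
    refine f4_pos ?_ (ci_ne θ.old hp')
    have h2 := hU.hm 1
    change Hm (θ.toFun (St.u 1)) at h2
    rwa [h1] at h2

end Vale.Agent.P092.H605.Pb
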