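import Vale.Agent.P092.H605.Dich
import Vale.Agent.P092.H605.PubB

/-!
P092, stable isomorphisms: canonical isomorphisms in coordinates.
-/

set_option linter.all false

open scoped InnerProductSpace
open Filter Topology ContinuousLinearMap

namespace Vale.Agent.P092.H605

open Vale.Agent.P092.H160 Vale.Agent.P092.H885

variable {Γ Λ : Type} [Group Γ] [Group Λ] {n : ℕ} {p : H160.St.Op (Fin n × Λ)}

theorem slL_adj (i : Fin n) (s : Λ) : adjoint (slL Λ i : Ell2 (Fin n × Λ) →L[ℂ] Ell2 Λ) (dl s) =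
    dl (i, s) := by
  refine ext_inner_right ℂ fun v => ?_
  rw [adjoint_inner_left, inner_dl, inner_dl]
  rfl

/-- A canonical isomorphism, in coordinates. -/
theorem canM_of_stCan (θ : Pb.CornerIso Γ Λ n p) (h : StCan θ.old) : Pb.CanonicalM θ := by
  obtain ⟨w, δ, χ, hw, h1, h2, h3⟩ := h
  refine ⟨δ, χ, fun i => slL Λ i ∘L w, fun i => adjoint (slL Λ i ∘L w), fun i => ?_, fun i => ?_,
    fun ξ => ?_, fun g i j s t => ?_⟩
  · refine W2.inL_of_comm fun x v => ?_
    change slL Λ i (w (rho x v)) = rho x (slL Λ i (w v))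
    rw [hw]
    apply ext_inner_dl
    intro y
    change sl (rt (Fin n) x (w v)) i y = rho x (sl (w v) i) y
    rw [sl_apply, rt_apply, rho_apply, sl_apply]
  · exact (isAdj_op _ _).mpr (by rw [star_eq_adjoint])
  · change ∑ i, adjoint (slL Λ i ∘L w) ((slL Λ i ∘L w) ξ) = ξ
    refine ext_inner_right ℂ fun η => ?_
    rw [sum_inner]
    simp only [adjoint_inner_left]
    have h4 : ⟪w ξ, w η⟫_ℂ = ⟪ξ, η⟫_ℂ := by
      rw [← adjoint_inner_left]
      change ⟪(adjoint w ∘L w) ξ, η⟫_ℂ = _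
      rw [h1]
      rfl
    rw [← h4]
    rw [inner_sl]
    rfl
  · have h4 : θ.toFun (H160.St.u g) = (χ g : ℂ) • (w ∘L lam (δ g) ∘L adjoint w) := h3 g
    change ⟪dl (i, s), θ.toFun (H160.St.u g) (dl (j, t))⟫_ℂ = χ g * ⟪dl s,
      slL Λ i (w (lam (δ g) (adjoint (slL Λ j ∘L w) (dl t))))⟫_ℂ
    rw [h4, adjoint_comp]
    change ⟪dl (i, s), (χ g : ℂ) • w (lam (δ g) (adjoint w (dl (j, t))))⟫_ℂ = χ g * ⟪dl s,
      slL Λ i (w (lam (δ g) (adjoint w (adjoint (slL Λ j) (dl t)))))⟫_ℂ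
    rw [slL_adj, inner_smul_right, ← adjoint_inner_left (slL Λ i), slL_adj]

end Vale.Agent.P092.H605
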