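import Vale.Agent.P092.H605.Base

/-!
P092, stable isomorphisms: the Hilbert-Schmidt calculus of equivariant operators.
-/

set_option linter.all false

open scoped InnerProductSpace
open Filter Topology ContinuousLinearMap

namespace Vale.Agent.P092.H605

open Vale.Agent.P092.H160 Vale.Agent.P092.H885

section hom

variable {I J L K : Type} [Group K] [Fintype I] [Fintype J] [Fintype L]

theorem inner_sl (u v : Ell2 (J × K)) : ⟪u, v⟫_ℂ = ∑ j, ⟪sl u j, sl v j⟫_ℂ := by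
  have h1 := hasSum_inner' u v
  have h2 : HasSum (fun j : J => ⟪sl u j, sl v j⟫_ℂ) ⟪u, v⟫_ℂ := by
    refine h1.prod_fiberwise fun j => ?_
    exact hasSum_inner' (sl u j) (sl v j)
  exact h2.unique (hasSum_fintype _)

/-- slices of the adjoint -/
theorem sl_adj {S : Ell2 (I × K) →L[ℂ] Ell2 (J × K)} (hS : Hm S) (i : I) (j : J) :
    sl (adjoint S (dl (j, 1))) i = cj (iv K (sl (S (dl (i, 1))) j)) := by
  apply ext_inner_dl
  intro x
  rw [sl_apply, adj_coord, cj_apply, iv_apply, sl_apply, hS.dl, rt_apply, one_mul]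

theorem inner_iv (u v : Ell2 K) : ⟪iv K u, iv K v⟫_ℂ = ⟪u, v⟫_ℂ := inner_rei _ _ _

theorem hs_adj {S T : Ell2 (I × K) →L[ℂ] Ell2 (J × K)} (hS : Hm S) (hT : Hm T) :
    hs (adjoint T) (adjoint S) = hs S T := by
  unfold hs
  simp only [inner_sl]
  rw [Finset.sum_comm]
  refine Finset.sum_congr rfl fun i _ => Finset.sum_congr rfl fun j _ => ?_
  rw [sl_adj hS, sl_adj hT, inner_cj, inner_iv]

omit [Fintype J] in
theorem hs_comp_left (A : Ell2 (J × K) →L[ℂ] Ell2 (L × K)) (S : Ell2 (I × K) →L[ℂ] Ell2 (J × K))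
    (T : Ell2 (I × K) →L[ℂ] Ell2 (L × K)) : hs (A ∘L S) T = hs S (adjoint A ∘L T) := by
  unfold hs
  refine Finset.sum_congr rfl fun i _ => ?_
  rw [comp_apply, comp_apply, adjoint_inner_right]

omit [Fintype J] in
theorem hs_conj (S T : Ell2 (I × K) →L[ℂ] Ell2 (J × K)) :
    (starRingEnd ℂ) (hs S T) = hs T S := by
  unfold hs
  rw [map_sum]
  exact Finset.sum_congr rfl fun i _ => inner_conj_symm _ _

theorem hs_comp_right {S : Ell2 (J × K) →L[ℂ] Ell2 (L × K)} {B : Ell2 (I × K) →L[ℂ] Ell2 (J × K)}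
    {T : Ell2 (I × K) →L[ℂ] Ell2 (L × K)} (hS : Hm S) (hB : Hm B) (hT : Hm T) :
    hs (S ∘L B) T = hs S (T ∘L adjoint B) := by
  rw [← hs_adj (hS.comp hB) hT, adjoint_comp, ← hs_conj, hs_comp_left, adjoint_adjoint, hs_conj,
    ← hs_adj hS (hT.comp hB.adj), adjoint_comp, adjoint_adjoint]

omit [Fintype J] in
theorem hs_add (S T T' : Ell2 (I × K) →L[ℂ] Ell2 (J × K)) : hs S (T + T') = hs S T + hs S T' := by
  unfold hs
  rw [← Finset.sum_add_distrib]
  exact Finset.sum_congr rfl fun i _ => by rw [add_apply, inner_add_right]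

omit [Fintype J] in
theorem hs_sub (S T T' : Ell2 (I × K) →L[ℂ] Ell2 (J × K)) : hs S (T - T') = hs S T - hs S T' := by
  unfold hs
  rw [← Finset.sum_sub_distrib]
  exact Finset.sum_congr rfl fun i _ => by rw [sub_apply, inner_sub_right]

omit [Fintype J] in
theorem hs_smul (c : ℂ) (S T : Ell2 (I × K) →L[ℂ] Ell2 (J × K)) : hs S (c • T) = c * hs S T := by
  unfold hs
  rw [Finset.mul_sum]
  exact Finset.sum_congr rfl fun i _ => by
    change ⟪_, c • T _⟫_ℂ = _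
    rw [inner_smul_right]

omit [Fintype J] in
theorem hs_zero (S : Ell2 (I × K) →L[ℂ] Ell2 (J × K)) : hs S 0 = 0 := by
  unfold hs
  exact Finset.sum_eq_zero fun i _ => by rw [ContinuousLinearMap.zero_apply, inner_zero_right]

omit [Fintype J] in
theorem hs_sum {ι : Type} (s : Finset ι) (S : Ell2 (I × K) →L[ℂ] Ell2 (J × K))
    (T : ι → Ell2 (I × K) →L[ℂ] Ell2 (J × K)) : hs S (∑ k ∈ s, T k) = ∑ k ∈ s, hs S (T k) := by
  classical
  induction s using Finset.induction_on with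
  | empty => rw [Finset.sum_empty, Finset.sum_empty, hs_zero]
  | insert a s ha ih => rw [Finset.sum_insert ha, Finset.sum_insert ha, hs_add, ih]

omit [Fintype J] in
theorem hs_self (S : Ell2 (I × K) →L[ℂ] Ell2 (J × K)) : hs S S = (hn S : ℂ) := by
  unfold hs hn
  push_cast
  exact Finset.sum_congr rfl fun i _ => by rw [inner_self_eq_norm_sq_to_K]; rfl

omit [Fintype J] in
theorem hn_nonneg (S : Ell2 (I × K) →L[ℂ] Ell2 (J × K)) : 0 ≤ hn S :=
  Finset.sum_nonneg fun i _ => by positivity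

omit [Fintype J] in
theorem eq_zero_of_hn {S : Ell2 (I × K) →L[ℂ] Ell2 (J × K)} (hS : Hm S) (h : hn S = 0) : S = 0 := by
  refine hS.ext Hm.zero fun i => ?_
  have h1 := (Finset.sum_eq_zero_iff_of_nonneg (fun i _ => by positivity)).mp h i
    (Finset.mem_univ i)
  rw [ContinuousLinearMap.zero_apply]
  exact norm_eq_zero.mp ((pow_eq_zero_iff two_ne_zero).mp h1)

theorem hn_adj {S : Ell2 (I × K) →L[ℂ] Ell2 (J × K)} (hS : Hm S) : hn (adjoint S) = hn S := by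
  have h1 := hs_adj hS hS
  rw [hs_self, hs_self] at h1
  exact_mod_cast h1

omit [Fintype J] [Fintype L] in
theorem hn_comp_left (A : Ell2 (J × K) →L[ℂ] Ell2 (L × K)) (S : Ell2 (I × K) →L[ℂ] Ell2 (J × K)) :
    hn (A ∘L S) ≤ ‖A‖ ^ 2 * hn S := by
  unfold hn
  rw [Finset.mul_sum]
  refine Finset.sum_le_sum fun i _ => ?_
  rw [← mul_pow]
  exact pow_le_pow_left₀ (norm_nonneg _) (A.le_opNorm _) 2

theorem hn_comp_right {S : Ell2 (J × K) →L[ℂ] Ell2 (L × K)} {B : Ell2 (I × K) →L[ℂ] Ell2 (J × K)}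
    (hS : Hm S) (hB : Hm B) : hn (S ∘L B) ≤ ‖B‖ ^ 2 * hn S := by
  rw [← hn_adj (hS.comp hB), adjoint_comp, ← hn_adj hS, ← LinearIsometryEquiv.norm_map adjoint B]
  exact hn_comp_left _ _

/-- the vector of an equivariant operator -/
noncomputable def vec (S : Ell2 (I × K) →L[ℂ] Ell2 (J × K)) : Ell2 (I × (J × K)) :=
  ∑ i, tv (dl i) (S (dl (i, 1)))

omit [Fintype J] in
theorem vec_apply (S : Ell2 (I × K) →L[ℂ] Ell2 (J × K)) (i : I) (z : J × K) :
    vec S (i, z) = S (dl (i, 1)) z := by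
  classical
  unfold vec
  rw [lp.coeFn_sum, Finset.sum_apply, Finset.sum_eq_single i]
  · rw [tv_apply, dl_self, one_mul]
  · intro b _ hb
    rw [tv_apply, dl_ne (Ne.symm hb), zero_mul]
  · intro h; exact absurd (Finset.mem_univ i) h

omit [Fintype J] in
theorem inner_vec (S T : Ell2 (I × K) →L[ℂ] Ell2 (J × K)) : ⟪vec S, vec T⟫_ℂ = hs S T := by
  classical
  unfold vec hs
  rw [sum_inner]
  refine Finset.sum_congr rfl fun i _ => ?_
  rw [inner_sum, Finset.sum_eq_single i]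
  · rw [inner_tv, inner_dl, dl_self, one_mul]
  · intro b _ hb
    rw [inner_tv, inner_dl, dl_ne (Ne.symm hb), zero_mul]
  · intro h; exact absurd (Finset.mem_univ i) h

omit [Fintype J] in
theorem vec_add (S T : Ell2 (I × K) →L[ℂ] Ell2 (J × K)) : vec (S + T) = vec S + vec T := by
  apply ext_inner_dl
  rintro ⟨i, z⟩
  rw [vec_apply]
  change _ = vec S (i, z) + vec T (i, z)
  rw [vec_apply, vec_apply]
  rfl

omit [Fintype J] in
theorem vec_smul (c : ℂ) (S : Ell2 (I × K) →L[ℂ] Ell2 (J × K)) : vec (c • S) = c • vec S := by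
  apply ext_inner_dl
  rintro ⟨i, z⟩
  rw [vec_apply]
  change _ = c * vec S (i, z)
  rw [vec_apply]
  rfl

omit [Fintype J] in
theorem vec_inj {S T : Ell2 (I × K) →L[ℂ] Ell2 (J × K)} (hS : Hm S) (hT : Hm T)
    (h : vec S = vec T) : S = T := by
  refine hS.ext hT fun i => ?_
  apply ext_inner_dl
  intro z
  rw [← vec_apply, ← vec_apply, h]

omit [Fintype J] in
theorem norm_vec_sq (S : Ell2 (I × K) →L[ℂ] Ell2 (J × K)) : ‖vec S‖ ^ 2 = hn S := by
  have h1 := inner_vec S S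
  rw [hs_self, inner_self_eq_norm_sq_to_K] at h1
  have h2 : ((‖vec S‖ ^ 2 : ℝ) : ℂ) = ((hn S : ℝ) : ℂ) := by
    rw [← h1]
    push_cast
    rfl
  exact Complex.ofReal_injective h2

theorem TR_eq_hs (A : Ell2 (I × K) →L[ℂ] Ell2 (I × K)) : TR A = hs 1 A := rfl

theorem TR_mul (A B : Ell2 (I × K) →L[ℂ] Ell2 (I × K)) : TR (adjoint A * B) = hs A B := by
  unfold TR hs
  refine Finset.sum_congr rfl fun i _ => ?_
  rw [mul_ap, adjoint_inner_right]

end hom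

section del

variable {I Λ : Type} [Group Λ]

theorem rt_eq_tens (x : Λ) : rt I x = tens 1 (rho x) := by
  apply op_ext
  rintro ⟨i, h⟩
  rw [rt_dl, tens_dl, rho_dl, dl_prod]
  rfl

/-- the right translation in the coordinates `phe` -/
def mpr (x : Λ × Λ × Λ) : Λ × Λ ≃ Λ × Λ where
  toFun u := (x.1 * u.1 * x.2.1⁻¹, x.1 * u.2 * x.2.2⁻¹)
  invFun u := (x.1⁻¹ * u.1 * x.2.1, x.1⁻¹ * u.2 * x.2.2)
  left_inv u := by simp [mul_assoc]
  right_inv u := by simp [mul_assoc]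

theorem rt_phe (x : Λ × Λ × Λ) (v : Ell2 (I × (Λ × Λ × Λ))) :
    rt I x v = rei (phe I Λ).symm (tens (rt I x.1) (rei (mpr x)) (rei (phe I Λ) v)) := by
  rw [rt, rt, tens_rei, rei_rei, rei_rei]
  congr 1
  congr 1
  ext1 y
  obtain ⟨a, b, c⟩ := x
  obtain ⟨i, p, q, r⟩ := y
  simp [phe, mpr, mul_assoc]

theorem Del_hm {V : Ell2 (I × Λ) →L[ℂ] Ell2 (I × Λ)} (hV : Hm V) : Hm (Del V) := by
  intro x v
  rw [rt_phe, rt_phe, Del_apply, Del_apply, rei_rei (phe I Λ).symm, Equiv.symm_trans_self,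
    rei_refl, rei_rei (phe I Λ).symm, Equiv.symm_trans_self, rei_refl]
  congr 1
  have h0 : V * rt I x.1 = rt I x.1 * V := by
    ext1 w
    exact hV x.1 w
  have h1 : tens V 1 * tens (rt I x.1) (rei (mpr x)) =
      tens (rt I x.1) (rei (mpr x)) * tens V 1 := by
    rw [← tens_mul, ← tens_mul, one_mul, mul_one, h0]
  exact congrArg (fun L : Ell2 ((I × Λ) × (Λ × Λ)) →L[ℂ] Ell2 ((I × Λ) × (Λ × Λ)) =>
    L (rei (phe I Λ) v)) h1

/-- the diagonal embedding `δ_(i,t) ↦ δ_(i,(t,t,t))` -/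
noncomputable def emb (I Λ : Type) [Group Λ] : Ell2 (I × Λ) →L[ℂ] Ell2 (I × (Λ × Λ × Λ)) :=
  rei (phe I Λ).symm ∘L tvl (dl ((1 : Λ), (1 : Λ)))

theorem emb_dl (i : I) (t : Λ) : emb I Λ (dl (i, t)) = dl (i, (t, t, t)) := by
  change rei (phe I Λ).symm (tv (dl (i, t)) (dl (1, 1))) = _
  rw [← dl_prod, rei_dl]
  change dl (i, (t, t * 1, t * 1)) = _
  rw [mul_one]

theorem inner_emb (u v : Ell2 (I × Λ)) : ⟪emb I Λ u, emb I Λ v⟫_ℂ = ⟪u, v⟫_ℂ := by
  change ⟪rei (phe I Λ).symm (tv u (dl (1, 1))), rei (phe I Λ).symm (tv v (dl (1, 1)))⟫_ℂ = _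
  rw [inner_rei, inner_tv, inner_dl, dl_self, mul_one]

theorem emb_rt (t : Λ) (v : Ell2 (I × Λ)) : emb I Λ (rt I t v) = rt I (t, t, t) (emb I Λ v) := by
  have h : emb I Λ ∘L rt I t = rt I (t, t, t) ∘L emb I Λ := by
    apply op_ext
    rintro ⟨i, s⟩
    rw [comp_apply, comp_apply, rt_dl, emb_dl, emb_dl, rt_dl]
    rfl
  exact congrArg (fun L : Ell2 (I × Λ) →L[ℂ] Ell2 (I × (Λ × Λ × Λ)) => L v) h

theorem Del_emb (V : Ell2 (I × Λ) →L[ℂ] Ell2 (I × Λ)) (v : Ell2 (I × Λ)) :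
    Del V (emb I Λ v) = emb I Λ (V v) := by
  change rei (phe I Λ).symm (tens V 1 (rei (phe I Λ) (rei (phe I Λ).symm (tv v (dl (1, 1)))))) =
    rei (phe I Λ).symm (tv (V v) (dl (1, 1)))
  rw [rei_rei (phe I Λ).symm, Equiv.symm_trans_self, rei_refl, tens_tv]
  rfl

theorem Del_dl (V : Ell2 (I × Λ) →L[ℂ] Ell2 (I × Λ)) (i : I) :
    Del V (dl (i, 1)) = emb I Λ (V (dl (i, 1))) := by
  rw [← Del_emb, emb_dl]
  rfl

theorem Del_add (V W : Ell2 (I × Λ) →L[ℂ] Ell2 (I × Λ)) : Del (V + W) = Del V + Del W := by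
  have h : tens (V + W) (1 : Ell2 (Λ × Λ) →L[ℂ] Ell2 (Λ × Λ)) = tens V 1 + tens W 1 := by
    apply op_ext
    rintro ⟨x, y⟩
    rw [add_apply, tens_dl, tens_dl, tens_dl, add_apply, tv_add_left]
  ext1 v
  rw [add_apply, Del_apply, Del_apply, Del_apply, h, add_apply, map_add]

theorem Del_smul (c : ℂ) (V : Ell2 (I × Λ) →L[ℂ] Ell2 (I × Λ)) : Del (c • V) = c • Del V := by
  have h : tens (c • V) (1 : Ell2 (Λ × Λ) →L[ℂ] Ell2 (Λ × Λ)) = c • tens V 1 := by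
    apply op_ext
    rintro ⟨x, y⟩
    change _ = c • tens V 1 (dl (x, y))
    rw [tens_dl, tens_dl]
    change tv (c • V (dl x)) _ = _
    rw [tv_smul_left]
  ext1 v
  change Del (c • V) v = c • Del V v
  rw [Del_apply, Del_apply, h]
  change rei (phe I Λ).symm (c • tens V 1 (rei (phe I Λ) v)) = _
  rw [map_smul]

variable [Fintype I]

theorem hs_Del (V W : Ell2 (I × Λ) →L[ℂ] Ell2 (I × Λ)) : hs (Del V) (Del W) = hs V W := by
  unfold hs
  refine Finset.sum_congr rfl fun i _ => ?_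
  have h1 : ∀ V : Ell2 (I × Λ) →L[ℂ] Ell2 (I × Λ),
      Del V (dl (i, (1 : Λ × Λ × Λ))) = emb I Λ (V (dl (i, 1))) := fun V => Del_dl V i
  rw [h1, h1, inner_emb]

theorem hn_Del (V : Ell2 (I × Λ) →L[ℂ] Ell2 (I × Λ)) : hn (Del V) = hn V := by
  have h1 := hs_Del V V
  rw [hs_self, hs_self] at h1
  exact_mod_cast h1

theorem TR_Del (V : Ell2 (I × Λ) →L[ℂ] Ell2 (I × Λ)) : TR (Del V) = TR V := by
  unfold TR
  refine Finset.sum_congr rfl fun i _ => ?_
  rw [Del_dl]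
  have h := inner_emb (dl (i, 1)) (V (dl (i, 1)))
  rw [emb_dl] at h
  exact h

end del

section tee

variable {I Λ : Type} [Group Λ]

theorem sge_rt (x : Λ × Λ × Λ) (v : Ell2 ((I × I × I) × (Λ × Λ × Λ))) :
    rt (I × I × I) x v = rei (sge I Λ) (tens (rt I x.1) (tens (rt I x.2.1) (rt I x.2.2))
      (rei (sge I Λ).symm v)) := by
  rw [rt, rt, rt, rt, tens_rei, tens_rei, rei_rei, rei_rei]
  rfl

theorem bar_rt (x : Λ) : bar (rt I x) = rt I x := bar_rei _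

theorem T3_hm {A B C : Ell2 (I × Λ) →L[ℂ] Ell2 (I × Λ)} (hA : Hm A) (hB : Hm B) (hC : Hm C) :
    Hm (T3 A B C) := by
  intro x v
  have h0 : ∀ {V : Ell2 (I × Λ) →L[ℂ] Ell2 (I × Λ)} (_ : Hm V) (t : Λ),
      V * rt I t = rt I t * V := by
    intro V hV t
    ext1 w
    exact hV t w
  rw [sge_rt, sge_rt, T3_apply, T3_apply, rei_rei (sge I Λ), Equiv.self_trans_symm, rei_refl,
    rei_rei (sge I Λ), Equiv.self_trans_symm, rei_refl]
  congr 1
  have hB' : bar B * rt I x.2.1 = rt I x.2.1 * bar B := by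
    rw [← bar_rt, ← bar_mul, ← bar_mul, h0 hB]
  have h1 : tens A (tens (bar B) C) * tens (rt I x.1) (tens (rt I x.2.1) (rt I x.2.2)) =
      tens (rt I x.1) (tens (rt I x.2.1) (rt I x.2.2)) * tens A (tens (bar B) C) := by
    rw [← tens_mul, ← tens_mul, ← tens_mul, ← tens_mul, h0 hA, hB', h0 hC]
  exact congrArg (fun L : Ell2 ((I × Λ) × (I × Λ) × (I × Λ)) →L[ℂ]
    Ell2 ((I × Λ) × (I × Λ) × (I × Λ)) => L (rei (sge I Λ).symm v)) h1

theorem T3_dl (A B C : Ell2 (I × Λ) →L[ℂ] Ell2 (I × Λ)) (i j k : I) :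
    T3 A B C (dl ((i, j, k), 1)) = rei (sge I Λ) (tv (A (dl (i, 1)))
      (tv (cj (B (dl (j, 1)))) (C (dl (k, 1))))) := by
  rw [T3_apply, rei_dl]
  change rei (sge I Λ) (tens A (tens (bar B) C) (dl ((i, 1), ((j, 1), (k, 1))))) = _
  rw [tens_dl, tens_dl, bar_dl]

theorem T3_one : T3 (1 : Ell2 (I × Λ) →L[ℂ] Ell2 (I × Λ)) 1 1 = 1 := by
  ext1 v
  rw [T3_apply, bar_one, tens_one, tens_one]
  change rei (sge I Λ) (rei (sge I Λ).symm v) = v
  rw [rei_rei, Equiv.symm_trans_self, rei_refl]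

variable [Fintype I]

theorem hs_T3 (A B C A' B' C' : Ell2 (I × Λ) →L[ℂ] Ell2 (I × Λ)) :
    hs (T3 A B C) (T3 A' B' C') = hs A A' * ((starRingEnd ℂ) (hs B B') * hs C C') := by
  unfold hs
  rw [map_sum, Fintype.sum_prod_type, Finset.sum_mul_sum, Finset.sum_mul_sum]
  simp only [Fintype.sum_prod_type, T3_dl, inner_rei, inner_tv, inner_cj_cj, Finset.mul_sum]

theorem TR_T3 (A B C : Ell2 (I × Λ) →L[ℂ] Ell2 (I × Λ)) :
    TR (T3 A B C) = TR A * ((starRingEnd ℂ) (TR B) * TR C) := by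
  rw [TR_eq_hs, TR_eq_hs, TR_eq_hs, TR_eq_hs, ← T3_one, hs_T3]

end tee

end Vale.Agent.P092.H605
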