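import Vale.Agent.P092.H605.Dich

/-!
P092, stable isomorphisms: the dichotomy for all corners, in the forms used for the hand-in; the
infimum of the fourth power sums, without finite generation.
-/

set_option linter.all false

open scoped InnerProductSpace
open Filter Topology ContinuousLinearMap

namespace Vale.Agent.P092.H605.Dich

open Vale.Agent.P092.H160 Vale.Agent.P092.H885 Vale.Agent.P092.H605

/-! ### the infimum of a coefficient -/

section inf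

variable {Γ : Type} [Group Γ] {H : Type} [NormedAddCommGroup H] [InnerProductSpace ℂ H]
    [CompleteSpace H] {π : Γ →* (H →L[ℂ] H)}

theorem half_closed (w : H) (c : ℝ) : IsClosed {ξ : H | c ≤ (⟪w, ξ⟫_ℂ).re} :=
  isClosed_le continuous_const
    (Complex.continuous_re.comp (continuous_const.inner continuous_id))

theorem half_cvx (w : H) (c : ℝ) : Cvx {ξ : H | c ≤ (⟪w, ξ⟫_ℂ).re} := by
  intro x hx y hy a b ha hb hab
  change c ≤ (⟪w, (a : ℂ) • x + (b : ℂ) • y⟫_ℂ).re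
  have hx' : c ≤ (⟪w, x⟫_ℂ).re := hx
  have hy' : c ≤ (⟪w, y⟫_ℂ).re := hy
  rw [inner_add_right, inner_smul_right, inner_smul_right, Complex.add_re, Complex.re_ofReal_mul,
    Complex.re_ofReal_mul]
  calc c = a * c + b * c := by rw [← add_mul, hab, one_mul]
    _ ≤ _ := by gcongr

/-- If a vector is orthogonal to the invariant vectors then the infimum of its coefficient is not
positive. -/
theorem inf_coeff (hπ : ∀ g, adjoint (π g) = π g⁻¹) {ξ : H}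
    (hξ : ∀ η, (∀ g, π g η = η) → ⟪η, ξ⟫_ℂ = 0) (c : ℝ) (hc : 0 < c) :
    ∃ g, (⟪ξ, π g ξ⟫_ℂ).re < c := by
  by_contra hcon
  push Not at hcon
  obtain ⟨ω, hω, hmin, huniq⟩ := exists_min_norm (F := H)
    (K := S3.chull (Set.range fun g => π g ξ))
    ⟨_, S3.subset_chull _ ⟨1, rfl⟩⟩ (S3.chull_closed _) (S3.chull_cvx _)
  have hinv : ∀ g, π g ω = ω := by
    intro g
    refine huniq _ ?_ (u_norm hπ g ω).le
    intro K h1 h2 h3
    have h4 : IsClosed ((fun v : H => π g v) ⁻¹' K) := h1.preimage (π g).continuous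
    refine hω ((fun v : H => π g v) ⁻¹' K) h4 ?_ ?_
    · intro x hx y hy a b ha hb hab
      change π g ((a : ℂ) • x + (b : ℂ) • y) ∈ K
      rw [map_add, map_smul, map_smul]
      exact h2 _ hx _ hy a b ha hb hab
    · rintro _ ⟨k, rfl⟩
      change π g (π k ξ) ∈ K
      refine h3 ⟨g * k, ?_⟩
      change π (g * k) ξ = _
      rw [map_mul]
      rfl
  have h5 : c ≤ (⟪ξ, ω⟫_ℂ).re := hω {v | c ≤ (⟪ξ, v⟫_ℂ).re} (half_closed _ _) (half_cvx _ _) (by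
    rintro _ ⟨g, rfl⟩
    exact hcon g)
  have h6 : ⟪ξ, ω⟫_ℂ = 0 := by
    rw [← inner_conj_symm, hξ ω hinv, map_zero]
  rw [h6, Complex.zero_re] at h5
  linarith

end inf

section dich

variable {Γ Λ : Type} [Group Γ] [Group Λ] {n : ℕ} {p : H160.St.Op (Fin n × Λ)}

/-- canonical after transport to the unamplified factor -/
def Can (θ : St.CornerIso Γ Λ n p) : Prop :=
  ∃ (w : Ell2 Λ →L[ℂ] Ell2 (Fin n × Λ)) (hw : ∀ x v, w (rho x v) = rt (Fin n) x (w v))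
    (h1 : adjoint w ∘L w = 1) (h2 : w ∘L adjoint w = p),
    H160.St.Canonical (W2.starIsoOf θ w hw h1 h2)

/-- Three cases. -/
theorem cases3 (hΓ : ∀ g : Γ, g ≠ 1 → Set.Infinite {y : Γ | ∃ h, y = h * g * h⁻¹})
    (hΛ : ∀ g : Λ, g ≠ 1 → Set.Infinite {y : Λ | ∃ h, y = h * g * h⁻¹})
    (hp : St.IsProj p) (θ : St.CornerIso Γ Λ n p) :
    (∃ (w : Ell2 Λ →L[ℂ] Ell2 (Fin n × Λ)) (hw : ∀ x v, w (rho x v) = rt (Fin n) x (w v))
      (h1 : adjoint w ∘L w = 1) (h2 : w ∘L adjoint w = p),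
      H160.St.Canonical (W2.starIsoOf θ w hw h1 h2)) ∨
    (∃ (w : Ell2 Λ →L[ℂ] Ell2 (Fin n × Λ)) (hw : ∀ x v, w (rho x v) = rt (Fin n) x (w v))
      (h1 : adjoint w ∘L w = 1) (h2 : w ∘L adjoint w = p),
      ¬ H160.St.Canonical (W2.starIsoOf θ w hw h1 h2)) ∨
    Orth (cf_of_iso θ hΓ hp) := by
  have hU := cf_of_iso θ hΓ hp
  obtain ⟨-, htr, hne, -⟩ := iso_data θ hΓ hp
  have e1 : θ.toFun (H160.St.u 1) = p := ci_one θ hp
  by_cases h1 : TR (θ.toFun (H160.St.u 1)) = 1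
  swap
  · right; right
    exact fun η hη => min_arg hU (fun X hX hinv => no_itw hU hne h1
      (fun y hy hl hr hc => lemI hΛ hU hne hy hl hr hc)
      (fun y hy hl hr hc => lemII hΓ hU hne hy hl hr hc) X hX hinv) η hη
  obtain ⟨w, hw, hw1, hw2⟩ := W2.cmp_proj hΛ hp (by rw [← e1]; exact h1)
  by_cases hc : H160.St.Canonical (W2.starIsoOf θ w hw hw1 hw2)
  · exact Or.inl ⟨w, hw, hw1, hw2, hc⟩
  · exact Or.inr (Or.inl ⟨w, hw, hw1, hw2, hc⟩)

theorem fourth_star (θ : St.CornerIso Γ Λ n p) {w : Ell2 Λ →L[ℂ] Ell2 (Fin n × Λ)}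
    (hw : ∀ x v, w (rho x v) = rt (Fin n) x (w v)) (hw1 : adjoint w ∘L w = 1)
    (hw2 : w ∘L adjoint w = p) (g : Γ) :
    fourth ((W2.starIsoOf θ w hw hw1 hw2).toFun (H160.St.u g)) =
      ∑' z, ‖((adjoint w ∘L θ.toFun (H160.St.u g) ∘L w) (dl 1)) z‖ ^ 4 :=
  fourth_eq ⟨(W2.starIsoOf θ w hw hw1 hw2).toFun (H160.St.u g),
      (inL_iff _).mp ((W2.starIsoOf θ w hw hw1 hw2).map_mem _ (inL_u g))⟩

/-- The dichotomy, from a decay for non canonical isomorphisms of the unamplified factors. -/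
theorem dichL (hΓ : ∀ g : Γ, g ≠ 1 → Set.Infinite {y : Γ | ∃ h, y = h * g * h⁻¹})
    (hΛ : ∀ g : Λ, g ≠ 1 → Set.Infinite {y : Λ | ∃ h, y = h * g * h⁻¹})
    (hp : St.IsProj p) (θ : St.CornerIso Γ Λ n p)
    (hdec : ∀ θ' : H160.St.StarIso Γ Λ, ¬ H160.St.Canonical θ' → ∃ Q : Finset Γ, Q.Nonempty ∧
      Tendsto (fun k : ℕ => (avg Q)^[k] (fun g => fourth (θ'.toFun (H160.St.u g))) 1)
        atTop (𝓝 0)) :
    (∃ (w : Ell2 Λ →L[ℂ] Ell2 (Fin n × Λ)) (hw : ∀ x v, w (rho x v) = rt (Fin n) x (w v))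
      (h1 : adjoint w ∘L w = 1) (h2 : w ∘L adjoint w = p),
      H160.St.Canonical (W2.starIsoOf θ w hw h1 h2)) ∨
    ∀ η, (∀ g, pi1 (cf_of_iso θ hΓ hp) g η = η) →
      ⟪η, xi (fun g => θ.toFun (H160.St.u g))⟫_ℂ = 0 := by
  rcases cases3 hΓ hΛ hp θ with h | ⟨w, hw, hw1, hw2, hc⟩ | h
  · exact Or.inl h
  · right
    obtain ⟨Q, hQ, hlim⟩ := hdec _ hc
    simp only [fourth_star θ hw hw1 hw2] at hlim
    exact One.orth_xi_one (cf_of_iso θ hΓ hp) hw hw1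
      (by rw [hw2]; exact (ci_one θ hp).symm) hQ hlim
  · exact Or.inr h

/-- (a) Kazhdan pairs. -/
theorem dichK (hΓ : ∀ g : Γ, g ≠ 1 → Set.Infinite {y : Γ | ∃ h, y = h * g * h⁻¹})
    (hΛ : ∀ g : Λ, g ≠ 1 → Set.Infinite {y : Λ | ∃ h, y = h * g * h⁻¹})
    (hp : St.IsProj p) (θ : St.CornerIso Γ Λ n p) {Q : Finset Γ} {ε : ℝ}
    (hK : IsKazhdanPair Γ Q ε) :
    (∃ (w : Ell2 Λ →L[ℂ] Ell2 (Fin n × Λ)) (hw : ∀ x v, w (rho x v) = rt (Fin n) x (w v))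
      (h1 : adjoint w ∘L w = 1) (h2 : w ∘L adjoint w = p),
      H160.St.Canonical (W2.starIsoOf θ w hw h1 h2)) ∨
    ∀ η, (∀ g, pi1 (cf_of_iso θ hΓ hp) g η = η) →
      ⟪η, xi (fun g => θ.toFun (H160.St.u g))⟫_ℂ = 0 :=
  dichL hΓ hΛ hp θ fun θ' h => hdec_kazhdan hΓ hK θ' h

/-- (b) generating sets. -/
theorem dichS (hΓ : ∀ g : Γ, g ≠ 1 → Set.Infinite {y : Γ | ∃ h, y = h * g * h⁻¹})
    (hΛ : ∀ g : Λ, g ≠ 1 → Set.Infinite {y : Λ | ∃ h, y = h * g * h⁻¹})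
    (hp : St.IsProj p) (θ : St.CornerIso Γ Λ n p) {Q : Finset Γ} (hQ : Q.Nonempty)
    (hgen : Subgroup.closure (Q : Set Γ) = ⊤) :
    (∃ (w : Ell2 Λ →L[ℂ] Ell2 (Fin n × Λ)) (hw : ∀ x v, w (rho x v) = rt (Fin n) x (w v))
      (h1 : adjoint w ∘L w = 1) (h2 : w ∘L adjoint w = p),
      H160.St.Canonical (W2.starIsoOf θ w hw h1 h2)) ∨
    ∀ η, (∀ g, pi1 (cf_of_iso θ hΓ hp) g η = η) →
      ⟪η, xi (fun g => θ.toFun (H160.St.u g))⟫_ℂ = 0 :=
  dichL hΓ hΛ hp θ fun θ' h => ⟨Q, hQ, by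
    have h1 := icc_soft hΓ θ' h hQ hgen 1 1
    simp only [one_mul, mul_one] at h1
    exact h1⟩

/-- (c) all ICC groups: canonical, or the infimum of the fourth power sums is zero. -/
theorem dichI (hΓ : ∀ g : Γ, g ≠ 1 → Set.Infinite {y : Γ | ∃ h, y = h * g * h⁻¹})
    (hΛ : ∀ g : Λ, g ≠ 1 → Set.Infinite {y : Λ | ∃ h, y = h * g * h⁻¹})
    (hp : St.IsProj p) (θ : St.CornerIso Γ Λ n p) :
    (∃ (w : Ell2 Λ →L[ℂ] Ell2 (Fin n × Λ)) (hw : ∀ x v, w (rho x v) = rt (Fin n) x (w v))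
      (h1 : adjoint w ∘L w = 1) (h2 : w ∘L adjoint w = p),
      H160.St.Canonical (W2.starIsoOf θ w hw h1 h2)) ∨
    ∀ c : ℝ, 0 < c → ∃ g, f4 (θ.toFun (H160.St.u g)) < c := by
  have hU := cf_of_iso θ hΓ hp
  rcases cases3 hΓ hΛ hp θ with h | ⟨w, hw, hw1, hw2, hcan⟩ | h
  · exact Or.inl h
  · right
    intro c hc
    have hwn : ‖w‖ ≤ 1 := opNorm_le_bound _ zero_le_one fun v => by
      rw [one_mul]
      exact (norm_of_adj_comp hw1 v).le
    obtain ⟨C, hC0, hC⟩ := One.f4_le hw hwn (half_pos hc)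
    set θ' := W2.starIsoOf θ w hw hw1 hw2 with hθ'
    have hF := frame_of_iso hΓ (toAlg θ')
    obtain ⟨g, hg⟩ := inf_coeff (pr_adj hF) (orth_of_not_canonical hΓ θ' hcan)
      (c / (2 * (C + 1))) (by positivity)
    rw [← fourth_coeff θ' hF, fourth_star θ hw hw1 hw2] at hg
    refine ⟨g, ?_⟩
    have e1 : θ.toFun (H160.St.u 1) = p := ci_one θ hp
    have hUn : ‖θ.toFun (H160.St.u g)‖ ≤ 1 := opNorm_le_bound _ zero_le_one fun v => by
      rw [one_mul]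
      exact norm_le_of_rep (fun g => θ.toFun (H160.St.u g)) hU.mul hU.adj g v
    have hwa : ‖adjoint w‖ ≤ 1 := by
      rw [LinearIsometryEquiv.norm_map]; exact hwn
    have han : ‖adjoint w ∘L θ.toFun (H160.St.u g) ∘L w‖ ≤ 1 := by
      calc ‖adjoint w ∘L θ.toFun (H160.St.u g) ∘L w‖ ≤
            ‖adjoint w‖ * (‖θ.toFun (H160.St.u g)‖ * ‖w‖) :=
            (opNorm_comp_le _ _).trans
              (mul_le_mul_of_nonneg_left (opNorm_comp_le _ _) (norm_nonneg _))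
        _ ≤ 1 * (1 * 1) := by gcongr
        _ = 1 := by norm_num
    have har : ∀ s v, (adjoint w ∘L θ.toFun (H160.St.u g) ∘L w) (rho s v) =
        rho s ((adjoint w ∘L θ.toFun (H160.St.u g) ∘L w) v) := by
      intro s v
      change adjoint w (θ.toFun (H160.St.u g) (w (rho s v))) =
        rho s (adjoint w (θ.toFun (H160.St.u g) (w v)))
      rw [hw, hU.hm g, One.adj_rt hw]
    have hUw : w ∘L (adjoint w ∘L θ.toFun (H160.St.u g) ∘L w) ∘L adjoint w =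
        θ.toFun (H160.St.u g) := by
      have h1 : w ∘L (adjoint w ∘L θ.toFun (H160.St.u g) ∘L w) ∘L adjoint w =
          (w ∘L adjoint w) ∘L θ.toFun (H160.St.u g) ∘L (w ∘L adjoint w) := rfl
      have h2 : p ∘L θ.toFun (H160.St.u g) = θ.toFun (H160.St.u g) :=
        (θ.map_mem _ (inL_u g)).2.1
      have h3 : θ.toFun (H160.St.u g) ∘L p = θ.toFun (H160.St.u g) :=
        (θ.map_mem _ (inL_u g)).2.2
      rw [h1, hw2, h3, h2]
    have h6 := hC (adjoint w ∘L θ.toFun (H160.St.u g) ∘L w) har han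
    rw [hUw] at h6
    have h7 : C * (∑' z, ‖((adjoint w ∘L θ.toFun (H160.St.u g) ∘L w) (dl 1)) z‖ ^ 4) < c / 2 := by
      have h8 : 0 ≤ ∑' z, ‖((adjoint w ∘L θ.toFun (H160.St.u g) ∘L w) (dl 1)) z‖ ^ 4 :=
        tsum_nonneg fun _ => by positivity
      calc _ ≤ (C + 1) *
            (∑' z, ‖((adjoint w ∘L θ.toFun (H160.St.u g) ∘L w) (dl 1)) z‖ ^ 4) := by nlinarith
        _ < (C + 1) * (c / (2 * (C + 1))) := by gcongr
        _ = c / 2 := by field_simp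
    linarith
  · right
    intro c hc
    obtain ⟨g, hg⟩ := inf_coeff (pi1_adj hU) h c hc
    refine ⟨g, ?_⟩
    rw [coeff1 hU, Complex.ofReal_re] at hg
    exact hg

end dich

end Vale.Agent.P092.H605.Dich

namespace Vale.Agent.P092.H605

open Vale.Agent.P092.H160 Vale.Agent.P092.H885

/-- Canonical, or the infimum of the fourth power sums is zero; all ICC groups. -/
theorem dichI {Γ Λ : Type} [Group Γ] [Group Λ] {n : ℕ} {p : H160.St.Op (Fin n × Λ)}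
    (hΓ : ∀ g : Γ, g ≠ 1 → Set.Infinite {y : Γ | ∃ h, y = h * g * h⁻¹})
    (hΛ : ∀ g : Λ, g ≠ 1 → Set.Infinite {y : Λ | ∃ h, y = h * g * h⁻¹})
    (hp : St.IsProj p) (θ : St.CornerIso Γ Λ n p) :
    StCan θ ∨ ∀ c : ℝ, 0 < c → ∃ g, f4 (θ.toFun (H160.St.u g)) < c := by
  rcases Dich.dichI hΓ hΛ hp θ with ⟨w, hw, h1, h2, hc⟩ | h
  · exact Or.inl (stCan_of_canonical θ hw h1 h2 hc)
  · exact Or.inr h

end Vale.Agent.P092.H605
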