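import Vale.Agent.P092.H605.Dich

/-!
P092, stable isomorphisms: for a canonical isomorphism onto a corner the trace of the projection is
one, and the fourth power sums are bounded below.
-/

set_option linter.all false

open scoped InnerProductSpace
open Filter Topology ContinuousLinearMap

namespace Vale.Agent.P092.H605

open Vale.Agent.P092.H160 Vale.Agent.P092.H885

section low

variable {I Λ : Type} [Group Λ] [Fintype I]

omit [Fintype I] in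
theorem w_dl {w : Ell2 Λ →L[ℂ] Ell2 (I × Λ)} (hw : ∀ x v, w (rho x v) = rt I x (w v)) (x : Λ) :
    w (dl x) = rt I x⁻¹ (w (dl 1)) := by
  rw [dl_eq_rho, hw]

/-- the trace of the range projection of an equivariant isometry -/
theorem TR_range {w : Ell2 Λ →L[ℂ] Ell2 (I × Λ)} (hw : ∀ x v, w (rho x v) = rt I x (w v))
    (h1 : adjoint w ∘L w = 1) : TR (w ∘L adjoint w) = 1 := by
  have e1 : ∀ i : I, adjoint w (dl (i, 1)) = cj (iv Λ (sl (w (dl 1)) i)) := by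
    intro i
    apply ext_inner_dl
    intro x
    rw [← inner_dl, adjoint_inner_right, w_dl hw, inner_dl_right, rt_apply, one_mul, cj_apply,
      iv_apply, sl_apply]
  have e2 : ∀ i : I, ⟪(dl (i, 1) : Ell2 (I × Λ)), (w ∘L adjoint w) (dl (i, 1))⟫_ℂ =
      ((‖sl (w (dl 1)) i‖ ^ 2 : ℝ) : ℂ) := by
    intro i
    rw [comp_apply, ← adjoint_inner_left, e1, inner_cj, inner_iv, inner_self_eq_norm_sq_to_K]
    push_cast
    rfl
  have e3 : ∑ i, ‖sl (w (dl 1)) i‖ ^ 2 = ‖w (dl 1)‖ ^ 2 := by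
    have h2 := hasSum_sl (w (dl 1))
    exact (hasSum_fintype _).unique h2
  have e4 : ‖w (dl 1)‖ = 1 := by
    rw [norm_of_adj_comp h1, norm_dl]
  unfold TR
  rw [Finset.sum_congr rfl fun i _ => e2 i, ← Complex.ofReal_sum, e3, e4]
  norm_num

theorem inner_fin_le' {V : Ell2 (I × Λ) →L[ℂ] Ell2 (I × Λ)} (hV : Hm V) {μ : ℝ} (hμ0 : 0 ≤ μ)
    (hμ : ∀ j z, ‖(V (dl (j, 1))) z‖ ≤ μ) {c : I × Λ → ℂ} (hc : ∀ x, ‖c x‖ ≤ 1)
    (t : Finset (I × Λ)) (g : Λ) :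
    ‖⟪rt I g (∑ x ∈ t, c x • (dl x : Ell2 (I × Λ))), V (∑ y ∈ t, c y • (dl y : Ell2 (I × Λ)))⟫_ℂ‖ ≤
      (t.card : ℝ) ^ 2 * μ := by
  rw [map_sum, map_sum, sum_inner]
  refine (norm_sum_le _ _).trans ?_
  have h1 : ∀ x ∈ t, ‖⟪rt I g (c x • (dl x : Ell2 (I × Λ))),
      ∑ y ∈ t, V (c y • (dl y : Ell2 (I × Λ)))⟫_ℂ‖ ≤ (t.card : ℝ) * μ := by
    rintro ⟨i, x⟩ _
    rw [inner_sum]
    refine (norm_sum_le _ _).trans ?_
    have h2 : ∀ y ∈ t, ‖⟪rt I g (c (i, x) • (dl (i, x) : Ell2 (I × Λ))),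
        V (c y • (dl y : Ell2 (I × Λ)))⟫_ℂ‖ ≤ μ := by
      rintro ⟨j, y⟩ _
      rw [map_smul, map_smul, inner_smul_left, inner_smul_right, rt_dl, hV.dl, inner_dl,
        rt_apply, norm_mul, norm_mul, RCLike.norm_conj]
      calc ‖c (i, x)‖ * (‖c (j, y)‖ * ‖(V (dl (j, 1))) (i, x * g⁻¹ * y⁻¹)‖) ≤ 1 * (1 * μ) := by
            gcongr
            · exact hc _
            · exact hc _
            · exact hμ _ _
        _ = μ := by ring
    calc _ ≤ ∑ y ∈ t, μ := Finset.sum_le_sum h2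
      _ = _ := by rw [Finset.sum_const, nsmul_eq_mul]
  calc _ ≤ ∑ x ∈ t, (t.card : ℝ) * μ := Finset.sum_le_sum h1
    _ = _ := by rw [Finset.sum_const, nsmul_eq_mul]; ring

/-- The fourth power sums of `w λ(s) w*` are bounded below. -/
theorem low_aux {w : Ell2 Λ →L[ℂ] Ell2 (I × Λ)} (hw : ∀ x v, w (rho x v) = rt I x (w v))
    (h1 : adjoint w ∘L w = 1) : ∃ c : ℝ, 0 < c ∧ ∀ s : Λ, c ≤ f4 (w ∘L lam s ∘L adjoint w) := by
  classical
  have hv1 : ‖w (dl 1)‖ = 1 := by rw [norm_of_adj_comp h1, norm_dl]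
  have h2 := hasSum_dl (w (dl 1))
  have h3 := h2.eventually (Metric.closedBall_mem_nhds _ (show (0 : ℝ) < 1 / 4 by norm_num))
  obtain ⟨t, ht⟩ := h3.exists
  set v := w (dl 1) with hv
  set f := ∑ x ∈ t, v x • (dl x : Ell2 (I × Λ)) with hf
  have htf : ‖v - f‖ ≤ 1 / 4 := by
    have h4 : dist f v ≤ 1 / 4 := ht
    rwa [dist_comm, dist_eq_norm] at h4
  have hfn : ‖f‖ ≤ 5 / 4 := by
    have : f = v - (v - f) := by abel
    rw [this]
    exact (norm_sub_le _ _).trans (by linarith)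
  set K : ℝ := (t.card : ℝ) ^ 2 with hK
  have hK0 : 0 ≤ K := by positivity
  refine ⟨(1 / (4 * (K + 1))) ^ 4, by positivity, fun s => ?_⟩
  set V := w ∘L lam s ∘L adjoint w with hV
  have hwn : ∀ u, ‖w u‖ = ‖u‖ := norm_of_adj_comp h1
  have hVm : Hm V := by
    intro x u
    change w (lam s (adjoint w (rt I x u))) = rt I x (w (lam s (adjoint w u)))
    rw [One.adj_rt hw, ← hw]
    have h4 := rho_lam x s
    exact congrArg (fun T : Ell2 Λ →L[ℂ] Ell2 Λ => w (T (adjoint w u))) h4.symm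
  have hVn : ∀ u, ‖V u‖ ≤ ‖u‖ := by
    intro u
    change ‖w (lam s (adjoint w u))‖ ≤ ‖u‖
    rw [hwn, norm_lam]
    have h4 : ‖adjoint w‖ ≤ 1 := by
      rw [LinearIsometryEquiv.norm_map]
      exact opNorm_le_bound _ zero_le_one fun u => by rw [one_mul, hwn]
    simpa using (adjoint w).le_of_opNorm_le h4 u
  set φ := f4 V with hφ
  have hφ0 : 0 ≤ φ := One.f4_nonneg V
  set r := Real.sqrt φ with hr
  have hr0 : 0 ≤ r := Real.sqrt_nonneg _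
  have hr2 : r ^ 2 = φ := Real.sq_sqrt hφ0
  set μ := Real.sqrt r with hμ'
  have hμ0 : 0 ≤ μ := Real.sqrt_nonneg _
  have hμ2 : μ ^ 2 = r := Real.sq_sqrt hr0
  have hμ : ∀ j z, ‖(V (dl (j, 1))) z‖ ≤ μ := by
    intro j z
    rw [hμ', Real.le_sqrt (norm_nonneg _) hr0, hr, Real.le_sqrt (by positivity) hφ0]
    have h4 : ‖(V (dl (j, 1))) z‖ ^ 4 ≤ ∑' z, ‖(V (dl (j, 1))) z‖ ^ 4 :=
      (summable_four' (V (dl (j, 1)))).le_tsum z fun _ _ => by positivity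
    have h5 : ∑' z, ‖(V (dl (j, 1))) z‖ ^ 4 ≤ φ := by
      rw [hφ]
      unfold f4
      exact Finset.single_le_sum (f := fun j => ∑' z, ‖(V (dl (j, 1))) z‖ ^ 4)
        (fun _ _ => tsum_nonneg fun _ => by positivity) (Finset.mem_univ j)
    calc (‖(V (dl (j, 1))) z‖ ^ 2) ^ 2 = ‖(V (dl (j, 1))) z‖ ^ 4 := by ring
      _ ≤ φ := h4.trans h5
  -- the coefficient which is equal to one
  have hone : ⟪rt I s⁻¹ v, V v⟫_ℂ = 1 := by
    have h4 : V v = w (dl s) := by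
      change w (lam s (adjoint w (w (dl 1)))) = w (dl s)
      have h5 : adjoint w (w (dl 1)) = dl 1 :=
        congrArg (fun T : Ell2 Λ →L[ℂ] Ell2 Λ => T (dl 1)) h1
      rw [h5, lam_dl, mul_one]
    have h6 : rt I s⁻¹ v = w (dl s) := (w_dl hw s).symm
    rw [h4, h6, ← adjoint_inner_right]
    have h5 : adjoint w (w (dl s)) = dl s :=
      congrArg (fun T : Ell2 Λ →L[ℂ] Ell2 Λ => T (dl s)) h1
    rw [h5, inner_dl, dl_self]
  have e1 : ⟪rt I s⁻¹ v, V v⟫_ℂ = ⟪rt I s⁻¹ (v - f), V v⟫_ℂ + ⟪rt I s⁻¹ f, V (v - f)⟫_ℂ +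
      ⟪rt I s⁻¹ f, V f⟫_ℂ := by
    rw [map_sub, map_sub, inner_sub_left, inner_sub_right]
    ring
  have b1 : ‖⟪rt I s⁻¹ (v - f), V v⟫_ℂ‖ ≤ 1 / 4 := by
    refine (norm_inner_le_norm _ _).trans ?_
    rw [norm_rt]
    calc ‖v - f‖ * ‖V v‖ ≤ 1 / 4 * 1 := by
          gcongr
          exact (hVn v).trans hv1.le
      _ = 1 / 4 := mul_one _
  have b2 : ‖⟪rt I s⁻¹ f, V (v - f)⟫_ℂ‖ ≤ 5 / 16 := by
    refine (norm_inner_le_norm _ _).trans ?_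
    rw [norm_rt]
    calc ‖f‖ * ‖V (v - f)‖ ≤ 5 / 4 * (1 / 4) := by
          gcongr
          exact (hVn _).trans htf
      _ = 5 / 16 := by norm_num
  have b3 : ‖⟪rt I s⁻¹ f, V f⟫_ℂ‖ ≤ K * μ :=
    inner_fin_le' hVm hμ0 hμ (fun x => (norm_coord_le v x).trans hv1.le) t s⁻¹
  have b4 : (1 : ℝ) ≤ 1 / 4 + 5 / 16 + K * μ := by
    have h4 : ‖⟪rt I s⁻¹ v, V v⟫_ℂ‖ = 1 := by rw [hone]; norm_num
    calc (1 : ℝ) = ‖⟪rt I s⁻¹ v, V v⟫_ℂ‖ := h4.symm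
      _ = ‖⟪rt I s⁻¹ (v - f), V v⟫_ℂ + ⟪rt I s⁻¹ f, V (v - f)⟫_ℂ + ⟪rt I s⁻¹ f, V f⟫_ℂ‖ := by
          rw [e1]
      _ ≤ ‖⟪rt I s⁻¹ (v - f), V v⟫_ℂ‖ + ‖⟪rt I s⁻¹ f, V (v - f)⟫_ℂ‖ + ‖⟪rt I s⁻¹ f, V f⟫_ℂ‖ :=
          norm_add₃_le
      _ ≤ _ := by gcongr
  have b5 : 1 / (4 * (K + 1)) ≤ μ := by
    rw [div_le_iff₀ (by positivity)]
    nlinarith
  calc (1 / (4 * (K + 1))) ^ 4 ≤ μ ^ 4 := pow_le_pow_left₀ (by positivity) b5 4
    _ = (μ ^ 2) ^ 2 := by ring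
    _ = φ := by rw [hμ2, hr2]

end low

section stcan

variable {Γ Λ : Type} [Group Γ] [Group Λ] {n : ℕ} {p : H160.St.Op (Fin n × Λ)}

/-- A canonical isomorphism onto a corner exists only if the trace of the projection is one. -/
theorem trM_of_stCan {θ : St.CornerIso Γ Λ n p} (h : StCan θ) : St.trM p = 1 := by
  obtain ⟨w, δ, χ, hw, h1, h2, -⟩ := h
  rw [trM_eq, ← h2]
  exact TR_range hw h1

/-- For a canonical isomorphism the fourth power sums are bounded below. -/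
theorem low_of_stCan {θ : St.CornerIso Γ Λ n p} (h : StCan θ) :
    ∃ c : ℝ, 0 < c ∧ ∀ g : Γ, c ≤ St.fourM (θ.toFun (H160.St.u g)) := by
  obtain ⟨w, δ, χ, hw, h1, h2, h3⟩ := h
  obtain ⟨c, hc, hcs⟩ := low_aux hw h1
  refine ⟨c, hc, fun g => ?_⟩
  rw [fourM_eq (θ.map_mem _ (inL_u g)).1, h3 g]
  refine (hcs (δ g)).trans (le_of_eq ?_)
  unfold f4
  refine Finset.sum_congr rfl fun j _ => ?_
  congr 1
  funext z
  change _ = ‖(χ g : ℂ) * ((w ∘L lam (δ g) ∘L adjoint w) (dl (j, 1))) z‖ ^ 4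
  rw [norm_mul, Circle.norm_coe, one_mul]

end stcan

end Vale.Agent.P092.H605
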