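import Vale.Agent.P092.H605.Rp

/-!
P092, stable isomorphisms: the invariant intertwiner of minimal norm, and its absence when the
trace of the corner is not one.
-/

set_option linter.all false

open scoped InnerProductSpace
open Filter Topology ContinuousLinearMap

namespace Vale.Agent.P092.H605

open Vale.Agent.P092.H160 Vale.Agent.P092.H885

theorem norm_le_of_rep {G H : Type} [Group G] [NormedAddCommGroup H] [InnerProductSpace ℂ H]
    [CompleteSpace H] (A : G → (H →L[ℂ] H)) (hm : ∀ g h, A (g * h) = A g * A h)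
    (ha : ∀ g, adjoint (A g) = A g⁻¹) (g : G) (v : H) : ‖A g v‖ ≤ ‖v‖ := by
  have key : ∀ g : G, ‖A g v‖ ^ 2 ≤ ‖v‖ * ‖A 1 v‖ := by
    intro g
    have h1 : ⟪A g v, A g v⟫_ℂ = ⟪v, A 1 v⟫_ℂ := by
      rw [← adjoint_inner_right, ha, ← mul_ap, ← hm, inv_mul_cancel]
    have h2 : ((‖A g v‖ ^ 2 : ℝ) : ℂ) = ⟪v, A 1 v⟫_ℂ := by
      rw [← h1, inner_self_eq_norm_sq_to_K]
      push_cast
      rfl
    have h3 : ‖A g v‖ ^ 2 = (⟪v, A 1 v⟫_ℂ).re := by
      rw [← h2, Complex.ofReal_re]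
    rw [h3]
    exact (Complex.re_le_norm _).trans (norm_inner_le_norm _ _)
  have h1 : ‖A 1 v‖ ≤ ‖v‖ := by
    have h2 := key 1
    by_contra h
    push Not at h
    nlinarith [norm_nonneg v]
  have h2 := key g
  have h3 : ‖A g v‖ ^ 2 ≤ ‖v‖ ^ 2 := by nlinarith [norm_nonneg v]
  exact (pow_le_pow_iff_left₀ (norm_nonneg _) (norm_nonneg _) two_ne_zero).mp h3

section closed

variable {I J K : Type} [Group K] [Fintype I]

/-- vectors of equivariant contractions -/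
def Ctr (I J K : Type) [Group K] [Fintype I] : Set (Ell2 (I × (J × K))) :=
  {v | ∃ X : Ell2 (I × K) →L[ℂ] Ell2 (J × K), Hm X ∧ ‖X‖ ≤ 1 ∧ vec X = v}

theorem cvx_ctr : Cvx (Ctr I J K) := by
  rintro _ ⟨X, hX, hX1, rfl⟩ _ ⟨Y, hY, hY1, rfl⟩ x y hx hy hxy
  refine ⟨(x : ℂ) • X + (y : ℂ) • Y, (hX.smul _).add (hY.smul _), ?_, ?_⟩
  · calc ‖(x : ℂ) • X + (y : ℂ) • Y‖ ≤ ‖(x : ℂ) • X‖ + ‖(y : ℂ) • Y‖ := norm_add_le _ _
      _ = x * ‖X‖ + y * ‖Y‖ := by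
          rw [norm_smul, norm_smul, Complex.norm_real, Complex.norm_real, Real.norm_of_nonneg hx,
            Real.norm_of_nonneg hy]
      _ ≤ x * 1 + y * 1 := by gcongr
      _ = 1 := by linarith
  · rw [vec_add, vec_smul, vec_smul]

theorem closed_ctr : IsClosed (Ctr I J K) := by
  rw [← isSeqClosed_iff_isClosed]
  intro x ω hx hlim
  choose T hT hT1 hTx using hx
  have hTs : ∀ (i : I) (s : K) n, T n (dl (i, s)) = rt J s⁻¹ (slL (J × K) i (x n)) := by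
    intro i s n
    rw [(hT n).dl, slL_apply]
    congr 1
    apply ext_inner_dl
    intro z
    rw [sl_apply, ← hTx, vec_apply]
  have hlims : ∀ (i : I) (s : K), Tendsto (fun n => T n (dl (i, s))) atTop
      (𝓝 (rt J s⁻¹ (slL (J × K) i ω))) := by
    intro i s
    simp only [hTs]
    exact ((rt J s⁻¹).continuous.tendsto _).comp (((slL (J × K) i).continuous.tendsto ω).comp hlim)
  have hb : Bes 1 (fun p : I × K => rt J p.2⁻¹ (slL (J × K) p.1 ω)) := by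
    intro s v
    have h1 : Tendsto (fun n => ∑ t ∈ s, ‖⟪T n (dl t), v⟫_ℂ‖ ^ 2) atTop
        (𝓝 (∑ t ∈ s, ‖⟪rt J t.2⁻¹ (slL (J × K) t.1 ω), v⟫_ℂ‖ ^ 2)) :=
      tendsto_finsetSum s fun t _ => (((hlims t.1 t.2).inner tendsto_const_nhds).norm).pow 2
    refine le_of_tendsto h1 (Eventually.of_forall fun n => ?_)
    exact ((bes_of_op (T n)).mono (norm_nonneg _) (hT1 n)) s v
  have hdl : ∀ (i : I) (s : K), opOf hb (dl (i, s)) = rt J s⁻¹ (slL (J × K) i ω) :=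
    fun i s => opOf_dl hb (i, s)
  refine ⟨opOf hb, fun s v => ?_, ?_, ?_⟩
  · have h1 : opOf hb ∘L rt I s = rt J s ∘L opOf hb := by
      apply op_ext
      rintro ⟨i, t⟩
      rw [comp_apply, comp_apply, rt_dl, hdl, hdl, mul_inv_rev, inv_inv, rt_mul]
    exact congrArg (fun L : Ell2 (I × K) →L[ℂ] Ell2 (J × K) => L v) h1
  · simpa using norm_opOf_le hb
  · apply ext_inner_dl
    rintro ⟨i, z⟩
    rw [vec_apply, hdl, inv_one, rt_one]
    rfl

theorem hull_map {F : Type} [NormedAddCommGroup F] [NormedSpace ℂ F] {S : Set F}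
    (L : F →L[ℂ] F) (h : ∀ v ∈ S, L v ∈ hull S) {v : F} (hv : v ∈ hull S) : L v ∈ hull S := by
  have hcv : Cvx {v : F | L v ∈ hull S} := by
    intro x hx y hy a b ha hb hab
    change L ((a : ℂ) • x + (b : ℂ) • y) ∈ hull S
    rw [map_add, map_smul, map_smul]
    exact cvx_hull _ _ hx _ hy a b ha hb hab
  exact hull_subset hcv h hv

end closed

section min

variable {I Γ Λ : Type} [Group Γ] [Group Λ] [Fintype I]
  {U : Γ → Ell2 (I × Λ) →L[ℂ] Ell2 (I × Λ)}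

theorem Del_U_norm (hU : CF U) (g : Γ) (v : Ell2 (I × K3 Λ)) : ‖Del (U g) v‖ ≤ ‖v‖ :=
  norm_le_of_rep (fun g => Del (U g)) (fun g h => by
    change Del (U (g * h)) = _
    rw [hU.mul, Del_mul]) (fun g => by
    change adjoint (Del (U g)) = Del (U g⁻¹)
    rw [Del_adj, hU.adj]) g v

/-- Without invariant intertwiners zero is in the closed convex hull of the orbit. -/
theorem zero_mem_hull (hU : CF U)
    (hX : ∀ X : Ell2 (I × K3 Λ) →L[ℂ] Ell2 (J3 I × K3 Λ), Hm X →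
      (∀ g, AA U g ∘L X ∘L Del (U g⁻¹) = X) → X = 0) :
    (0 : Ell2 (I × (J3 I × K3 Λ))) ∈
      closure (hull (Set.range fun g : Γ => pi0 U g (vec (J0 I Λ)))) := by
  set om : Γ → Ell2 (I × (J3 I × K3 Λ)) := fun g => pi0 U g (vec (J0 I Λ)) with hom
  set C := closure (hull (Set.range om)) with hC
  have hCc : C ⊆ Ctr I (J3 I) (K3 Λ) := by
    refine closure_minimal (hull_subset cvx_ctr ?_) closed_ctr
    rintro _ ⟨g, rfl⟩
    refine ⟨AA U g ∘L J0 I Λ ∘L Del (U g⁻¹), (AA_hm hU g).comp (J0_hm.comp (Del_hm (hU.hm _))),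
      ?_, (pi0_vec hU g J0_hm).symm⟩
    refine opNorm_le_bound _ zero_le_one fun v => ?_
    rw [one_mul]
    calc ‖AA U g (J0 I Λ (Del (U g⁻¹) v))‖ ≤ ‖J0 I Λ (Del (U g⁻¹) v)‖ :=
          norm_le_of_rep (AA U) (AA_mul hU) (AA_adj hU) g _
      _ = ‖Del (U g⁻¹) v‖ := J0_norm _
      _ ≤ ‖v‖ := Del_U_norm hU _ _
  have hinv : ∀ g, ∀ v ∈ C, pi0 U g v ∈ C := by
    intro g v hv
    refine map_mem_closure (pi0 U g).continuous hv fun w hw => hull_map _ ?_ hw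
    rintro _ ⟨h, rfl⟩
    refine subset_hull _ ⟨g * h, ?_⟩
    change pi0 U (g * h) _ = pi0 U g (pi0 U h _)
    rw [pi0_mul hU]
    rfl
  have hne : C.Nonempty := ⟨om 1, subset_closure (subset_hull _ ⟨1, rfl⟩)⟩
  obtain ⟨ω, hω, hmin, huniq⟩ := exists_min_norm hne isClosed_closure (cvx_hull _).closure
  have hfix : ∀ g, pi0 U g ω = ω := fun g =>
    huniq _ (hinv g _ hω) (norm_le_of_rep (pi0 U) (pi0_mul hU) (pi0_adj hU) g ω)
  obtain ⟨X, hXm, -, hXω⟩ := hCc hω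
  have hX0 : X = 0 := by
    refine hX X hXm fun g => ?_
    refine vec_inj ((AA_hm hU g).comp (hXm.comp (Del_hm (hU.hm _)))) hXm ?_
    rw [← pi0_vec hU g hXm, hXω, hfix]
  have hω0 : ω = 0 := by
    rw [← hXω, hX0]
    apply ext_inner_dl
    rintro ⟨i, z⟩
    rw [vec_apply]
    rfl
  rw [hω0] at hω
  exact hω

/-- Without invariant intertwiners the base vector is orthogonal to the invariant vectors. -/
theorem min_arg (hU : CF U)
    (hX : ∀ X : Ell2 (I × K3 Λ) →L[ℂ] Ell2 (J3 I × K3 Λ), Hm X →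
      (∀ g, AA U g ∘L X ∘L Del (U g⁻¹) = X) → X = 0)
    (η : Ell2 (I × (J3 I × K3 Λ))) (hη : ∀ g, pi1 hU g η = η) : ⟪η, xi U⟫_ℂ = 0 := by
  have hcl : IsClosed {v : Ell2 (I × (J3 I × K3 Λ)) | ⟪η, v⟫_ℂ = ⟪η, xi U⟫_ℂ} :=
    isClosed_eq (by fun_prop) continuous_const
  have hcv : Cvx {v : Ell2 (I × (J3 I × K3 Λ)) | ⟪η, v⟫_ℂ = ⟪η, xi U⟫_ℂ} := by
    intro x hx y hy a b ha hb hab
    change ⟪η, (a : ℂ) • x + (b : ℂ) • y⟫_ℂ = _
    have hx' : ⟪η, x⟫_ℂ = ⟪η, xi U⟫_ℂ := hx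
    have hy' : ⟪η, y⟫_ℂ = ⟪η, xi U⟫_ℂ := hy
    rw [inner_add_right, inner_smul_right, inner_smul_right, hx', hy', ← add_mul,
      ← Complex.ofReal_add, hab, Complex.ofReal_one, one_mul]
  have h1 : (0 : Ell2 (I × (J3 I × K3 Λ))) ∈
      {v : Ell2 (I × (J3 I × K3 Λ)) | ⟪η, v⟫_ℂ = ⟪η, xi U⟫_ℂ} := by
    refine closure_minimal (hull_subset hcv ?_) hcl (zero_mem_hull hU hX)
    rintro _ ⟨g, rfl⟩
    change ⟪η, pi0 U g (vec (J0 I Λ))⟫_ℂ = _
    have h2 := hη g⁻¹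
    rw [← pi1_xi hU, ← adjoint_inner_left, pi1_adj hU, h2]
  have h2 : ⟪η, (0 : Ell2 (I × (J3 I × K3 Λ)))⟫_ℂ = ⟪η, xi U⟫_ℂ := h1
  rw [← h2, inner_zero_right]

/-- Without invariant intertwiners the fourth power sums are not bounded below. -/
theorem inf_f4 (hU : CF U)
    (hX : ∀ X : Ell2 (I × K3 Λ) →L[ℂ] Ell2 (J3 I × K3 Λ), Hm X →
      (∀ g, AA U g ∘L X ∘L Del (U g⁻¹) = X) → X = 0) {c : ℝ} (hc : 0 < c) :
    ∃ g, f4 (U g) < c := by
  by_contra hcon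
  push Not at hcon
  have hcl : IsClosed {v : Ell2 (I × (J3 I × K3 Λ)) | c ≤ (⟪xi U, v⟫_ℂ).re} :=
    isClosed_le continuous_const (Complex.continuous_re.comp (by fun_prop))
  have hcv : Cvx {v : Ell2 (I × (J3 I × K3 Λ)) | c ≤ (⟪xi U, v⟫_ℂ).re} := by
    intro x hx y hy a b ha hb hab
    change c ≤ (⟪xi U, (a : ℂ) • x + (b : ℂ) • y⟫_ℂ).re
    have hx' : c ≤ (⟪xi U, x⟫_ℂ).re := hx
    have hy' : c ≤ (⟪xi U, y⟫_ℂ).re := hy
    rw [inner_add_right, inner_smul_right, inner_smul_right, Complex.add_re,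
      Complex.re_ofReal_mul, Complex.re_ofReal_mul]
    calc c = a * c + b * c := by rw [← add_mul, hab, one_mul]
      _ ≤ _ := by gcongr
  have h1 : (0 : Ell2 (I × (J3 I × K3 Λ))) ∈
      {v : Ell2 (I × (J3 I × K3 Λ)) | c ≤ (⟪xi U, v⟫_ℂ).re} := by
    refine closure_minimal (hull_subset hcv ?_) hcl (zero_mem_hull hU hX)
    rintro _ ⟨g, rfl⟩
    change c ≤ (⟪xi U, pi0 U g (vec (J0 I Λ))⟫_ℂ).re
    rw [← pi1_xi hU, coeff1, Complex.ofReal_re]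
    exact hcon g
  have h2 : c ≤ (⟪xi U, (0 : Ell2 (I × (J3 I × K3 Λ)))⟫_ℂ).re := h1
  rw [inner_zero_right, Complex.zero_re] at h2
  linarith

theorem TR_one_eq (hU : CF U) : TR (U 1) = (hn (U 1) : ℂ) := by
  have h1 := TR_mul (U 1) (U 1)
  rw [hU.adj, inv_one, ← hU.mul, mul_one, hs_self] at h1
  exact h1

theorem TR_smul {K : Type} [Group K] (c : ℂ) (A : Ell2 (I × K) →L[ℂ] Ell2 (I × K)) :
    TR (c • A) = c * TR A := by
  rw [TR_eq_hs, TR_eq_hs, hs_smul]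

theorem itw_alg (hU : CF U) (X : Ell2 (I × K3 Λ) →L[ℂ] Ell2 (J3 I × K3 Λ))
    (hinv : ∀ g, AA U g ∘L X ∘L Del (U g⁻¹) = X) :
    X ∘L Del (U 1) = X ∧ AA U 1 ∘L X = X ∧ (∀ g, AA U g ∘L X = X ∘L Del (U g)) := by
  have hDm : ∀ g h, Del (U g) ∘L Del (U h) = Del (U (g * h)) := fun g h => by
    rw [hU.mul, Del_mul]; rfl
  have hAm : ∀ g h, AA U g ∘L AA U h = AA U (g * h) := fun g h => (AA_mul hU g h).symm
  have h1 : AA U 1 ∘L X ∘L Del (U 1) = X := by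
    have := hinv 1
    rwa [inv_one] at this
  have hr : X ∘L Del (U 1) = X := by
    conv_lhs => rw [← h1]
    rw [comp_assoc, comp_assoc, hDm, mul_one, h1]
  have hl : AA U 1 ∘L X = X := by
    conv_lhs => rw [← h1]
    rw [← comp_assoc, hAm, mul_one, h1]
  refine ⟨hr, hl, fun g => ?_⟩
  conv_rhs => rw [← hinv g]
  rw [comp_assoc, comp_assoc, hDm, inv_mul_cancel, hr]

theorem itw_adj (hU : CF U) (X : Ell2 (I × K3 Λ) →L[ℂ] Ell2 (J3 I × K3 Λ))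
    (hr : X ∘L Del (U 1) = X) (hl : AA U 1 ∘L X = X)
    (hcm : ∀ g, AA U g ∘L X = X ∘L Del (U g)) :
    (∀ g, Del (U g) ∘L adjoint X = adjoint X ∘L AA U g) ∧
    Del (U 1) ∘L adjoint X = adjoint X ∧ adjoint X ∘L AA U 1 = adjoint X := by
  have hDa : ∀ g, adjoint (Del (U g)) = Del (U g⁻¹) := fun g => by rw [Del_adj, hU.adj]
  refine ⟨fun g => ?_, ?_, ?_⟩
  · have h1 := congrArg adjoint (hcm g⁻¹)
    rw [adjoint_comp, adjoint_comp, AA_adj hU, hDa, inv_inv] at h1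
    exact h1.symm
  · have h1 := congrArg adjoint hr
    rw [adjoint_comp, hDa, inv_one] at h1
    exact h1
  · have h1 := congrArg adjoint hl
    rw [adjoint_comp, AA_adj hU, inv_one] at h1
    exact h1

theorem itw_scal (hU : CF U)
    (hI : ∀ y : Ell2 (I × K3 Λ) →L[ℂ] Ell2 (I × K3 Λ), Hm y → Del (U 1) * y = y →
      y * Del (U 1) = y → (∀ g, Del (U g) * y = y * Del (U g)) → ∃ c : ℂ, y = c • Del (U 1))
    (hII : ∀ y : Ell2 (J3 I × K3 Λ) →L[ℂ] Ell2 (J3 I × K3 Λ), Hm y → AA U 1 * y = y →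
      y * AA U 1 = y → (∀ g, AA U g * y = y * AA U g) → ∃ c : ℂ, y = c • AA U 1)
    (X : Ell2 (I × K3 Λ) →L[ℂ] Ell2 (J3 I × K3 Λ)) (hX : Hm X)
    (hr : X ∘L Del (U 1) = X) (hl : AA U 1 ∘L X = X)
    (hcm : ∀ g, AA U g ∘L X = X ∘L Del (U g)) :
    (∃ c : ℂ, adjoint X ∘L X = c • Del (U 1)) ∧ ∃ c : ℂ, X ∘L adjoint X = c • AA U 1 := by
  obtain ⟨hca, hla, hra⟩ := itw_adj hU X hr hl hcm
  constructor
  · refine hI (adjoint X ∘L X) (hX.adj.comp hX) ?_ ?_ fun g => ?_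
    · change Del (U 1) ∘L (adjoint X ∘L X) = _
      rw [← comp_assoc, hla]
    · change (adjoint X ∘L X) ∘L Del (U 1) = _
      rw [comp_assoc, hr]
    · change Del (U g) ∘L (adjoint X ∘L X) = (adjoint X ∘L X) ∘L Del (U g)
      rw [← comp_assoc, hca, comp_assoc, hcm, comp_assoc]
  · refine hII (X ∘L adjoint X) (hX.comp hX.adj) ?_ ?_ fun g => ?_
    · change AA U 1 ∘L (X ∘L adjoint X) = _
      rw [← comp_assoc, hl]
    · change (X ∘L adjoint X) ∘L AA U 1 = _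
      rw [comp_assoc, hra]
    · change AA U g ∘L (X ∘L adjoint X) = (X ∘L adjoint X) ∘L AA U g
      rw [← comp_assoc, hcm, comp_assoc, hca, comp_assoc]

theorem itw_eq (X : Ell2 (I × K3 Λ) →L[ℂ] Ell2 (J3 I × K3 Λ)) (hX0 : X ≠ 0)
    (hr : X ∘L Del (U 1) = X) (hl : AA U 1 ∘L X = X) {c1 c2 : ℂ}
    (h1 : adjoint X ∘L X = c1 • Del (U 1)) (h2 : X ∘L adjoint X = c2 • AA U 1) : c1 = c2 := by
  have e1 : X ∘L (adjoint X ∘L X) = c1 • X := by
    rw [h1]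
    ext1 v
    change X (c1 • Del (U 1) v) = c1 • X v
    rw [map_smul, ← comp_apply X, hr]
  have e2 : X ∘L (adjoint X ∘L X) = c2 • X := by
    rw [← comp_assoc, h2]
    ext1 v
    change c2 • AA U 1 (X v) = c2 • X v
    rw [← comp_apply (AA U 1), hl]
  rw [e1] at e2
  exact smul_left_injective ℂ hX0 e2

theorem TR_adj_comp {J K : Type} [Group K] [Fintype J] (X : Ell2 (I × K) →L[ℂ] Ell2 (J × K)) :
    TR (adjoint X ∘L X) = (hn X : ℂ) := by
  unfold TR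
  rw [← hs_self]
  unfold hs
  refine Finset.sum_congr rfl fun i _ => ?_
  rw [comp_apply, adjoint_inner_right]

theorem TR_comp_adj {J K : Type} [Group K] [Fintype J] {X : Ell2 (I × K) →L[ℂ] Ell2 (J × K)}
    (hX : Hm X) : TR (X ∘L adjoint X) = (hn X : ℂ) := by
  rw [← hn_adj hX]
  unfold TR
  rw [← hs_self]
  unfold hs
  refine Finset.sum_congr rfl fun i _ => ?_
  rw [comp_apply, ← adjoint_inner_left]

theorem scalar_end {s m : ℝ} {c : ℂ} (hs : 0 ≤ s) (hs0 : s ≠ 0) (hs1 : s ≠ 1) (hm : m ≠ 0)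
    (t1 : (m : ℂ) = c * s) (t2 : (m : ℂ) = c * (s * (s * s))) : False := by
  have hc0 : c ≠ 0 := fun h => by
    rw [h, zero_mul] at t1
    exact hm (by exact_mod_cast t1)
  rw [t1] at t2
  have t4 : (s : ℂ) = (s : ℂ) * ((s : ℂ) * (s : ℂ)) := mul_left_cancel₀ hc0 t2
  have t5 : s = s * (s * s) := by exact_mod_cast t4
  have hspos : 0 < s := lt_of_le_of_ne hs (Ne.symm hs0)
  have t6 : s * s = 1 := by
    have : s * 1 = s * (s * s) := by rw [mul_one]; exact t5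
    exact (mul_left_cancel₀ hs0 this).symm
  exact hs1 (by nlinarith)

/-- There is no invariant intertwiner if the trace of the corner is not one. -/
theorem no_itw (hU : CF U) (hp : TR (U 1) ≠ 0) (hs1 : TR (U 1) ≠ 1)
    (hI : ∀ y : Ell2 (I × K3 Λ) →L[ℂ] Ell2 (I × K3 Λ), Hm y → Del (U 1) * y = y →
      y * Del (U 1) = y → (∀ g, Del (U g) * y = y * Del (U g)) → ∃ c : ℂ, y = c • Del (U 1))
    (hII : ∀ y : Ell2 (J3 I × K3 Λ) →L[ℂ] Ell2 (J3 I × K3 Λ), Hm y → AA U 1 * y = y →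
      y * AA U 1 = y → (∀ g, AA U g * y = y * AA U g) → ∃ c : ℂ, y = c • AA U 1)
    (X : Ell2 (I × K3 Λ) →L[ℂ] Ell2 (J3 I × K3 Λ)) (hX : Hm X)
    (hinv : ∀ g, AA U g ∘L X ∘L Del (U g⁻¹) = X) : X = 0 := by
  obtain ⟨hr, hl, hcm⟩ := itw_alg hU X hinv
  obtain ⟨⟨c1, h1⟩, ⟨c2, h2⟩⟩ := itw_scal hU hI hII X hX hr hl hcm
  by_contra hX0
  have h3 : c1 = c2 := itw_eq X hX0 hr hl h1 h2
  have hn1 : hn X ≠ 0 := fun h => hX0 (eq_zero_of_hn hX h)
  have t1 : (hn X : ℂ) = c1 * TR (U 1) := by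
    rw [← TR_adj_comp, h1, TR_smul, TR_Del]
  have t2 : (hn X : ℂ) = c2 * TR (AA U 1) := by
    rw [← TR_comp_adj hX, h2, TR_smul]
  have t3 : TR (AA U 1) = TR (U 1) * ((starRingEnd ℂ) (TR (U 1)) * TR (U 1)) := TR_T3 _ _ _
  rw [t3] at t2
  have hs0 := TR_one_eq hU
  rw [hs0] at t1 t2 hp hs1
  rw [Complex.conj_ofReal, ← h3] at t2
  exact scalar_end (hn_nonneg _) (fun h => hp (by rw [h]; simp)) (fun h => hs1 (by rw [h]; simp))
    hn1 t1 t2

end min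

end Vale.Agent.P092.H605
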