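import Vale.Agent.P092.H160.StDefs
import Vale.Agent.P092.H885.KDefs

/-!
Definitions used in the statement on stable isomorphisms for P092: matrices over `L(G)`, corners,
`*`-isomorphisms `L(Γ) → p M_n(L(Λ)) p`, in coordinates.
-/

namespace Vale.Agent.P092.H605.Pb

open Vale.Agent.P092.H160 Vale.Agent.P092.H160.St

variable {n : ℕ} {G : Type} [Group G]

/-- `T ∈ M_n(L(G))`, where `T` acts on `ℂⁿ ⊗ ℓ²(G) = ℓ²(Fin n × G)`: the entries of `T` are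
operators `A i j ∈ L(G)`. -/
def InM (T : Op (Fin n × G)) : Prop :=
  ∃ A : Fin n → Fin n → Op G, (∀ i j, InL (A i j)) ∧
    ∀ i j s t, ip (dl (i, s)) (ap T (dl (j, t))) = ip (dl s) (ap (A i j) (dl t))

/-- `p` is a projection of `M_n(L(G))`. -/
def IsProj (p : Op (Fin n × G)) : Prop := InM p ∧ IsAdj p p ∧ mul p p = p

/-- `T ∈ p M_n(L(G)) p`. -/
def InC (p T : Op (Fin n × G)) : Prop := InM T ∧ mul p T = T ∧ mul T p = T

/-- The trace `(Tr ⊗ τ)(T) = ∑_i τ(T_ii)`. -/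
noncomputable def trM (T : Op (Fin n × G)) : ℂ := ∑ i, ip (dl (i, 1)) (ap T (dl (i, 1)))

/-- The sum of the fourth powers of all Fourier coefficients of all entries of `T`:
`∑_ij ∑_s |τ(T_ij u_s*)|⁴`; note that `τ(T_ij u_s*) = ⟨δ_s, T_ij δ_1⟩ = ⟨δ_(i,s), T δ_(j,1)⟩`. -/
noncomputable def fourM (T : Op (Fin n × G)) : ℝ :=
  ∑ i, ∑ j, ∑' s : G, ‖ip (dl (i, s)) (ap T (dl (j, 1)))‖ ^ 4

/-- A `*`-isomorphism from `L(Γ)` onto `p M_n(L(Λ)) p`. -/
structure CornerIso (Γ Λ : Type) [Group Γ] [Group Λ] (n : ℕ) (p : Op (Fin n × Λ)) where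
  /-- the map (only its values on `L(Γ)` matter) -/
  toFun : Op Γ → Op (Fin n × Λ)
  /-- the inverse map (only its values on `p M_n(L(Λ)) p` matter) -/
  invFun : Op (Fin n × Λ) → Op Γ
  map_mem : ∀ T, InL T → InC p (toFun T)
  inv_mem : ∀ T, InC p T → InL (invFun T)
  left_inv : ∀ T, InL T → invFun (toFun T) = T
  right_inv : ∀ T, InC p T → toFun (invFun T) = T
  map_add : ∀ S T, InL S → InL T → toFun (add S T) = add (toFun S) (toFun T)
  map_smul : ∀ c S T, InL S → InL T → IsSmul c S T → IsSmul c (toFun S) (toFun T)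
  map_mul : ∀ S T, InL S → InL T → toFun (mul S T) = mul (toFun S) (toFun T)
  map_adj : ∀ S T, InL S → InL T → IsAdj S T → IsAdj (toFun S) (toFun T)

/-- `θ` is canonical: `θ(u_g) = χ(g) w v_{δ(g)} w*` for a group isomorphism `δ : Γ → Λ`, a
character `χ : Γ → 𝕋` and a column `w ∈ M_{n,1}(L(Λ))` with `w* w = 1`, that is, for the entries
`θ(u_g)_ij = χ(g) w_i v_{δ(g)} w_j*`, `w_i ∈ L(Λ)`, `∑_i w_i* w_i = 1`. -/
def CanonicalM {Γ Λ : Type} [Group Γ] [Group Λ] {n : ℕ} {p : Op (Fin n × Λ)}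
    (θ : CornerIso Γ Λ n p) : Prop :=
  ∃ (δ : Γ ≃* Λ) (χ : Γ →* Circle) (w w' : Fin n → Op Λ), (∀ i, InL (w i)) ∧
    (∀ i, IsAdj (w i) (w' i)) ∧ (∀ ξ, ∑ i, ap (mul (w' i) (w i)) ξ = ξ) ∧
    ∀ g i j s t, ip (dl (i, s)) (ap (θ.toFun (u g)) (dl (j, t))) =
      χ g * ip (dl s) (ap (mul (mul (w i) (u (δ g))) (w' j)) (dl t))

end Vale.Agent.P092.H605.Pb
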