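import Vale.Agent.P092.H885.StDefs2
import Vale.Agent.P092.H160.Comm

/-!
Definitions used in the statement on stable isomorphisms for P092: matrices over `L(Λ)`, corners,
`*`-isomorphisms `L(Γ) → p M_n(L(Λ)) p`.
-/

namespace Vale.Agent.P092.H605.St

open Vale.Agent.P092.H160 Vale.Agent.P092.H160.St Vale.Agent.P092.H885

variable {n : ℕ} {G : Type}

/-- The entry `T_ij` of an operator `T` on `ℓ²(Fin n × G) = ℂⁿ ⊗ ℓ²(G)`:
`T_ij ξ = (T (δ_j ⊗ ξ))(i, ·)`. -/
noncomputable def ent (i j : Fin n) (T : Op (Fin n × G)) : Op G :=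
  slL G i ∘L T ∘L tvr (dl j)

/-- `T ∈ M_n(L(G))`. -/
def InM [Group G] (T : Op (Fin n × G)) : Prop := ∀ i j, InL (ent i j T)

/-- `p` is a projection of `M_n(L(G))`. -/
def IsProj [Group G] (p : Op (Fin n × G)) : Prop := InM p ∧ IsAdj p p ∧ mul p p = p

/-- `T ∈ p M_n(L(G)) p`. -/
def InC [Group G] (p T : Op (Fin n × G)) : Prop := InM T ∧ mul p T = T ∧ mul T p = T

/-- The trace `(Tr ⊗ τ)(T) = ∑_i τ(T_ii)`. -/
noncomputable def trM [Group G] (T : Op (Fin n × G)) : ℂ := ∑ i, tr (ent i i T)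

/-- The sum of the fourth powers of all Fourier coefficients of all entries:
`∑_ij ∑_s |τ(T_ij u_s*)|⁴`. -/
noncomputable def fourM [Group G] (T : Op (Fin n × G)) : ℝ := ∑ i, ∑ j, fourth (ent i j T)

/-- A `*`-isomorphism from `L(Γ)` onto `p M_n(L(Λ)) p`. -/
structure CornerIso (Γ Λ : Type) [Group Γ] [Group Λ] (n : ℕ) (p : Op (Fin n × Λ)) where
  /-- the map (only its values on `L(Γ)` matter) -/
  toFun : Op Γ → Op (Fin n × Λ)
  /-- the inverse map (only its values on `p M_n(L(Λ)) p` matter) -/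
  invFun : Op (Fin n × Λ) → Op Γ
  map_mem : ∀ T, InL T → InC p (toFun T)
  inv_mem : ∀ T, InC p T → InL (invFun T)
  left_inv : ∀ T, InL T → invFun (toFun T) = T
  right_inv : ∀ T, InC p T → toFun (invFun T) = T
  map_add : ∀ S T, InL S → InL T → toFun (add S T) = add (toFun S) (toFun T)
  map_smul : ∀ c S T, InL S → InL T → IsSmul c S T → IsSmul c (toFun S) (toFun T)
  map_mul : ∀ S T, InL S → InL T → toFun (mul S T) = mul (toFun S) (toFun T)
  map_adj : ∀ S T, InL S → InL T → IsAdj S T → IsAdj (toFun S) (toFun T)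

end Vale.Agent.P092.H605.St
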