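import Vale.Agent.P092.H605.Core
import Vale.Agent.P092.H605.StDefs
import Vale.Agent.P092.H108.Iso

/-!
Trace identity for `*`-isomorphisms `L(Γ) → p M_n(L(Λ)) p`, `Γ` with infinite nontrivial conjugacy
classes.
-/

set_option linter.all false

namespace Vale.Agent.P092.H605.S1

open Filter Topology ContinuousLinearMap
open scoped InnerProductSpace ComplexOrder
open Vale.Agent.P092.H108 (mono_limit anti_limit le_one_of norm_le_of inner_le_of_le DC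
  nonneg_of_inner inner_nonneg_of_nonneg inner_ext exists_sqrt ff ff_nonneg ff_mono ff_le le_two_ff
  norm_ff star_apply_inner exists_fixed_hull exists_small evalR cjR)

section general

variable {H K : Type*} [NormedAddCommGroup H] [InnerProductSpace ℂ H] [CompleteSpace H]
  [NormedAddCommGroup K] [InnerProductSpace ℂ K] [CompleteSpace K]

/-- a `*`-isomorphism of `M` onto a weakly closed corner `N` -/
structure NN (M : StarSubalgebra ℂ (H →L[ℂ] H)) (N : Set (K →L[ℂ] K)) (θ : M → (K →L[ℂ] K)) :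
    Prop where
  mem : ∀ x, θ x ∈ N
  inj : Function.Injective θ
  surj : ∀ X ∈ N, ∃ x, θ x = X
  add : ∀ x y, θ (x + y) = θ x + θ y
  smul : ∀ (c : ℂ) x, θ (c • x) = c • θ x
  mul : ∀ x y, θ (x * y) = θ x * θ y
  star : ∀ x, θ (star x) = star (θ x)
  one : θ 1 ≤ 1
  lim : ∀ (U : Ultrafilter ℕ) (T : ℕ → K →L[ℂ] K) (L : K →L[ℂ] K), (∀ i, T i ∈ N) →
    (∀ ξ η : K, Tendsto (fun i => inner ℂ ξ (T i η)) U (𝓝 (inner ℂ ξ (L η)))) → L ∈ N
  sqrt : ∀ X ∈ N, 0 ≤ X → ∃ c ∈ N, Star.star c * c = X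

variable {M : StarSubalgebra ℂ (H →L[ℂ] H)} {N : Set (K →L[ℂ] K)} {θ : M → (K →L[ℂ] K)}

theorem NN.sub (h : NN M N θ) (x y : M) : θ (x - y) = θ x - θ y := by
  have h1 := h.add (x - y) y
  rw [sub_add_cancel] at h1
  rw [h1, add_sub_cancel_right]

theorem NN.zero (h : NN M N θ) : θ 0 = 0 := by
  have h1 := h.sub 0 0
  rw [sub_zero] at h1
  rw [h1, sub_self]

theorem NN.map_nonneg (hM : DC M) (h : NN M N θ) {x : M} (hx : 0 ≤ (x : H →L[ℂ] H)) :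
    0 ≤ θ x := by
  obtain ⟨c, hc, hcx⟩ := hM.sqrt_mem x.2 hx
  have h1 : x = Star.star (⟨c, hc⟩ : M) * ⟨c, hc⟩ := Subtype.ext hcx.symm
  rw [h1, h.mul, h.star]
  exact star_mul_self_nonneg (θ ⟨c, hc⟩ : K →L[ℂ] K)

theorem NN.map_mono (hM : DC M) (h : NN M N θ) {x y : M} (hxy : (x : H →L[ℂ] H) ≤ y) :
    θ x ≤ θ y := by
  have h1 : 0 ≤ ((y - x : M) : H →L[ℂ] H) := sub_nonneg.2 hxy
  have h2 := h.map_nonneg hM h1
  rw [h.sub] at h2
  exact sub_nonneg.1 h2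

theorem NN.refl_nonneg (h : NN M N θ) {x : M} (hx : 0 ≤ θ x) : 0 ≤ (x : H →L[ℂ] H) := by
  obtain ⟨c, hc, hcx⟩ := h.sqrt _ (h.mem x) hx
  obtain ⟨d, rfl⟩ := h.surj c hc
  rw [← h.star, ← h.mul] at hcx
  rw [← h.inj hcx]
  exact star_mul_self_nonneg (d : H →L[ℂ] H)

theorem NN.refl_mono (h : NN M N θ) {x y : M} (hxy : θ x ≤ θ y) : (x : H →L[ℂ] H) ≤ y := by
  have h1 : 0 ≤ θ (y - x) := by
    rw [h.sub]
    exact sub_nonneg.2 hxy
  exact sub_nonneg.1 (h.refl_nonneg h1)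

/-- the sum of the vector functionals -/
noncomputable def phi {ι : Type} [Fintype ι] (f : ι → K) (X : K →L[ℂ] K) : ℂ :=
  ∑ i, inner ℂ (f i) (X (f i))

variable {ι : Type} [Fintype ι]

theorem phi_add (f : ι → K) (X Y : K →L[ℂ] K) : phi f (X + Y) = phi f X + phi f Y := by
  unfold phi
  rw [← Finset.sum_add_distrib]
  exact Finset.sum_congr rfl fun i _ => by rw [add_apply, inner_add_right]

theorem phi_smul (f : ι → K) (c : ℂ) (X : K →L[ℂ] K) : phi f (c • X) = c * phi f X := by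
  unfold phi
  rw [Finset.mul_sum]
  exact Finset.sum_congr rfl fun i _ => by rw [smul_apply, inner_smul_right]

theorem phi_mono (f : ι → K) {X Y : K →L[ℂ] K} (h : X ≤ Y) : (phi f X).re ≤ (phi f Y).re := by
  unfold phi
  rw [Complex.re_sum, Complex.re_sum]
  exact Finset.sum_le_sum fun i _ => inner_le_of_le h _

theorem phi_tendsto (f : ι → K) {U : Ultrafilter ℕ} {T : ℕ → K →L[ℂ] K} {L : K →L[ℂ] K}
    (h : ∀ ξ η : K, Tendsto (fun i => inner ℂ ξ (T i η)) U (𝓝 (inner ℂ ξ (L η)))) :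
    Tendsto (fun i => phi f (T i)) U (𝓝 (phi f L)) :=
  tendsto_finsetSum _ fun i _ => h (f i) (f i)

theorem phi_star_mul (f : ι → K) (X : K →L[ℂ] K) :
    phi f (Star.star X * X) = ((∑ i, ‖X (f i)‖ ^ 2 : ℝ) : ℂ) := by
  unfold phi
  rw [Complex.ofReal_sum]
  refine Finset.sum_congr rfl fun i _ => ?_
  change inner ℂ (f i) ((Star.star X) (X (f i))) = _
  rw [← star_apply_inner, star_star, inner_self_eq_norm_sq_to_K]
  norm_cast

theorem phi_sq_le (f : ι → K) (X : K →L[ℂ] K) :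
    ‖phi f X‖ ^ 2 ≤ (∑ i, ‖f i‖ ^ 2) * ∑ i, ‖X (f i)‖ ^ 2 := by
  have h1 : ‖phi f X‖ ≤ ∑ i, ‖f i‖ * ‖X (f i)‖ :=
    (norm_sum_le _ _).trans (Finset.sum_le_sum fun i _ => norm_inner_le_norm _ _)
  refine (pow_le_pow_left₀ (norm_nonneg _) h1 2).trans ?_
  exact Finset.sum_mul_sq_le_sq_mul_sq _ _ _

theorem normal_key' (hM : DC M) (hθ : NN M N θ) (e : H)
    (he : ∀ T ∈ M, T e = 0 → T = 0) (f : ι → K)
    (y : ℕ → M) (h1 : ∀ n, ‖(y n : H →L[ℂ] H)‖ ≤ 1)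
    (h2 : ∀ n, ‖(y n : H →L[ℂ] H) e‖ ^ 2 ≤ (1 / 4) ^ n) (c : ℝ) (hc : 0 < c)
    (h3 : ∀ n, c ≤ (phi f (θ (Star.star (y n) * y n))).re) : False := by
  obtain ⟨a, ha⟩ : ∃ a : ℕ → M, a = fun n => Star.star (y n) * y n := ⟨_, rfl⟩
  have ha0 : ∀ n, 0 ≤ (a n : H →L[ℂ] H) := by
    intro n
    rw [ha]
    exact star_mul_self_nonneg (y n : H →L[ℂ] H)
  have ha1 : ∀ n, (a n : H →L[ℂ] H) ≤ 1 := by
    intro n
    refine le_one_of (ha0 n) ?_
    rw [ha]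
    change ‖Star.star (y n : H →L[ℂ] H) * (y n : H →L[ℂ] H)‖ ≤ 1
    rw [CStarRing.norm_star_mul_self]
    exact mul_le_one₀ (h1 n) (norm_nonneg _) (h1 n)
  have hat : ∀ n, (inner ℂ e ((a n : H →L[ℂ] H) e)).re ≤ (1 / 4) ^ n := by
    intro n
    have h5 : inner ℂ e ((a n : H →L[ℂ] H) e) = ((‖(y n : H →L[ℂ] H) e‖ ^ 2 : ℝ) : ℂ) := by
      rw [ha]
      change inner ℂ e ((Star.star (y n : H →L[ℂ] H)) ((y n : H →L[ℂ] H) e)) = _
      rw [← star_apply_inner, star_star, inner_self_eq_norm_sq_to_K]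
      norm_cast
    rw [h5, Complex.ofReal_re]
    exact h2 n
  obtain ⟨b, hb⟩ : ∃ b : ℕ → ℕ → M, b = fun N K => ∑ k ∈ Finset.range K, a (N + k) := ⟨_, rfl⟩
  have hbc : ∀ N K, (b N K : H →L[ℂ] H) = ∑ k ∈ Finset.range K, (a (N + k) : H →L[ℂ] H) := by
    intro N K
    rw [hb]
    simp only [AddSubmonoidClass.coe_finsetSum]
  have hb0 : ∀ N K, 0 ≤ (b N K : H →L[ℂ] H) := by
    intro N K
    rw [hbc]
    exact Finset.sum_nonneg fun k _ => ha0 _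
  have hbm : ∀ N K, (b N K : H →L[ℂ] H) ≤ b N (K + 1) := by
    intro N K
    rw [hbc, hbc, Finset.sum_range_succ]
    exact le_add_of_nonneg_right (ha0 _)
  have hbs : ∀ N K, (b (N + 1) K : H →L[ℂ] H) ≤ b N (K + 1) := by
    intro N K
    rw [hbc, hbc, Finset.sum_range_succ', add_zero]
    have h : ∀ k, N + 1 + k = N + (k + 1) := fun k => by ring
    simp only [h]
    exact le_add_of_nonneg_right (ha0 _)
  have hbt : ∀ N K, (inner ℂ e ((b N K : H →L[ℂ] H) e)).re ≤ 2 * (1 / 4) ^ N := by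
    intro N K
    rw [hbc, sum_apply, inner_sum, Complex.re_sum]
    calc ∑ k ∈ Finset.range K, (inner ℂ e ((a (N + k) : H →L[ℂ] H) e)).re
        ≤ ∑ k ∈ Finset.range K, (1 / 4 : ℝ) ^ N * (1 / 4) ^ k := by
          refine Finset.sum_le_sum fun k _ => ?_
          rw [← pow_add]
          exact hat _
      _ = (1 / 4 : ℝ) ^ N * ∑ k ∈ Finset.range K, (1 / 4 : ℝ) ^ k := by rw [Finset.mul_sum]
      _ ≤ (1 / 4 : ℝ) ^ N * 2 := by
          gcongr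
          have := Summable.sum_le_tsum (Finset.range K) (fun k _ => by positivity)
            (summable_geometric_of_lt_one (by norm_num : (0 : ℝ) ≤ 1 / 4) (by norm_num))
          rw [tsum_geometric_of_lt_one (by norm_num) (by norm_num)] at this
          norm_num at this ⊢
          linarith
      _ = _ := by ring
  -- the suprema
  have hs : ∀ N, ∃ s : M, ‖(s : H →L[ℂ] H)‖ ≤ 1 ∧
      (∀ K, ff (b N K : H →L[ℂ] H) ≤ s) ∧
      (∀ S : H →L[ℂ] H, (∀ K, ff (b N K : H →L[ℂ] H) ≤ S) → s ≤ S) ∧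
      (inner ℂ e ((s : H →L[ℂ] H) e)).re ≤ 2 * (1 / 4) ^ N := by
    intro N
    obtain ⟨L, U, h1, h2, h3, h4⟩ := mono_limit
      (T := fun K => ff (b N K : H →L[ℂ] H)) (fun K => norm_ff _)
      (monotone_nat_of_le_succ fun K => ff_mono (hb0 _ _) (hbm _ _))
    refine ⟨⟨L, hM.mem_of_tendsto (fun K => hM.ff_mem (b N K).2) h4⟩, h1, h2, h3, ?_⟩
    refine le_of_tendsto ((Complex.continuous_re.tendsto _).comp (h4 e e)) ?_
    refine Eventually.of_forall fun K => ?_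
    exact (inner_le_of_le (ff_le (hb0 N K)) _).trans (hbt N K)
  choose s hs1 hs2 hs3 hs4 using hs
  have hs0 : ∀ N, 0 ≤ (s N : H →L[ℂ] H) := fun N => (ff_nonneg _).trans (hs2 N 0)
  have hsm : ∀ N, (s (N + 1) : H →L[ℂ] H) ≤ s N := by
    intro N
    refine hs3 _ _ fun K => ?_
    exact (ff_mono (hb0 _ _) (hbs _ _)).trans (hs2 N (K + 1))
  obtain ⟨L, U, hL1, hL2, hL3, hL4⟩ := anti_limit hs1 (antitone_nat_of_succ_le hsm)
  have hLm : L ∈ M := hM.mem_of_tendsto (fun K => (s K).2) hL4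
  have hL0 : 0 ≤ L := hL3 0 hs0
  have hLz : L = 0 := by
    obtain ⟨c, hc, hcL⟩ := hM.sqrt_mem hLm hL0
    have h5 : ∀ N : ℕ, (inner ℂ e (L e)).re ≤ 2 * (1 / 4) ^ N := fun N =>
      (inner_le_of_le (hL2 N) _).trans (hs4 N)
    have h6 : Tendsto (fun N : ℕ => 2 * (1 / 4 : ℝ) ^ N) atTop (𝓝 (2 * 0)) :=
      (tendsto_pow_atTop_nhds_zero_of_lt_one (by norm_num) (by norm_num)).const_mul _
    rw [mul_zero] at h6
    have h7 := ge_of_tendsto' h6 h5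
    have h8 : inner ℂ e (L e) = ((‖c e‖ ^ 2 : ℝ) : ℂ) := by
      rw [← hcL]
      change inner ℂ e ((Star.star c) (c e)) = _
      rw [← star_apply_inner, star_star, inner_self_eq_norm_sq_to_K]
      norm_cast
    rw [h8, Complex.ofReal_re] at h7
    have h9 : c e = 0 := by
      rw [← norm_eq_zero]
      exact pow_eq_zero_iff (two_ne_zero) |>.1 (le_antisymm h7 (sq_nonneg _))
    rw [← hcL, he c hc h9, mul_zero]
  -- the other side
  have ht0 : ∀ N, 0 ≤ (θ (s N) : K →L[ℂ] K) := fun N => hθ.map_nonneg hM (hs0 N)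
  have ht1 : ∀ N, ‖(θ (s N) : K →L[ℂ] K)‖ ≤ 1 := by
    intro N
    refine norm_le_of (ht0 N) ?_
    have h5 : (s N : H →L[ℂ] H) ≤ (1 : M) := le_one_of (hs0 N) (hs1 N)
    exact (hθ.map_mono hM h5).trans hθ.one
  obtain ⟨R, V, hM1, hM2, hM3, hM4⟩ := anti_limit ht1
    (antitone_nat_of_succ_le fun N => hθ.map_mono hM (hsm N))
  have hMm : R ∈ N := hθ.lim V _ _ (fun K => hθ.mem (s K)) hM4
  have hM0 : 0 ≤ R := hM3 0 ht0
  have hMz' : R = 0 := by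
    obtain ⟨x, rfl⟩ := hθ.surj R hMm
    have h5 : ∀ N, (x : H →L[ℂ] H) ≤ s N := fun N => hθ.refl_mono (hM2 N)
    have h6 := hL3 _ h5
    rw [hLz] at h6
    have h7 : 0 ≤ (x : H →L[ℂ] H) := hθ.refl_nonneg hM0
    have h8 : x = 0 := Subtype.ext (le_antisymm h6 h7)
    rw [h8, hθ.zero]
  have h5 : ∀ N, c / 2 ≤ (phi f (θ (s N))).re := by
    intro N
    have h6 : (a N : H →L[ℂ] H) ≤ (s N + s N : M) := by
      have h7 : ff (a N : H →L[ℂ] H) ≤ s N := by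
        have h8 := hs2 N 1
        have h9 : b N 1 = a N := by
          rw [hb]
          simp
        rwa [h9] at h8
      exact (le_two_ff (ha0 N) (ha1 N)).trans (add_le_add h7 h7)
    have h7 := phi_mono f (hθ.map_mono hM h6)
    rw [hθ.add, phi_add, Complex.add_re] at h7
    have h9 := h3 N
    rw [ha] at h7
    linarith
  have h6 := (Complex.continuous_re.tendsto _).comp (phi_tendsto f hM4)
  rw [hMz'] at h6
  have h7 := ge_of_tendsto h6 (Eventually.of_forall h5)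
  simp [phi] at h7
  linarith

theorem trace_aux' (hM : DC M) (hθ : NN M N θ) (e : H)
    (he : ∀ T ∈ M, T e = 0 → T = 0) (f : ι → K)
    {G : Type*} [Group G] (U : G → M) (hU : ∀ g, Star.star (U g) * U g = 1)
    (hUU : ∀ g h, U (g * h) = U g * U h)
    (W : G → H → H) (hWc : ∀ g, Continuous (W g)) (hWn : ∀ g x, ‖W g x‖ ≤ ‖x‖)
    (hWE : ∀ g, ∀ y : M, W g ((y : H →L[ℂ] H) e) =
      ((U g * y * Star.star (U g) : M) : H →L[ℂ] H) e)
    (hW0 : ∀ ζ, (∀ g, W g ζ = ζ) → inner ℂ e ζ = 0 → ζ = 0)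
    (htr : ∀ x y : M, phi f (θ (x * y)) = phi f (θ (y * x)))
    (T : M) (hT1 : ‖(T : H →L[ℂ] H)‖ ≤ 1)
    (hT0 : ∀ g, inner ℂ e (((U g * T * Star.star (U g) : M) : H →L[ℂ] H) e) = 0) :
    phi f (θ T) = 0 := by
  by_contra hne
  obtain ⟨cj, hcj⟩ : ∃ cj : G → (H →L[ℂ] H) →ₗ[ℝ] (H →L[ℂ] H),
      cj = fun g => cjR (U g : H →L[ℂ] H) (Star.star (U g : H →L[ℂ] H)) := ⟨_, rfl⟩
  have hcje : ∀ g (y : M), cj g (y : H →L[ℂ] H) =
      ((U g * y * Star.star (U g) : M) : H →L[ℂ] H) := by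
    intro g y
    rw [hcj]
    rfl
  have hcc : ∀ g h x, cj g (cj h x) = cj (g * h) x := by
    intro g h x
    rw [hcj]
    change (U g : H →L[ℂ] H) * ((U h : H →L[ℂ] H) * x * Star.star (U h : H →L[ℂ] H)) *
      Star.star (U g : H →L[ℂ] H) = (U (g * h) : H →L[ℂ] H) * x *
        Star.star (U (g * h) : H →L[ℂ] H)
    rw [hUU]
    change _ = ((U g : H →L[ℂ] H) * (U h : H →L[ℂ] H)) * x *
      Star.star ((U g : H →L[ℂ] H) * (U h : H →L[ℂ] H))
    rw [star_mul]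
    simp only [mul_assoc]
  obtain ⟨C, hC⟩ : ∃ C : Set (H →L[ℂ] H),
    C = convexHull ℝ (Set.range fun g => cj g (T : H →L[ℂ] H)) := ⟨_, rfl⟩
  have hUn : ∀ g, ‖(U g : H →L[ℂ] H)‖ ≤ 1 := by
    intro g
    have h1 : Star.star (U g : H →L[ℂ] H) * (U g : H →L[ℂ] H) = 1 := congrArg Subtype.val (hU g)
    have h2 : ‖(U g : H →L[ℂ] H)‖ * ‖(U g : H →L[ℂ] H)‖ ≤ 1 := by
      rw [← CStarRing.norm_star_mul_self, h1]
      exact ContinuousLinearMap.norm_id_le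
    nlinarith [norm_nonneg (U g : H →L[ℂ] H)]
  -- properties of the elements of the hull
  have hP : ∀ y ∈ C, ∃ hy : y ∈ M, ‖y‖ ≤ 1 ∧ phi f (θ ⟨y, hy⟩) = phi f (θ T) ∧
      inner ℂ e (y e) = 0 := by
    have hconv : Convex ℝ {y : H →L[ℂ] H | ∃ hy : y ∈ M, ‖y‖ ≤ 1 ∧
        phi f (θ ⟨y, hy⟩) = phi f (θ T) ∧ inner ℂ e (y e) = 0} := by
      rintro x ⟨hx, hx1, hx2, hx3⟩ y ⟨hy, hy1, hy2, hy3⟩ a b ha hb hab
      have h3 : a • x + b • y = (a : ℂ) • x + (b : ℂ) • y := by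
        simp only [Complex.coe_smul]
      have hmem : a • x + b • y ∈ M := by
        rw [h3]
        exact add_mem (M.smul_mem hx _) (M.smul_mem hy _)
      have hel : (⟨a • x + b • y, hmem⟩ : M) = (a : ℂ) • ⟨x, hx⟩ + (b : ℂ) • ⟨y, hy⟩ := by
        ext1
        exact h3
      refine ⟨hmem, ?_, ?_, ?_⟩
      · calc ‖a • x + b • y‖ ≤ ‖a • x‖ + ‖b • y‖ := norm_add_le _ _
          _ = a * ‖x‖ + b * ‖y‖ := by
              rw [norm_smul, norm_smul, Real.norm_of_nonneg ha, Real.norm_of_nonneg hb]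
          _ ≤ a * 1 + b * 1 := by gcongr
          _ = 1 := by rw [← add_mul, hab, one_mul]
      · rw [hel, hθ.add, hθ.smul, hθ.smul, phi_add, phi_smul, phi_smul, hx2, hy2, ← add_mul,
          ← Complex.ofReal_add, hab, Complex.ofReal_one, one_mul]
      · rw [h3]
        change inner ℂ e ((a : ℂ) • (x e) + (b : ℂ) • (y e)) = _
        rw [inner_add_right, inner_smul_right, inner_smul_right, hx3, hy3, mul_zero, mul_zero,
          add_zero]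
    intro y hy
    rw [hC] at hy
    refine convexHull_min ?_ hconv hy
    rintro _ ⟨g, rfl⟩
    have hmem : cj g (T : H →L[ℂ] H) ∈ M := by rw [hcje]; exact SetLike.coe_mem _
    have hel : (⟨cj g (T : H →L[ℂ] H), hmem⟩ : M) = U g * T * Star.star (U g) :=
      Subtype.ext (hcje g T)
    refine ⟨hmem, ?_, ?_, ?_⟩
    · rw [hcj]
      change ‖(U g : H →L[ℂ] H) * (T : H →L[ℂ] H) * Star.star (U g : H →L[ℂ] H)‖ ≤ 1
      calc _ ≤ ‖(U g : H →L[ℂ] H) * (T : H →L[ℂ] H)‖ * ‖Star.star (U g : H →L[ℂ] H)‖ :=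
            norm_mul_le _ _
        _ ≤ (‖(U g : H →L[ℂ] H)‖ * ‖(T : H →L[ℂ] H)‖) * ‖Star.star (U g : H →L[ℂ] H)‖ := by
            gcongr
            exact norm_mul_le _ _
        _ ≤ (1 * 1) * 1 := by
            rw [norm_star]
            gcongr
            · exact hUn g
            · exact hUn g
        _ = 1 := by norm_num
    · rw [hel, htr, ← mul_assoc, hU, one_mul]
    · have h5 := hT0 g
      rw [← hcje] at h5
      exact h5
  have hWE' : ∀ g, ∀ y ∈ C, W g (evalR e y) = evalR e (cj g y) := by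
    intro g y hy
    obtain ⟨hy, -⟩ := hP y hy
    have h1 := hWE g ⟨y, hy⟩
    have h2 := hcje g ⟨y, hy⟩
    change W g (y e) = (cj g y) e
    rw [h1]
    exact (DFunLike.congr_fun h2 e).symm
  rw [hC] at hWE'
  obtain ⟨ζ, hζ, hfix⟩ := exists_fixed_hull (evalR e) cj (T : H →L[ℂ] H) hcc W hWc hWn hWE'
  rw [← hC] at hζ
  have hζ0 : ζ = 0 := by
    refine hW0 ζ hfix ?_
    have hcl : IsClosed {ξ : H | inner ℂ e ξ = 0} := isClosed_eq (by fun_prop) continuous_const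
    refine closure_minimal ?_ hcl hζ
    rintro _ ⟨y, hy, rfl⟩
    exact (hP y hy).choose_spec.2.2
  rw [hζ0] at hζ
  have hy : ∀ n : ℕ, ∃ y : M, (y : H →L[ℂ] H) ∈ C ∧
      ‖(y : H →L[ℂ] H) e‖ ^ 2 ≤ (1 / 4) ^ n := by
    intro n
    obtain ⟨y, hy, hyn⟩ := exists_small (evalR e) hζ n
    exact ⟨⟨y, (hP y hy).choose⟩, hy, hyn⟩
  choose y hyC hyn using hy
  have hpos : 0 < ‖phi f (θ T)‖ ^ 2 := by
    have : 0 < ‖phi f (θ T)‖ := norm_pos_iff.2 hne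
    positivity
  have hCf : 0 < (∑ i, ‖f i‖ ^ 2) + 1 := by
    have : 0 ≤ ∑ i, ‖f i‖ ^ 2 := Finset.sum_nonneg fun i _ => by positivity
    linarith
  refine normal_key' hM hθ e he f y
    (fun n => (hP _ (hyC n)).choose_spec.1) hyn (‖phi f (θ T)‖ ^ 2 / ((∑ i, ‖f i‖ ^ 2) + 1))
    (by positivity) fun n => ?_
  obtain ⟨hy1, -, hy2, -⟩ := hP _ (hyC n)
  rw [hθ.mul, hθ.star, phi_star_mul, Complex.ofReal_re, div_le_iff₀ hCf]
  have h4 := phi_sq_le f (θ (y n))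
  have h5 : phi f (θ (y n)) = phi f (θ T) := hy2
  rw [h5] at h4
  refine h4.trans ?_
  rw [mul_comm]
  have h6 : 0 ≤ ∑ i, ‖θ (y n) (f i)‖ ^ 2 := Finset.sum_nonneg fun i _ => by positivity
  gcongr
  linarith

end general

section concrete

open Vale.Agent.P092.H160

variable {n : ℕ} {Γ Λ : Type} [Group Γ] [Group Λ]

theorem rt_eq_ampR (x : Λ) : rt (Fin n) x = ampR (Fin n) (rho x) := by
  ext1 v
  apply ext_inner_dl
  rintro ⟨i, h⟩
  rfl

theorem inM_iff {T : St.Op (Fin n × Λ)} : St.InM T ↔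
    ∀ S : Ell2 Λ →L[ℂ] Ell2 Λ, (∀ g, S * lam g = lam g * S) →
      T * ampR (Fin n) S = ampR (Fin n) S * T := by
  constructor
  · intro h S hS
    apply op_ext
    rintro ⟨j, x⟩
    apply ext_inner_dl
    rintro ⟨i, y⟩
    have h1 := DFunLike.congr_fun (h i j S hS) (dl x)
    have h2 : (slL Λ i (T (tvr (dl j) (S (dl x)))) : Ell2 Λ) y =
        (S (slL Λ i (T (tvr (dl j) (dl x)))) : Ell2 Λ) y := by
      have h3 : slL Λ i (T (tvr (dl j) (S (dl x)))) = S (slL Λ i (T (tvr (dl j) (dl x)))) := h1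
      rw [h3]
    change (T (ampR (Fin n) S (dl (j, x)))) (i, y) = (ampR (Fin n) S (T (dl (j, x)))) (i, y)
    rw [dl_prod, ampR_tv]
    exact h2
  · intro h i j S hS
    ext1 v
    have h1 := DFunLike.congr_fun (h S hS) (tv (dl j) v)
    have h2 : T (ampR (Fin n) S (tv (dl j) v)) = ampR (Fin n) S (T (tv (dl j) v)) := h1
    rw [ampR_tv] at h2
    change slL Λ i (T (tvr (dl j) (S v))) = S (slL Λ i (T (tvr (dl j) v)))
    rw [tvr_apply, tvr_apply, h2]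
    rfl

theorem hm_of_inM {T : St.Op (Fin n × Λ)} (h : St.InM T) : Hm T := by
  intro x v
  have h1 := DFunLike.congr_fun (inM_iff.mp h (rho x) fun g => rho_lam x g) v
  rw [rt_eq_ampR]
  exact h1

theorem inM_of_hm {T : St.Op (Fin n × Λ)} (h : Hm T) : St.InM T := by
  intro i j
  rw [inL_iff, mem_LG_iff]
  intro s
  ext1 v
  have h1 := h s (tv (dl j) v)
  rw [rt_eq_ampR, ampR_tv] at h1
  change slL Λ i (T (tvr (dl j) (rho s v))) = rho s (slL Λ i (T (tvr (dl j) v)))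
  rw [tvr_apply, tvr_apply, h1]
  rfl

theorem inM_iff_hm {T : St.Op (Fin n × Λ)} : St.InM T ↔ Hm T := ⟨hm_of_inM, inM_of_hm⟩

theorem isSmul_iff' {X : Type} (c : ℂ) (S T : St.Op X) : St.IsSmul c S T ↔ T = c • S := by
  constructor
  · intro h
    ext1 ξ
    exact h ξ
  · rintro rfl ξ
    rfl

theorem isAdj_iff' {X : Type} (S T : St.Op X) : St.IsAdj S T ↔ T = Star.star S := by
  constructor
  · intro h
    rw [star_eq_adjoint, eq_comm]
    have h2 := (ContinuousLinearMap.eq_adjoint_iff S T).mpr h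
    rw [h2, adjoint_adjoint]
  · rintro rfl ξ η
    change ⟪S ξ, η⟫_ℂ = ⟪ξ, Star.star S η⟫_ℂ
    rw [star_eq_adjoint, adjoint_inner_right]

theorem comm_lim {K : Type*} [NormedAddCommGroup K] [InnerProductSpace ℂ K] [CompleteSpace K]
    {U : Ultrafilter ℕ} {T : ℕ → K →L[ℂ] K} {L : K →L[ℂ] K}
    (hL : ∀ ξ η : K, Tendsto (fun i => inner ℂ ξ (T i η)) U (𝓝 (inner ℂ ξ (L η))))
    (A B C D : K →L[ℂ] K) (h : ∀ i, A * T i * B = C * T i * D) : A * L * B = C * L * D := by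
  refine inner_ext fun ξ η => ?_
  have h1 : Tendsto (fun i => inner ℂ ξ ((A * T i * B) η)) U (𝓝 (inner ℂ ξ ((A * L * B) η))) := by
    have := hL (Star.star A ξ) (B η)
    simp only [star_apply_inner] at this
    exact this
  have h2 : Tendsto (fun i => inner ℂ ξ ((C * T i * D) η)) U (𝓝 (inner ℂ ξ ((C * L * D) η))) := by
    have := hL (Star.star C ξ) (D η)
    simp only [star_apply_inner] at this
    exact this
  refine tendsto_nhds_unique h1 (h2.congr fun i => ?_)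
  rw [h i]

theorem hm_iff_comm {T : Ell2 (Fin n × Λ) →L[ℂ] Ell2 (Fin n × Λ)} :
    Hm T ↔ ∀ x, T * rt (Fin n) x = rt (Fin n) x * T :=
  ⟨fun h x => by ext1 v; exact h x v, fun h x v => DFunLike.congr_fun (h x) v⟩

theorem nn_of (p : St.Op (Fin n × Λ)) (hp : St.IsProj p) (θ : St.CornerIso Γ Λ n p) :
    NN (LG Γ) {X | St.InC p X} (fun x : LG Γ => θ.toFun (x : Ell2 Γ →L[ℂ] Ell2 Γ)) := by
  obtain ⟨hpM, hpa, hpp⟩ := hp
  have hpp' : p * p = p := hpp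
  have hpa' : Star.star p = p := ((isAdj_iff' _ _).mp hpa).symm
  have hmem : ∀ x : LG Γ, St.InC p (θ.toFun (x : Ell2 Γ →L[ℂ] Ell2 Γ)) :=
    fun x => θ.map_mem _ ((inL_iff _).mpr x.2)
  have hmul : ∀ x y : LG Γ, θ.toFun ((x * y : LG Γ) : Ell2 Γ →L[ℂ] Ell2 Γ) =
      θ.toFun (x : Ell2 Γ →L[ℂ] Ell2 Γ) * θ.toFun (y : Ell2 Γ →L[ℂ] Ell2 Γ) :=
    fun x y => θ.map_mul _ _ ((inL_iff _).mpr x.2) ((inL_iff _).mpr y.2)
  have hsurj : ∀ X, St.InC p X → ∃ x : LG Γ, θ.toFun (x : Ell2 Γ →L[ℂ] Ell2 Γ) = X :=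
    fun X hX => ⟨⟨θ.invFun X, (inL_iff _).mp (θ.inv_mem X hX)⟩, θ.right_inv X hX⟩
  refine ⟨hmem, ?_, hsurj, ?_, ?_, hmul, ?_, ?_, ?_, ?_⟩
  · intro x y hxy
    have h1 := θ.left_inv _ ((inL_iff _).mpr x.2)
    have h2 := θ.left_inv _ ((inL_iff _).mpr y.2)
    have h3 : θ.toFun (x : Ell2 Γ →L[ℂ] Ell2 Γ) = θ.toFun (y : Ell2 Γ →L[ℂ] Ell2 Γ) := hxy
    rw [h3] at h1
    exact Subtype.ext (h1.symm.trans h2)
  · exact fun x y => θ.map_add _ _ ((inL_iff _).mpr x.2) ((inL_iff _).mpr y.2)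
  · exact fun c x => (isSmul_iff' _ _ _).mp (θ.map_smul c _ _ ((inL_iff _).mpr x.2)
      ((inL_iff _).mpr (c • x).2) ((isSmul_iff' _ _ _).mpr rfl))
  · exact fun x => (isAdj_iff' _ _).mp (θ.map_adj _ _ ((inL_iff _).mpr x.2)
      ((inL_iff _).mpr (Star.star x).2) ((isAdj_iff' _ _).mpr rfl))
  · -- `θ 1 = p ≤ 1`
    obtain ⟨x0, hx0⟩ := hsurj p ⟨hpM, hpp, hpp⟩
    have h1 := hmul 1 x0
    rw [one_mul, hx0] at h1
    have h2 : θ.toFun ((1 : LG Γ) : Ell2 Γ →L[ℂ] Ell2 Γ) * p =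
      θ.toFun ((1 : LG Γ) : Ell2 Γ →L[ℂ] Ell2 Γ) := (hmem 1).2.2
    have h3 : θ.toFun ((1 : LG Γ) : Ell2 Γ →L[ℂ] Ell2 Γ) = p := h2.symm.trans h1.symm
    change θ.toFun ((1 : LG Γ) : Ell2 Γ →L[ℂ] Ell2 Γ) ≤ 1
    rw [h3, ← sub_nonneg]
    have h4 : (1 : Ell2 (Fin n × Λ) →L[ℂ] Ell2 (Fin n × Λ)) - p = Star.star (1 - p) * (1 - p) := by
      rw [star_sub, star_one, hpa', mul_sub, sub_mul, sub_mul, mul_one, one_mul, hpp']
      abel
    rw [h4]
    exact star_mul_self_nonneg _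
  · intro U T L hT hL
    refine ⟨inM_of_hm (hm_iff_comm.mpr fun x => ?_), ?_, ?_⟩
    · have h1 := comm_lim hL 1 (rt (Fin n) x) (rt (Fin n) x) 1 fun i => by
        rw [one_mul, mul_one]
        exact hm_iff_comm.mp (hm_of_inM (hT i).1) x
      rwa [one_mul, mul_one] at h1
    · have h1 := comm_lim hL p 1 1 1 fun i => by
        rw [one_mul, mul_one, mul_one]
        exact (hT i).2.1
      rw [one_mul, mul_one, mul_one] at h1
      exact h1
    · have h1 := comm_lim hL 1 p 1 1 fun i => by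
        rw [one_mul, mul_one]
        exact (hT i).2.2
      rw [one_mul, mul_one] at h1
      exact h1
  · rintro X ⟨hX1, hX2, hX3⟩ hX0
    obtain ⟨c, hc, hcomm⟩ := exists_sqrt hX0
    have hX2' : p * X = X := hX2
    have hX3' : X * p = X := hX3
    have hpc : p * c = c * p := hcomm p (hX2'.trans hX3'.symm)
    have hcp : c * p = c := by
      have h1 : Star.star (c - c * p) * (c - c * p) = 0 := by
        have h2 : c - c * p = c * (1 - p) := by rw [mul_sub, mul_one]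
        rw [h2, star_mul, mul_assoc, ← mul_assoc (Star.star c), hc, mul_sub, mul_one, hX3', sub_self,
          mul_zero]
      have h3 : ‖c - c * p‖ * ‖c - c * p‖ = 0 := by
        rw [← CStarRing.norm_star_mul_self, h1, norm_zero]
      have h4 : c - c * p = 0 := by
        rw [← norm_eq_zero]
        exact mul_self_eq_zero.mp h3
      exact (sub_eq_zero.mp h4).symm
    refine ⟨c, ⟨inM_of_hm (hm_iff_comm.mpr fun x => ?_), hpc.trans hcp, hcp⟩, hc⟩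
    exact (hcomm _ (hm_iff_comm.mp (hm_of_inM hX1) x).symm).symm

theorem TR_comm {X Y : Ell2 (Fin n × Λ) →L[ℂ] Ell2 (Fin n × Λ)} (hX : Hm X) (hY : Hm Y) :
    TR (X * Y) = TR (Y * X) := by
  have h1 := TR_mul (adjoint X) Y
  have h2 := TR_mul (adjoint Y) X
  rw [adjoint_adjoint] at h1 h2
  rw [h1, h2, ← hs_adj hX.adj hY, adjoint_adjoint]

theorem tr_corner_aux (hΓ : ∀ g : Γ, g ≠ 1 → Set.Infinite {y : Γ | ∃ h, y = h * g * h⁻¹})
    {p : St.Op (Fin n × Λ)} (hp : St.IsProj p) (θ : St.CornerIso Γ Λ n p) (T : LG Γ)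
    (h1 : ‖(T : Ell2 Γ →L[ℂ] Ell2 Γ)‖ ≤ 1) (h0 : tr T = 0) :
    TR (θ.toFun (T : Ell2 Γ →L[ℂ] Ell2 Γ)) = 0 := by
  have hθ := nn_of p hp θ
  refine trace_aux' H108.dc_LG hθ (dl 1) (fun T hT h => H108.eq_zero_of_dl hT h)
    (fun i : Fin n => (dl (i, 1) : Ell2 (Fin n × Λ)))
    (G := Γ) uu H108.star_uu_mul (fun g h => ?_) (fun g x => lam g (H108.rho g x))
    (fun g => (lam g).continuous.comp (H108.rho g).continuous)
    (fun g x => le_of_eq ((H108.norm_rei _ _).trans (H108.norm_rei _ _))) (fun g y => ?_)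
    (fun ζ hζ hζ1 => H108.fixed_eq_zero hΓ hζ ((H108.inner_dl 1 ζ).symm.trans hζ1))
    (fun x y => ?_) T h1 (fun g => ?_)
  · ext1
    change lam (g * h) = lam g * lam h
    ext ξ x
    simp [mul_assoc]
  · change lam g (H108.rho g ((y : Ell2 Γ →L[ℂ] Ell2 Γ) (dl 1))) =
      lam g ((y : Ell2 Γ →L[ℂ] Ell2 Γ) ((Star.star (lam g) : Ell2 Γ →L[ℂ] Ell2 Γ) (dl 1)))
    have h3 : (y : Ell2 Γ →L[ℂ] Ell2 Γ) (H108.rho g (dl 1)) =
      H108.rho g ((y : Ell2 Γ →L[ℂ] Ell2 Γ) (dl 1)) := DFunLike.congr_fun (H108.mem_LG_rho y.2 g) _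
    rw [H108.star_lam, ← h3, H108.rho_dl, H108.lam_dl, one_mul, mul_one]
  · rw [hθ.mul, hθ.mul]
    exact TR_comm (hm_of_inM (hθ.mem x).1) (hm_of_inM (hθ.mem y).1)
  · change tr (uu g * T * Star.star (uu g)) = 0
    rw [H108.tr_comm, ← mul_assoc, H108.star_uu_mul, one_mul, h0]

theorem toFun_one {p : St.Op (Fin n × Λ)} (hp : St.IsProj p) (θ : St.CornerIso Γ Λ n p) :
    θ.toFun ((1 : LG Γ) : Ell2 Γ →L[ℂ] Ell2 Γ) = p := by
  have hθ := nn_of p hp θ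
  obtain ⟨x0, hx0⟩ := hθ.surj p ⟨hp.1, hp.2.2, hp.2.2⟩
  have h1 := hθ.mul 1 x0
  rw [one_mul, hx0] at h1
  have h2 : θ.toFun ((1 : LG Γ) : Ell2 Γ →L[ℂ] Ell2 Γ) * p =
    θ.toFun ((1 : LG Γ) : Ell2 Γ →L[ℂ] Ell2 Γ) := (hθ.mem 1).2.2
  exact h2.symm.trans h1.symm

/-- trace identity -/
theorem tr_corner (hΓ : ∀ g : Γ, g ≠ 1 → Set.Infinite {y : Γ | ∃ h, y = h * g * h⁻¹})
    {p : St.Op (Fin n × Λ)} (hp : St.IsProj p) (θ : St.CornerIso Γ Λ n p)
    (T : Ell2 Γ →L[ℂ] Ell2 Γ) (hT : St.InL T) : TR (θ.toFun T) = TR p * St.tr T := by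
  have hθ := nn_of p hp θ
  have hadd : ∀ x y : LG Γ, TR (θ.toFun ((x + y : LG Γ) : Ell2 Γ →L[ℂ] Ell2 Γ)) =
      TR (θ.toFun (x : Ell2 Γ →L[ℂ] Ell2 Γ)) + TR (θ.toFun (y : Ell2 Γ →L[ℂ] Ell2 Γ)) := by
    intro x y
    have h1 := hθ.add x y
    rw [h1]
    exact phi_add _ _ _
  have hsmul : ∀ (c : ℂ) (x : LG Γ), TR (θ.toFun ((c • x : LG Γ) : Ell2 Γ →L[ℂ] Ell2 Γ)) =
      c * TR (θ.toFun (x : Ell2 Γ →L[ℂ] Ell2 Γ)) := by
    intro c x
    have h1 := hθ.smul c x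
    rw [h1]
    exact phi_smul _ _ _
  obtain ⟨x, hx⟩ : ∃ x : LG Γ, (x : Ell2 Γ →L[ℂ] Ell2 Γ) = T := ⟨⟨T, (inL_iff _).mp hT⟩, rfl⟩
  have htr : St.tr (x : Ell2 Γ →L[ℂ] Ell2 Γ) = tr x := rfl
  obtain ⟨S, hS⟩ : ∃ S : LG Γ, S = x - tr x • 1 := ⟨_, rfl⟩
  have hS0 : tr S = 0 := by
    rw [hS, sub_eq_add_neg, ← neg_one_smul ℂ (tr x • (1 : LG Γ)), H108.tr_add, H108.tr_smul,
      H108.tr_smul, H108.tr_one]
    ring
  obtain ⟨c, hc⟩ : ∃ c : ℝ, c = (‖(S : Ell2 Γ →L[ℂ] Ell2 Γ)‖ + 1)⁻¹ := ⟨_, rfl⟩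
  have hn : 0 < ‖(S : Ell2 Γ →L[ℂ] Ell2 Γ)‖ + 1 := by positivity
  have hc0 : 0 < c := by rw [hc]; positivity
  have h1 := tr_corner_aux hΓ hp θ ((c : ℂ) • S) (by
    change ‖(c : ℂ) • (S : Ell2 Γ →L[ℂ] Ell2 Γ)‖ ≤ 1
    rw [norm_smul, Complex.norm_real, Real.norm_of_nonneg hc0.le, hc, inv_mul_le_iff₀ hn]
    linarith) (by rw [H108.tr_smul, hS0, mul_zero])
  rw [hsmul, mul_eq_zero] at h1
  have h2 : TR (θ.toFun (S : Ell2 Γ →L[ℂ] Ell2 Γ)) = 0 := by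
    rcases h1 with h1 | h1
    · exact absurd (Complex.ofReal_eq_zero.1 h1) hc0.ne'
    · exact h1
  have h3 : x = S + tr x • 1 := by rw [hS]; abel
  rw [← hx]
  conv_lhs => rw [h3]
  rw [hadd, hsmul, toFun_one hp, h2, htr, zero_add, mul_comm]

end concrete

end Vale.Agent.P092.H605.S1
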